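import Vale.Agent.P144F58.Defs
import Vale.Agent.P144.H436.Plane
import Mathlib.MeasureTheory.Function.Floor

/-!
# P144W: the smeared spin field of the free critical plane state is subgaussian (helper13)
-/

set_option autoImplicit false
set_option linter.all false

noncomputable section

namespace Vale.Agent.P144W.C13

open MeasureTheory Filter Topology Vale.Agent.P144 Vale.Agent.P144.H436 Vale.Agent.P144F58

section fin

variable {ι : Type*} [Fintype ι] [DecidableEq ι]

theorem flip (K : ι → ι → ℝ) (F : (ι → Bool) → ℝ) :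
    ev K (fun _ => 0) F = ev K (fun _ => 0) (fun s => F (fun i => !(s i))) := by
  unfold ev
  congr 1
  refine Finset.sum_equiv (⟨fun s i => !(s i), fun s i => !(s i), fun s => by simp,
      fun s => by simp⟩ : (ι → Bool) ≃ (ι → Bool)) (by simp) fun s _ => ?_
  have : wt K (fun _ => 0) s = wt K (fun _ => 0) (fun i => !(s i)) := by
    unfold wt ex
    simp only [sp_not, neg_mul_neg, zero_mul]
  simp only [Equiv.coe_fn_mk, Bool.not_not, ← this]

theorem lin_flip (w : ι → ℝ) (s : ι → Bool) : lin w (fun i => !(s i)) = -lin w s := by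
  unfold lin
  simp only [sp_not, mul_neg, Finset.sum_neg_distrib]

theorem le_of_deriv {g g' : ℝ → ℝ} (hd : ∀ t, HasDerivAt g (g' t) t) (h : ∀ t, 0 ≤ t → g' t ≤ 0)
    {t : ℝ} (ht : 0 ≤ t) : g t ≤ g 0 := by
  have : AntitoneOn g (Set.Ici 0) := by
    refine antitoneOn_of_deriv_nonpos (convex_Ici 0)
      (fun t _ => (hd t).continuousAt.continuousWithinAt)
      (fun t _ => (hd t).differentiableAt.differentiableWithinAt) fun t ht => ?_
    rw [(hd t).deriv]
    exact h t (interior_subset ht)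
  exact this Set.self_mem_Ici ht ht

theorem mag_le {K : ι → ι → ℝ} (hK : ∀ i j, 0 ≤ K i j) {w : ι → ℝ} (hw : ∀ i, 0 ≤ w i) {t : ℝ}
    (ht : 0 ≤ t) : ev K (fun i => 0 + t * w i) (lin w) ≤
      t * ev K (fun _ => 0) (fun s => lin w s ^ 2) := by
  have e0 : (fun i => (0 : ℝ) + 0 * w i) = fun _ => 0 := by
    funext i
    simp
  have odd : ∀ z : ι, ev K (fun _ => 0) (sg z) = 0 := by
    intro z
    have h := flip K (sg z)
    have e : (fun s : ι → Bool => sg z fun i => !(s i)) = fun s => (-1) * sg z s := by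
      funext s
      simp [sg, sp_not]
    rw [e, ev_const_mul] at h
    linarith
  have h1 : ∀ z t, 0 ≤ t → cov K (fun i => 0 + t * w i) (sg z) (lin w) ≤
      cov K (fun _ => 0) (sg z) (lin w) := by
    intro z t ht
    have := le_of_deriv (hasDerivAt_cov K (fun _ => 0) w z) (fun t ht =>
      third_cumulant_nonpos hK (fun i => add_nonneg le_rfl (mul_nonneg ht (hw i))) hw z) ht
    simpa only [e0] using this
  have h2 : ∀ z, ev K (fun i => 0 + t * w i) (sg z) ≤
      t * ev K (fun _ => 0) (fun s => sg z s * lin w s) := by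
    intro z
    have := le_of_deriv (g := fun t => ev K (fun i => 0 + t * w i) (sg z) -
        t * cov K (fun _ => 0) (sg z) (lin w))
      (fun t => (hasDerivAt_ev K (fun _ => 0) w (sg z) t).sub
        (by simpa using (hasDerivAt_id t).mul_const (cov K (fun _ => 0) (sg z) (lin w))))
      (fun t ht => sub_nonpos.2 (h1 z t ht)) ht
    simp only [e0] at this
    simp only [odd, zero_mul, sub_zero, cov] at this
    linarith
  have e1 : ev K (fun i => 0 + t * w i) (lin w) =
      ∑ z, w z * ev K (fun i => 0 + t * w i) (sg z) := by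
    have : (lin w : (ι → Bool) → ℝ) = fun s => ∑ z, w z * sg z s := rfl
    rw [this, ev_sum]
    exact Finset.sum_congr rfl fun z _ => ev_const_mul _ _ _ _
  have e2 : ev K (fun _ => 0) (fun s => lin w s ^ 2) =
      ∑ z, w z * ev K (fun _ => 0) (fun s => sg z s * lin w s) := by
    have : (fun s : ι → Bool => lin w s ^ 2) = fun s => ∑ z, w z * (sg z s * lin w s) := by
      funext s
      rw [sq]
      nth_rewrite 1 [lin]
      rw [Finset.sum_mul]
      exact Finset.sum_congr rfl fun z _ => mul_assoc _ _ _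
    rw [this, ev_sum]
    exact Finset.sum_congr rfl fun z _ => ev_const_mul _ _ _ _
  rw [e1, e2, Finset.mul_sum]
  refine Finset.sum_le_sum fun z _ => ?_
  rw [mul_left_comm]
  exact mul_le_mul_of_nonneg_left (h2 z) (hw z)

theorem mgf_pos {K : ι → ι → ℝ} (hK : ∀ i j, 0 ≤ K i j) {w : ι → ℝ} (hw : ∀ i, 0 ≤ w i) {t : ℝ}
    (ht : 0 ≤ t) : ev K (fun _ => 0) (fun s => Real.exp (t * lin w s)) ≤
      Real.exp (t ^ 2 * ev K (fun _ => 0) (fun s => lin w s ^ 2) / 2) := by
  set V := ev K (fun _ => 0) (fun s => lin w s ^ 2) with hV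
  have e0 : (fun i => (0 : ℝ) + 0 * w i) = fun _ => 0 := by
    funext i
    simp
  have hd : ∀ t : ℝ, HasDerivAt (fun t : ℝ => Real.log (∑ s, wt K (fun i => 0 + t * w i) s) -
      t ^ 2 * V / 2) (ev K (fun i => 0 + t * w i) (lin w) - t * V) t := by
    intro t
    have hZ : HasDerivAt (fun t : ℝ => ∑ s, wt K (fun i => 0 + t * w i) s)
        (∑ s, ((∑ i, w i * sp (s i)) * wt K (fun i => 0 + t * w i) s)) t :=
      HasDerivAt.fun_sum fun s _ => hasDerivAt_wt K (fun _ => 0) w t s
    have h2 : HasDerivAt (fun t : ℝ => t ^ 2 * V / 2) (t * V) t := by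
      refine (((hasDerivAt_pow 2 t).mul_const V).div_const 2).congr_deriv ?_
      simp only [Nat.cast_ofNat, Nat.add_one_sub_one, pow_one]
      ring
    exact (hZ.log (Z_pos K _).ne').sub h2
  have h := le_of_deriv hd (fun t ht => sub_nonpos.2 (mag_le hK hw ht)) ht
  simp only [e0] at h
  have e1 : ev K (fun _ => 0) (fun s => Real.exp (t * lin w s)) =
      (∑ s, wt K (fun i => 0 + t * w i) s) / ∑ s, wt K (fun _ => 0) s := by
    unfold ev
    congr 1
    refine Finset.sum_congr rfl fun s _ => ?_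
    unfold wt
    rw [ex_line K (fun _ => 0) w t s, Real.exp_add, mul_comm]
    rfl
  rw [e1, ← Real.log_le_iff_le_exp (div_pos (Z_pos K _) (Z_pos K _)),
    Real.log_div (Z_pos K _).ne' (Z_pos K _).ne']
  linarith

theorem mgf_le {K : ι → ι → ℝ} (hK : ∀ i j, 0 ≤ K i j) {w : ι → ℝ} (hw : ∀ i, 0 ≤ w i) (t : ℝ) :
    ev K (fun _ => 0) (fun s => Real.exp (t * lin w s)) ≤
      Real.exp (t ^ 2 * ev K (fun _ => 0) (fun s => lin w s ^ 2) / 2) := by
  rcases le_total 0 t with ht | ht
  · exact mgf_pos hK hw ht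
  · have h := mgf_pos hK hw (neg_nonneg.2 ht)
    rw [flip K] at h
    simpa only [lin_flip, neg_mul_neg, neg_sq] using h

end fin

theorem weak_free {β J : ℝ} {μ : Measure Config} [IsProbabilityMeasure μ]
    (hc : ∀ A, Tendsto (fun M : ℕ => cor β J 0 (box M) A) atTop (𝓝 (∫ σ, spA A σ ∂μ)))
    {F : Config → ℝ} (hF : Continuous F) :
    Tendsto (fun M : ℕ => ev (KK β J 0 (box M)) (fun _ => 0)
      fun s => F (exs (box M) (fun _ => true) s)) (hyperfilter ℕ : Filter ℕ) (𝓝 (∫ σ, F σ ∂μ)) := by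
  let ν : ℕ → ProbabilityMeasure Config := fun M =>
    ⟨fvm (wt (KK β J 0 (box M)) (fun _ => 0)), isProb_fvm fun s => wt_pos _ _ _⟩
  obtain ⟨μ', hμ⟩ : ∃ μ' : ProbabilityMeasure Config,
      Tendsto ν (hyperfilter ℕ : Filter ℕ) (𝓝 μ') := by
    obtain ⟨μ', _, hμ⟩ := isCompact_univ.ultrafilter_le_nhds ((hyperfilter ℕ).map ν) (by simp)
    exact ⟨μ', hμ⟩
  have key : ∀ G : Config → ℝ, Continuous G → Tendsto (fun M : ℕ => ev (KK β J 0 (box M))
      (fun _ => 0) fun s => G (exs (box M) (fun _ => true) s)) (hyperfilter ℕ : Filter ℕ)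
      (𝓝 (∫ σ, G σ ∂(μ' : Measure Config))) := by
    intro G hG
    have h1 := (ProbabilityMeasure.tendsto_iff_forall_integral_tendsto.1 hμ)
      (BoundedContinuousFunction.mkOfCompact ⟨G, hG⟩)
    refine h1.congr fun M => ?_
    exact integral_fvm (fun s => wt_pos _ _ _) G
  have e : (μ' : Measure Config) = μ := measure_ext fun A =>
    tendsto_nhds_unique (key _ (continuous_spA A)) ((hc A).mono_left Nat.hyperfilter_le_atTop)
  rw [← e]
  exact key F hF

theorem test_int {f : ℂ → ℝ} (hf : Test f) : Integrable f := by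
  obtain ⟨hm, ⟨B, hB⟩, hs⟩ := hf
  exact (integrableOn_iff_integrable_of_support_subset subset_rfl).1
    (Measure.integrableOn_of_bounded hs.measure_lt_top.ne hm.aestronglyMeasurable
      (Eventually.of_forall hB))

/-- the coefficient of a site in the smeared field -/
def cf (a : ℝ) (f : ℂ → ℝ) (i : Site) : ℝ :=
  ∫ x, {x | fl a x = i}.indicator (fun x => f x * a ^ (-(1 / 8) : ℝ)) x

theorem fl_meas (a : ℝ) : Measurable (fl a) :=
  (Complex.measurable_re.div_const a).floor.prodMk (Complex.measurable_im.div_const a).floor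

theorem smear_eq {a : ℝ} {f : ℂ → ℝ} (hf : Test f) {Λ : Finset Site}
    (hΛ : ∀ x, f x ≠ 0 → fl a x ∈ Λ) (σ : Config) :
    smear a f σ = ∑ i ∈ Λ, cf a f i * sp (σ i) := by
  unfold smear cf
  simp only [← integral_mul_const]
  rw [← integral_finsetSum]
  · refine integral_congr_ae (Eventually.of_forall fun x => ?_)
    by_cases h : f x = 0
    · simp [h, Set.indicator]
    · show _ = ∑ i ∈ Λ, _
      rw [Finset.sum_eq_single_of_mem _ (hΛ x h) fun i _ hi => ?_]
      · rw [Set.indicator_of_mem (show x ∈ {y | fl a y = fl a x} from rfl), mul_assoc]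
      · rw [Set.indicator_of_notMem (show x ∉ {y | fl a y = i} from fun e => hi e.symm), zero_mul]
  · intro i _
    exact (((test_int hf).mul_const _).indicator
      (fl_meas a (measurableSet_singleton i))).mul_const _

theorem exists_fin {a : ℝ} (ha : 0 < a) {f : ℂ → ℝ} (hf : Test f) :
    ∃ Λ : Finset Site, ∀ x, f x ≠ 0 → fl a x ∈ Λ := by
  obtain ⟨R, hR⟩ := hf.2.2.exists_norm_le
  refine ⟨Finset.Icc ⌊-R / a⌋ ⌊R / a⌋ ×ˢ Finset.Icc ⌊-R / a⌋ ⌊R / a⌋, fun x hx => ?_⟩
  have h1 := abs_le.1 ((Complex.abs_re_le_norm x).trans (hR x hx))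
  have h2 := abs_le.1 ((Complex.abs_im_le_norm x).trans (hR x hx))
  exact Finset.mem_product.2 ⟨Finset.mem_Icc.2
    ⟨Int.floor_le_floor (div_le_div_of_nonneg_right h1.1 ha.le),
      Int.floor_le_floor (div_le_div_of_nonneg_right h1.2 ha.le)⟩, Finset.mem_Icc.2
    ⟨Int.floor_le_floor (div_le_div_of_nonneg_right h2.1 ha.le),
      Int.floor_le_floor (div_le_div_of_nonneg_right h2.2 ha.le)⟩⟩

theorem smear_cont {a : ℝ} (ha : 0 < a) {f : ℂ → ℝ} (hf : Test f) : Continuous (smear a f) := by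
  obtain ⟨Λ, hΛ⟩ := exists_fin ha hf
  rw [funext (smear_eq hf hΛ)]
  exact continuous_finsetSum _ fun i _ => continuous_const.mul
    ((continuous_of_discreteTopology (f := sp)).comp (continuous_apply i))

theorem subg {J : ℝ} (hJ : 0 < J) : ∃ μ₀, IsPlaneState J 0 (fun _ => 0) (Kc / J) μ₀ ∧
    ∀ a > 0, ∀ f, Test f → (∀ x, 0 ≤ f x) → ∀ t : ℝ, ∫ σ, Real.exp (t * smear a f σ) ∂μ₀ ≤
      Real.exp (t ^ 2 * (∫ σ, smear a f σ ^ 2 ∂μ₀) / 2) := by
  obtain ⟨μ, hμ, hc⟩ := free_plane hJ
  refine ⟨μ, hμ, fun a ha f hf h0 t => ?_⟩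
  have := hμ.1
  simp only [fcor_eq] at hc
  have c := smear_cont ha hf
  replace hc : ∀ A, Tendsto (fun M : ℕ => cor (Kc / J) J 0 (box M) A) atTop
    (𝓝 (∫ σ, spA A σ ∂μ)) := hc
  have t1 := weak_free (F := fun σ => Real.exp (t * smear a f σ)) hc
    (Real.continuous_exp.comp (continuous_const.mul c))
  have t2 := (Real.continuous_exp.tendsto _).comp
    (((weak_free (F := fun σ => smear a f σ ^ 2) hc (c.pow 2)).const_mul (t ^ 2)).div_const 2)
  refine le_of_tendsto_of_tendsto t1 t2 (Eventually.filter_mono Nat.hyperfilter_le_atTop ?_)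
  obtain ⟨Λ, hΛ⟩ := exists_fin ha hf
  filter_upwards [subset_box Λ] with M hM
  have e : ∀ s, smear a f (exs (box M) (fun _ => true) s) = lin (fun i : box M => cf a f i) s := by
    intro s
    rw [smear_eq hf fun x hx => hM (hΛ x hx), ← Finset.sum_coe_sort]
    exact Finset.sum_congr rfl fun i _ => by rw [exs_mem i.2]
  simp only [Function.comp_def, e]
  refine mgf_le (KK_nonneg (div_pos kc_pos hJ).le hJ.le le_rfl _) (fun i => ?_) t
  exact integral_nonneg fun x => Set.indicator_nonneg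
    (fun y _ => mul_nonneg (h0 y) (Real.rpow_nonneg ha.le _)) x

end Vale.Agent.P144W.C13
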