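import Vale.Agent.P144W.St
import Mathlib.MeasureTheory.Measure.Lebesgue.EqHaar
import Mathlib.MeasureTheory.Constructions.BorelSpace.Metrizable
import Mathlib.MeasureTheory.Function.Floor
import Mathlib.MeasureTheory.Order.Group.Lattice

/-!
# P144W: row CONV, convergence of the smeared correlations (helper92)
-/

set_option autoImplicit false
set_option linter.all false

noncomputable section

namespace Vale.Agent.P144W.Cv

open MeasureTheory Filter Topology Metric

/-- Fatou: an almost everywhere limit of functions bounded in `L1` is integrable. -/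
theorem fatou {α ι : Type} [MeasurableSpace α] {ν : Measure α} (l : Filter ι) [l.NeBot]
    [l.IsCountablyGenerated] (g : ι → α → ℝ) (G : α → ℝ) (C : ℝ)
    (h : ∀ᶠ k in l, Integrable (g k) ν ∧ ∫ x, |g k x| ∂ν ≤ C)
    (hl : ∀ᵐ x ∂ν, Tendsto (fun k => g k x) l (𝓝 (G x))) :
    Integrable G ν ∧ ∫ x, |G x| ∂ν ≤ C := by
  obtain ⟨u, hu, hg⟩ := exists_seq_forall_of_frequently h.frequently
  have hl' : ∀ᵐ x ∂ν, Tendsto (fun k => g (u k) x) atTop (𝓝 (G x)) :=
    hl.mono fun x hx => hx.comp hu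
  have hm : AEStronglyMeasurable G ν :=
    aestronglyMeasurable_of_tendsto_ae atTop (fun k => (hg k).1.1) hl'
  have hC : 0 ≤ C := (integral_nonneg fun x => abs_nonneg _).trans (hg 0).2
  have key : ∫⁻ x, ENNReal.ofReal |G x| ∂ν ≤ ENNReal.ofReal C := by
    have e : ∫⁻ x, ENNReal.ofReal |G x| ∂ν =
        ∫⁻ x, liminf (fun k => ENNReal.ofReal |g (u k) x|) atTop ∂ν :=
      lintegral_congr_ae (hl'.mono fun x hx =>
        (ENNReal.tendsto_ofReal hx.abs).liminf_eq.symm)
    rw [e]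
    refine (lintegral_liminf_le' fun k =>
      (hg k).1.abs.1.aemeasurable.ennreal_ofReal).trans ?_
    refine liminf_le_of_frequently_le' (Frequently.of_forall fun k => ?_)
    rw [← ofReal_integral_eq_lintegral_ofReal (hg k).1.abs
      (Eventually.of_forall fun x => abs_nonneg _)]
    exact ENNReal.ofReal_le_ofReal (hg k).2
  have hi : Integrable (fun x => |G x|) ν :=
    ⟨hm.norm, (hasFiniteIntegral_iff_ofReal (Eventually.of_forall fun x => abs_nonneg _)).2
      (key.trans_lt ENNReal.ofReal_lt_top)⟩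
  refine ⟨(integrable_norm_iff hm).1 hi, ?_⟩
  rw [← ofReal_integral_eq_lintegral_ofReal hi (Eventually.of_forall fun x => abs_nonneg _)] at key
  exact (ENNReal.ofReal_le_ofReal_iff hC).1 key

/-- points that are not close to the upper and right sides of their box -/
def Gd (δ η : ℝ) (z : ℂ) : Prop := Int.fract (z.re / δ) ≤ 1 - η ∧ Int.fract (z.im / δ) ≤ 1 - η

open Classical in
/-- the test function cut near the grid -/
def cut (δ η : ℝ) (g : ℂ → ℝ) (z : ℂ) : ℝ := if Gd δ η z then g z else 0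

theorem measurableSet_Gd (δ η : ℝ) : MeasurableSet {z | Gd δ η z} :=
  (measurableSet_le (Complex.measurable_re.div_const δ).fract measurable_const).inter
    (measurableSet_le (Complex.measurable_im.div_const δ).fract measurable_const)

theorem abs_cut_le (δ η : ℝ) (g : ℂ → ℝ) (z : ℂ) : |cut δ η g z| ≤ |g z| := by
  unfold cut
  split_ifs <;> simp

theorem abs_sub_cut_le (δ η : ℝ) (g : ℂ → ℝ) (z : ℂ) : |g z - cut δ η g z| ≤ |g z| := by
  unfold cut
  split_ifs <;> simp

theorem tf_of_le {z : ℂ} {ε : ℝ} {g g' : ℂ → ℝ} (h : Tf z ε g) (hm : Measurable g')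
    (hle : ∀ x, |g' x| ≤ |g x|) : Tf z ε g' :=
  ⟨hm, fun x => (hle x).trans (h.bd x), fun x hx => h.sup x fun h0 => hx (by
    have := hle x
    rw [h0, abs_zero] at this
    exact abs_nonpos_iff.1 this)⟩

theorem measurable_cut (δ η : ℝ) {g : ℂ → ℝ} (h : Measurable g) : Measurable (cut δ η g) :=
  Measurable.ite (measurableSet_Gd δ η) h measurable_const

theorem tf_cut {z : ℂ} {ε : ℝ} {g : ℂ → ℝ} (h : Tf z ε g) (δ η : ℝ) : Tf z ε (cut δ η g) :=
  tf_of_le h (measurable_cut δ η h.meas) (abs_cut_le δ η g)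

theorem tf_sub_cut {z : ℂ} {ε : ℝ} {g : ℂ → ℝ} (h : Tf z ε g) (δ η : ℝ) :
    Tf z ε (g - cut δ η g) :=
  tf_of_le h (h.meas.sub (measurable_cut δ η h.meas)) (abs_sub_cut_le δ η g)

theorem cut_eventually (δ : ℝ) (g : ℂ → ℝ) (z : ℂ) :
    ∀ᶠ η in 𝓝[>] (0 : ℝ), cut δ η g z = g z := by
  have a : ∀ t : ℝ, ∀ᶠ η in 𝓝[>] (0 : ℝ), Int.fract t ≤ 1 - η := fun t => by
    have h : (0 : ℝ) < 1 - Int.fract t := sub_pos.2 (Int.fract_lt_one t)
    filter_upwards [mem_nhdsWithin_of_mem_nhds (Iic_mem_nhds h)] with η hη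
    have : η ≤ 1 - Int.fract t := hη
    linarith
  filter_upwards [a (z.re / δ), a (z.im / δ)] with η h1 h2
  exact if_pos ⟨h1, h2⟩

theorem sep_lt {u v η : ℝ} (h : ⌊u⌋ < ⌊v⌋) (hu : Int.fract u ≤ 1 - η) : η ≤ v - u := by
  have a1 : (⌊u⌋ : ℝ) + 1 ≤ ⌊v⌋ := by exact_mod_cast h
  have a2 := Int.floor_le v
  have a3 := Int.floor_add_fract u
  linarith

theorem sep_real {u v δ η : ℝ} (hδ : 0 < δ) (h : ⌊u / δ⌋ ≠ ⌊v / δ⌋)
    (hu : Int.fract (u / δ) ≤ 1 - η) (hv : Int.fract (v / δ) ≤ 1 - η) : η * δ ≤ |u - v| := by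
  rcases lt_or_gt_of_ne h with h | h
  · have := sep_lt h hu
    rw [← sub_div, le_div_iff₀ hδ] at this
    exact this.trans (by rw [abs_sub_comm]; exact le_abs_self _)
  · have := sep_lt h hv
    rw [← sub_div, le_div_iff₀ hδ] at this
    exact this.trans (le_abs_self _)

theorem sep_box {x y : ℂ} {δ η : ℝ} (hδ : 0 < δ) (h : bx δ x ≠ bx δ y) (hx : Gd δ η x)
    (hy : Gd δ η y) : η * δ ≤ ‖x - y‖ := by
  by_cases h1 : ⌊x.re / δ⌋ = ⌊y.re / δ⌋
  · have h2 : ⌊x.im / δ⌋ ≠ ⌊y.im / δ⌋ := fun h2 => h (Prod.ext h1 h2)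
    exact (sep_real hδ h2 hx.2 hy.2).trans (by simpa using Complex.abs_im_le_norm (x - y))
  · exact (sep_real hδ h1 hx.1 hy.1).trans (by simpa using Complex.abs_re_le_norm (x - y))

/-- tuples in pairwise distinct boxes -/
def Sd (n : ℕ) (δ : ℝ) : Set (Fin n → ℂ) := {x | Function.Injective fun i => bx δ (x i)}

theorem measurableSet_Sd (n : ℕ) (δ : ℝ) : MeasurableSet (Sd n δ) := by
  have hb : Measurable (bx δ) :=
    (Complex.measurable_re.div_const δ).floor.prodMk (Complex.measurable_im.div_const δ).floor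
  have hm : Measurable fun (x : Fin n → ℂ) (i : Fin n) => bx δ (x i) :=
    measurable_pi_lambda _ fun i => hb.comp (measurable_pi_apply i)
  exact hm (Set.to_countable {w : Fin n → ℤ × ℤ | Function.Injective w}).measurableSet

theorem inj_of_Sd {n : ℕ} {δ : ℝ} {x : Fin n → ℂ} (h : x ∈ Sd n δ) : Function.Injective x :=
  fun i j e => h (by simp only [e])

theorem close_of_floor {u v δ : ℝ} (hδ : 0 < δ) (h : ⌊u / δ⌋ = ⌊v / δ⌋) : |u - v| < δ := by
  have := Int.abs_sub_lt_one_of_floor_eq_floor h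
  rwa [← sub_div, abs_div, abs_of_pos hδ, div_lt_one hδ] at this

theorem Sd_eventually {n : ℕ} {x : Fin n → ℂ} (h : Function.Injective x) :
    ∀ᶠ δ in 𝓝[>] (0 : ℝ), x ∈ Sd n δ := by
  have a : ∀ i j : Fin n, ∀ᶠ δ in 𝓝[>] (0 : ℝ), bx δ (x i) = bx δ (x j) → i = j := fun i j => by
    by_cases e : i = j
    · exact Eventually.of_forall fun _ _ => e
    · have hp : 0 < ‖x i - x j‖ / 2 := by
        have : x i - x j ≠ 0 := sub_ne_zero.2 fun h' => e (h h')
        positivity
      filter_upwards [mem_nhdsWithin_of_mem_nhds (Iic_mem_nhds hp), self_mem_nhdsWithin]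
        with δ h1 h2 h3
      have h1 : δ ≤ ‖x i - x j‖ / 2 := h1
      have b1 := close_of_floor h2 (congrArg Prod.fst h3)
      have b2 := close_of_floor h2 (congrArg Prod.snd h3)
      have b3 := Complex.norm_le_abs_re_add_abs_im (x i - x j)
      rw [Complex.sub_re, Complex.sub_im] at b3
      linarith
  filter_upwards [eventually_all.2 fun i => eventually_all.2 (a i)] with δ hδ i j e
  exact hδ i j e

theorem ae_inj (n : ℕ) : ∀ᵐ x : Fin n → ℂ, Function.Injective x := by
  have a : ∀ i j : Fin n, ∀ᵐ x : Fin n → ℂ, x i = x j → i = j := fun i j => by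
    by_cases e : i = j
    · exact Eventually.of_forall fun _ _ => e
    · let s : Submodule ℝ (Fin n → ℂ) :=
        LinearMap.eqLocus (LinearMap.proj i : (Fin n → ℂ) →ₗ[ℝ] ℂ) (LinearMap.proj j)
      have hs : s ≠ ⊤ := fun h => by
        have : (Pi.single i 1 : Fin n → ℂ) ∈ s := h ▸ Submodule.mem_top
        have h2 : (Pi.single i 1 : Fin n → ℂ) i = (Pi.single i 1 : Fin n → ℂ) j := this
        rw [Pi.single_eq_same, Pi.single_eq_of_ne (Ne.symm e)] at h2
        exact one_ne_zero h2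
      have h0 := Measure.addHaar_submodule (volume : Measure (Fin n → ℂ)) s hs
      filter_upwards [measure_eq_zero_iff_ae_notMem.1 h0] with x hx h
      exact absurd h hx
  filter_upwards [ae_all_iff.2 fun i => ae_all_iff.2 (a i)] with x hx i j e
  exact hx i j e

theorem abs_prod_le {n : ℕ} {f g : Fin n → ℂ → ℝ} (h : ∀ i z, |f i z| ≤ |g i z|) (x : Fin n → ℂ) :
    |∏ i, f i (x i)| ≤ |∏ i, g i (x i)| := by
  rw [Finset.abs_prod, Finset.abs_prod]
  exact Finset.prod_le_prod (fun i _ => abs_nonneg _) fun i _ => h i _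

theorem measurable_prod {n : ℕ} {f : Fin n → ℂ → ℝ} (h : ∀ i, Measurable (f i)) :
    Measurable fun x : Fin n → ℂ => ∏ i, f i (x i) :=
  Finset.measurable_prod _ fun i _ => (h i).comp (measurable_pi_apply i)

variable {Ω : Type} [MeasurableSpace Ω] {μ : Measure Ω} {φ : ℝ → ℂ → Ω → ℝ} {n : ℕ}
  {L : (Fin n → ℂ) → ℝ}

theorem aemeas_L (fub : FUB) (hF : Fd μ φ)
    (hL : ∀ x, Function.Injective x → 0 ≤ L x ∧ Tendsto (fun a => cr μ φ a x) (𝓝[>] 0) (𝓝 (L x))) :
    AEStronglyMeasurable L volume := by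
  obtain ⟨u, hu, hp⟩ := exists_seq_forall_of_frequently
    (Eventually.frequently (f := 𝓝[>] (0 : ℝ)) (p := fun a => 0 < a) self_mem_nhdsWithin)
  exact aestronglyMeasurable_of_tendsto_ae atTop
    (fun k => ((fub Ω μ φ hF (u k) (hp k)).2 n).1.aestronglyMeasurable)
    ((ae_inj n).mono fun x hx => (hL x hx).2.comp hu)

/-- separated points: dominated convergence -/
theorem dct (fub : FUB) (hF : Fd μ φ)
    (hL : ∀ x, Function.Injective x → 0 ≤ L x ∧ Tendsto (fun a => cr μ φ a x) (𝓝[>] 0) (𝓝 (L x)))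
    {R : ℝ} (hR : 0 < R) {f : Fin n → ℂ → ℝ} (hf : ∀ i, Tf 0 R (f i)) {δ η : ℝ} (hδ : 0 < δ)
    (hη : 0 < η) :
    Integrable ((Sd n δ).indicator fun x => (∏ i, cut δ η (f i) (x i)) * L x) ∧
    Tendsto (fun a => ∫ x in Sd n δ, (∏ i, cut δ η (f i) (x i)) * cr μ φ a x) (𝓝[>] 0)
      (𝓝 (∫ x, (Sd n δ).indicator (fun x => (∏ i, cut δ η (f i) (x i)) * L x) x)) := by
  obtain ⟨K, T, hK, hT, hs⟩ := hF.sep n (η * δ / R) (by positivity)
  set M : ℝ := K * (R ^ (-(1 / 8) : ℝ)) ^ n with hM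
  have hS := measurableSet_Sd n δ
  have hm : Measurable fun x : Fin n → ℂ => ∏ i, cut δ η (f i) (x i) :=
    measurable_prod fun i => (tf_cut (hf i) δ η).meas
  have hi : Integrable fun x : Fin n → ℂ => |∏ i, cut δ η (f i) (x i)| * M :=
    (Integrable.fintype_prod fun i =>
      ((fub Ω μ φ hF 1 one_pos).1 0 R _ (tf_cut (hf i) δ η)).2.1).abs.mul_const M
  have hb : ∀ᶠ a in 𝓝[>] (0 : ℝ), ∀ x ∈ Sd n δ,
      ‖(∏ i, cut δ η (f i) (x i)) * cr μ φ a x‖ ≤ |∏ i, cut δ η (f i) (x i)| * M := by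
    have hp : 0 < R / T := by positivity
    filter_upwards [mem_nhdsWithin_of_mem_nhds (Iic_mem_nhds hp), self_mem_nhdsWithin]
      with a h1 h2 x hx
    have h1 : a ≤ R / T := h1
    rw [Real.norm_eq_abs, abs_mul]
    by_cases h0 : ∏ i, cut δ η (f i) (x i) = 0
    · simp [h0]
    · have c1 : ∀ i, cut δ η (f i) (x i) ≠ 0 := fun i =>
        Finset.prod_ne_zero_iff.1 h0 i (Finset.mem_univ i)
      have c2 : ∀ i, Gd δ η (x i) := fun i => by
        by_contra hn
        exact c1 i (if_neg hn)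
      refine mul_le_mul_of_nonneg_left (hs a R 0 x h2 ?_ (fun i => (tf_cut (hf i) δ η).sup _ (c1 i))
        fun i j e => ?_) (abs_nonneg _)
      · rw [le_div_iff₀ hT] at h1
        linarith
      · rw [div_mul_cancel₀ _ hR.ne']
        exact sep_box hδ (fun h => e (hx h)) (c2 i) (c2 j)
  have hl : ∀ x ∈ Sd n δ, Tendsto (fun a => (∏ i, cut δ η (f i) (x i)) * cr μ φ a x) (𝓝[>] 0)
      (𝓝 ((∏ i, cut δ η (f i) (x i)) * L x)) := fun x hx => (hL x (inj_of_Sd hx)).2.const_mul _
  constructor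
  · rw [integrable_indicator_iff hS]
    refine Integrable.mono' hi.integrableOn
      ((hm.aestronglyMeasurable.mul (aemeas_L fub hF hL)).restrict) ?_
    filter_upwards [ae_restrict_mem hS] with x hx
    exact le_of_tendsto (hl x hx).norm (hb.mono fun a ha => ha x hx)
  · rw [integral_indicator hS]
    refine tendsto_integral_filter_of_dominated_convergence _ ?_ ?_ hi.integrableOn ?_
    · filter_upwards [self_mem_nhdsWithin] with a ha
      exact (hm.mul ((fub Ω μ φ hF a ha).2 n).1).aestronglyMeasurable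
    · filter_upwards [hb] with a ha
      filter_upwards [ae_restrict_mem hS] with x hx using ha x hx
    · filter_upwards [ae_restrict_mem hS] with x hx using hl x hx

theorem lim_eta (δ : ℝ) (f : Fin n → ℂ → ℝ) (x : Fin n → ℂ) :
    Tendsto (fun η => (Sd n δ).indicator (fun x => (∏ i, cut δ η (f i) (x i)) * L x) x) (𝓝[>] 0)
      (𝓝 ((Sd n δ).indicator (fun x => (∏ i, f i (x i)) * L x) x)) := by
  refine tendsto_const_nhds.congr' ?_
  filter_upwards [eventually_all.2 fun i => cut_eventually δ (f i) (x i)] with η hη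
  by_cases hx : x ∈ Sd n δ
  · simp only [Set.indicator_of_mem hx, hη]
  · simp only [Set.indicator_of_notMem hx]

theorem lim_delta (G : (Fin n → ℂ) → ℝ) : ∀ᵐ x : Fin n → ℂ,
    Tendsto (fun δ => (Sd n δ).indicator G x) (𝓝[>] 0) (𝓝 (G x)) := by
  filter_upwards [ae_inj n] with x hx
  refine tendsto_const_nhds.congr' ?_
  filter_upwards [Sd_eventually hx] with δ hδ
  rw [Set.indicator_of_mem hδ]

/-- the limit is integrable against the test functions -/
theorem integ (fub : FUB) (ne : NEAR) (hF : Fd μ φ)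
    (hL : ∀ x, Function.Injective x → 0 ≤ L x ∧ Tendsto (fun a => cr μ φ a x) (𝓝[>] 0) (𝓝 (L x)))
    {R : ℝ} (hR : 0 < R) {f : Fin n → ℂ → ℝ} (hf : ∀ i, Tf 0 R (f i)) :
    Integrable fun x : Fin n → ℂ => (∏ i, f i (x i)) * L x := by
  obtain ⟨⟨A, hA⟩, hN⟩ := ne Ω μ φ hF n R hR
  let g : Fin n → ℂ → ℝ := fun i z => |f i z|
  have hg : ∀ i, Tf 0 R (g i) := fun i =>
    tf_of_le (hf i) (hf i).meas.abs fun x => by simp [g]
  have s1 : ∀ᶠ δ in 𝓝[>] (0 : ℝ),
      Integrable ((Sd n δ).indicator fun x => (∏ i, g i (x i)) * L x) ∧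
      ∫ x, |(Sd n δ).indicator (fun x => (∏ i, g i (x i)) * L x) x| ≤ A + 1 := by
    filter_upwards [hN 1 one_pos, self_mem_nhdsWithin] with δ h1 hδ
    refine fatou (𝓝[>] (0 : ℝ))
      (fun η => (Sd n δ).indicator fun x => (∏ i, cut δ η (g i) (x i)) * L x) _ _ ?_
      (Eventually.of_forall (lim_eta δ g))
    filter_upwards [self_mem_nhdsWithin] with η hη
    obtain ⟨d1, d2⟩ := dct fub hF hL hR hg hδ hη
    refine ⟨d1, ?_⟩
    have e : ∀ x, |(Sd n δ).indicator (fun x => (∏ i, cut δ η (g i) (x i)) * L x) x| =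
        (Sd n δ).indicator (fun x => (∏ i, cut δ η (g i) (x i)) * L x) x := fun x => by
      refine abs_of_nonneg (Set.indicator_nonneg (fun x hx => ?_) x)
      refine mul_nonneg (Finset.prod_nonneg fun i _ => ?_) (hL x (inj_of_Sd hx)).1
      unfold cut
      split_ifs
      · exact abs_nonneg _
      · exact le_rfl
    simp only [e]
    refine le_of_tendsto d2 ?_
    filter_upwards [self_mem_nhdsWithin] with a ha
    have b1 := abs_le.1 (h1 a ha _ fun i => tf_cut (hg i) δ η)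
    have b2 := abs_le.1 (hA a ha _ fun i => tf_cut (hg i) δ η)
    have b3 := b1.1
    unfold Sd
    linarith [b2.2]
  have s2 := (fatou (𝓝[>] (0 : ℝ)) (fun δ => (Sd n δ).indicator fun x => (∏ i, g i (x i)) * L x)
    _ _ s1 (lim_delta _)).1
  refine s2.mono ((measurable_prod fun i => (hf i).meas).aestronglyMeasurable.mul
    (aemeas_L fub hF hL)) (Eventually.of_forall fun x => ?_)
  rw [Real.norm_eq_abs, Real.norm_eq_abs, abs_mul, abs_mul]
  exact mul_le_mul_of_nonneg_right (abs_prod_le (fun i z => by simp [g]) x) (abs_nonneg _)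

end Vale.Agent.P144W.Cv

namespace Vale.Agent.P144W

open MeasureTheory Filter Topology Metric Cv

/-- row CONV -/
theorem conv (fub : FUB) (sl : SML) (ne : NEAR) : CONV := by
  intro Ω _ μ φ hF n L hL R hR f hf
  have hI := integ fub ne hF hL hR hf
  refine ⟨hI, Metric.tendsto_nhds.2 fun ε hε => ?_⟩
  have he : 0 < ε / 6 := by positivity
  obtain ⟨θ, hθ, hS⟩ := sl Ω μ φ hF n R hR (ε / 6) he
  have t1 : Tendsto (fun δ => ∫ x, (Sd n δ).indicator (fun x => (∏ i, f i (x i)) * L x) x)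
      (𝓝[>] 0) (𝓝 (∫ x : Fin n → ℂ, (∏ i, f i (x i)) * L x)) :=
    tendsto_integral_filter_of_dominated_convergence _
      (Eventually.of_forall fun δ => hI.1.indicator (measurableSet_Sd n δ))
      (Eventually.of_forall fun δ => Eventually.of_forall fun x => norm_indicator_le_norm_self _ x)
      hI.norm (lim_delta _)
  obtain ⟨δ, ⟨hd1, hd2⟩, hδ⟩ := ((((ne Ω μ φ hF n R hR).2 (ε / 6) he).and
    (Metric.tendsto_nhds.1 t1 (ε / 6) he)).and self_mem_nhdsWithin).exists
  have hδ : 0 < δ := hδ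
  have t2 : Tendsto
      (fun η => ∫ x, (Sd n δ).indicator (fun x => (∏ i, cut δ η (f i) (x i)) * L x) x) (𝓝[>] 0)
      (𝓝 (∫ x, (Sd n δ).indicator (fun x => (∏ i, f i (x i)) * L x) x)) := by
    refine tendsto_integral_filter_of_dominated_convergence _ ?_
      (Eventually.of_forall fun η => Eventually.of_forall fun x => ?_) hI.norm
      (Eventually.of_forall (lim_eta δ f))
    · filter_upwards [self_mem_nhdsWithin] with η hη using (dct fub hF hL hR hf hδ hη).1.1
    · refine (norm_indicator_le_norm_self _ x).trans ?_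
      rw [Real.norm_eq_abs, Real.norm_eq_abs, abs_mul, abs_mul]
      exact mul_le_mul_of_nonneg_right (abs_prod_le (fun i z => abs_cut_le δ η (f i) z) x)
        (abs_nonneg _)
  have t3 : ∀ i, ∀ᶠ η in 𝓝[>] (0 : ℝ), ∫ x, |f i x - cut δ η (f i) x| ≤ θ := fun i => by
    have hi : Integrable (f i) := ((fub Ω μ φ hF 1 one_pos).1 0 R _ (hf i)).2.1
    have t : Tendsto (fun η => ∫ x, |f i x - cut δ η (f i) x|) (𝓝[>] 0) (𝓝 (∫ _ : ℂ, (0 : ℝ))) := by
      refine tendsto_integral_filter_of_dominated_convergence _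
        (Eventually.of_forall fun η =>
          ((hf i).meas.sub (measurable_cut δ η (hf i).meas)).abs.aestronglyMeasurable)
        (Eventually.of_forall fun η => Eventually.of_forall fun x => ?_) hi.abs
        (Eventually.of_forall fun x => ?_)
      · rw [Real.norm_eq_abs, abs_abs]
        exact abs_sub_cut_le δ η (f i) x
      · refine tendsto_const_nhds.congr' ?_
        filter_upwards [cut_eventually δ (f i) x] with η hη
        rw [hη, sub_self, abs_zero]
    rw [integral_zero] at t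
    exact (t.eventually (Iio_mem_nhds hθ)).mono fun η h => le_of_lt h
  obtain ⟨η, ⟨he1, he2⟩, hη⟩ := (((Metric.tendsto_nhds.1 t2 (ε / 6) he).and
    (eventually_all.2 t3)).and self_mem_nhdsWithin).exists
  have hη : 0 < η := hη
  filter_upwards [hS, Metric.tendsto_nhds.1 (dct fub hF hL hR hf hδ hη).2 (ε / 6) he,
    self_mem_nhdsWithin] with a h1 h2 ha
  have b1 := abs_le.1 (h1 f (fun i => cut δ η (f i)) hf (fun i => tf_cut (hf i) δ η)
    (fun i => tf_sub_cut (hf i) δ η) he2)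
  have b2 := abs_le.1 (hd1 a ha _ fun i => tf_cut (hf i) δ η)
  rw [Real.dist_eq] at hd2 he1 h2 ⊢
  have b3 := abs_lt.1 hd2
  have b4 := abs_lt.1 he1
  have b5 := abs_lt.1 h2
  rw [← (((fub Ω μ φ hF a ha).2 n).2 0 R f hf).2, abs_lt]
  unfold Sd at b3 b4 b5
  constructor <;> linarith [b1.1, b1.2, b2.1, b2.2, b3.1, b3.2, b4.1, b4.2, b5.1, b5.2]

end Vale.Agent.P144W
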