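import Vale.Agent.P144W.St

/-!
# P144W: row DL (helper56)
-/

set_option autoImplicit false
set_option linter.all false

noncomputable section

namespace Vale.Agent.P144W

open Finset

section
variable {W : Type} [Fintype W] [DecidableEq W]

/-- the sum over injective tuples -/
def Dd {n : ℕ} (y : Fin n → W → ℝ) : ℝ :=
  ∑ w : Fin n → W, if Function.Injective w then ∏ i, y i (w i) else 0

theorem prod_upd {M : Type} [CommMonoid M] {n : ℕ} (g h : Fin n → M) (i : Fin n) (c : M)
    (h1 : g i = c * h i) (h2 : ∀ j, j ≠ i → g j = h j) : ∏ j, g j = c * ∏ j, h j := by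
  rw [← mul_prod_erase univ g (mem_univ i), ← mul_prod_erase univ h (mem_univ i), h1, mul_assoc]
  congr 2
  exact prod_congr rfl fun j hj => h2 j (ne_of_mem_erase hj)

theorem Dd_succ {n : ℕ} (y : Fin (n + 1) → W → ℝ) :
    Dd y = (∑ w, y 0 w) * Dd (Fin.tail y) -
      ∑ i, Dd (Function.update (Fin.tail y) i fun w => y 0 w * y i.succ w) := by
  unfold Dd
  rw [← (Fin.consEquiv fun _ : Fin (n + 1) => W).sum_comp, Fintype.sum_prod_type_right, mul_sum,
    sum_comm (s := (univ : Finset (Fin n))), ← sum_sub_distrib]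
  refine sum_congr rfl fun w _ => ?_
  by_cases h : Function.Injective w
  · have hp : ∀ i, ∏ j, Function.update (Fin.tail y) i (fun w => y 0 w * y i.succ w) j (w j) =
        y 0 (w i) * ∏ j, Fin.tail y j (w j) := fun i =>
      prod_upd _ _ i _ (by simp [Fin.tail]) fun j hj => by rw [Function.update_of_ne hj]
    have hs : ∑ i, y 0 (w i) = ∑ v, if v ∈ Set.range w then y 0 v else 0 := by
      rw [← sum_filter, ← sum_image (s := univ) (g := w) (f := y 0) fun a _ b _ e => h e]
      congr 1
      ext v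
      simp
    simp only [if_pos h, hp, ← sum_mul, hs, ← sub_mul, ← sum_sub_distrib]
    rw [sum_mul]
    refine sum_congr rfl fun v _ => ?_
    have e : (Fin.consEquiv fun _ : Fin (n + 1) => W) (v, w) = Fin.cons v w := rfl
    rw [e]
    by_cases hv : v ∈ Set.range w
    · rw [if_neg fun h' => (Fin.cons_injective_iff.1 h').1 hv, if_pos hv, sub_self, zero_mul]
    · rw [if_pos (Fin.cons_injective_iff.2 ⟨hv, h⟩), if_neg hv, sub_zero, Fin.prod_univ_succ]
      rfl
  · simp only [if_neg h, mul_zero, sum_const_zero, sub_zero]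
    refine sum_eq_zero fun v _ => if_neg fun h' => h ?_
    exact (Fin.cons_injective_iff.1 (show Function.Injective (Fin.cons v w : Fin (n + 1) → W) from h')).2

theorem mul_pair (u v : W → ℝ) (s t : ℝ) (hs : 0 ≤ s) (ht : 0 ≤ t) (hu : ∑ w, u w ^ 2 ≤ s ^ 2)
    (hv : ∑ w, v w ^ 2 ≤ t ^ 2) :
    |∑ w, u w * v w| ≤ s * t ∧ ∑ w, (u w * v w) ^ 2 ≤ (s * t) ^ 2 := by
  have h0 : (∑ w, u w ^ 2) * ∑ w, v w ^ 2 ≤ (s * t) ^ 2 := by
    rw [mul_pow]
    exact mul_le_mul hu hv (sum_nonneg fun _ _ => sq_nonneg _) (sq_nonneg _)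
  refine ⟨abs_le_of_sq_le_sq ((sum_mul_sq_le_sq_mul_sq _ _ _).trans h0) (mul_nonneg hs ht),
    le_trans ?_ h0⟩
  rw [sum_mul]
  refine sum_le_sum fun w _ => ?_
  rw [mul_pow]
  exact mul_le_mul_of_nonneg_left
    (single_le_sum (f := fun w => v w ^ 2) (fun _ _ => sq_nonneg _) (mem_univ w)) (sq_nonneg _)

theorem Dd_le (n : ℕ) : ∀ (y : Fin n → W → ℝ) (t : Fin n → ℝ), (∀ i, |∑ w, y i w| ≤ t i) →
    (∀ i, ∑ w, y i w ^ 2 ≤ t i ^ 2) → |Dd y| ≤ n.factorial * ∏ i, t i := by
  induction n with
  | zero =>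
    intro y t _ _
    simp [Dd, Function.injective_of_subsingleton]
  | succ n ih =>
    intro y t h1 h2
    have t0 : ∀ i, 0 ≤ t i := fun i => (abs_nonneg _).trans (h1 i)
    have a1 : |(∑ w, y 0 w) * Dd (Fin.tail y)| ≤ t 0 * (n.factorial * ∏ i : Fin n, t i.succ) := by
      rw [abs_mul]
      exact mul_le_mul (h1 0) (ih _ _ (fun i => h1 i.succ) fun i => h2 i.succ) (abs_nonneg _) (t0 0)
    have a2 : ∀ i : Fin n, |Dd (Function.update (Fin.tail y) i fun w => y 0 w * y i.succ w)| ≤
        n.factorial * (t 0 * ∏ i : Fin n, t i.succ) := by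
      intro i
      have m := mul_pair (y 0) (y i.succ) _ _ (t0 0) (t0 i.succ) (h2 0) (h2 i.succ)
      rw [← prod_upd (Function.update (fun j : Fin n => t j.succ) i (t 0 * t i.succ))
        (fun j : Fin n => t j.succ) i (t 0) (by simp) fun j hj => by rw [Function.update_of_ne hj]]
      refine ih _ _ (fun j => ?_) fun j => ?_
      · rcases eq_or_ne j i with rfl | hj
        · simpa only [Function.update_self] using m.1
        · simpa only [Function.update_of_ne hj, Fin.tail] using h1 j.succ
      · rcases eq_or_ne j i with rfl | hj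
        · simpa only [Function.update_self] using m.2
        · simpa only [Function.update_of_ne hj, Fin.tail] using h2 j.succ
    rw [Dd_succ]
    refine (abs_sub _ _).trans ((add_le_add a1 ((abs_sum_le_sum_abs _ _).trans
      (sum_le_sum fun i _ => a2 i))).trans (le_of_eq ?_))
    rw [sum_const, card_univ, Fintype.card_fin, nsmul_eq_mul, Fin.prod_univ_succ, Nat.factorial_succ]
    push_cast
    ring

end

theorem dl : DL := by
  intro n
  induction n with
  | zero =>
    refine ⟨0, le_rfl, fun W _ _ y t θ _ _ _ _ _ => ?_⟩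
    simp [Function.injective_of_subsingleton]
  | succ n ih =>
    obtain ⟨c, hc, ih⟩ := ih
    refine ⟨c + n * n.factorial, by positivity, fun W _ _ y t θ ht h0 h1 hs hq => ?_⟩
    have a1 := ih W (Fin.tail y) t θ ht h0 h1 (fun i => hs i.succ) fun i => hq i.succ
    have ht' : 0 ≤ θ * t := mul_nonneg h0 ht
    have hq' : ∀ i, ∑ w, y i w ^ 2 ≤ t ^ 2 := fun i =>
      (hq i).trans (pow_le_pow_left₀ ht' (mul_le_of_le_one_left ht h1) 2)
    have a2 : ∀ i : Fin n, |Dd (Function.update (Fin.tail y) i fun w => y 0 w * y i.succ w)| ≤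
        n.factorial * (θ ^ 2 * t * t ^ n) := by
      intro i
      have m := mul_pair (y 0) (y i.succ) _ _ ht' ht' (hq 0) (hq i.succ)
      have e : ∏ j, Function.update (fun _ : Fin n => t) i (θ * t * (θ * t)) j =
          θ ^ 2 * t * t ^ n := by
        rw [prod_upd _ (fun _ : Fin n => t) i (θ ^ 2 * t) (by rw [Function.update_self]; ring)
          fun j hj => by rw [Function.update_of_ne hj]]
        simp
      rw [← e]
      refine Dd_le n _ _ (fun j => ?_) fun j => ?_
      · rcases eq_or_ne j i with rfl | hj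
        · simpa only [Function.update_self] using m.1
        · simpa only [Function.update_of_ne hj, Fin.tail] using hs j.succ
      · rcases eq_or_ne j i with rfl | hj
        · simpa only [Function.update_self] using m.2
        · simpa only [Function.update_of_ne hj, Fin.tail] using hq' j.succ
    change |∏ i, ∑ w, y i w - Dd y| ≤ _
    change |∏ i : Fin n, ∑ w, y i.succ w - Dd (Fin.tail y)| ≤ _ at a1
    rw [Dd_succ, Fin.prod_univ_succ, ← sub_add, ← mul_sub]
    refine (abs_add_le _ _).trans ((add_le_add (abs_mul _ _).le ((abs_sum_le_sum_abs _ _).trans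
      (sum_le_sum fun i _ => a2 i))).trans ?_)
    rw [sum_const, card_univ, Fintype.card_fin, nsmul_eq_mul]
    have := mul_le_mul (hs 0) a1 (abs_nonneg _) ht
    refine (add_le_add this le_rfl).trans (le_of_eq ?_)
    ring

end Vale.Agent.P144W
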