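import Vale.Agent.P144W.St
import Mathlib.Analysis.Real.Pi.Bounds

/-!
# P144W: Fubini for smeared fields (row FUB)
-/

set_option autoImplicit false
set_option linter.all false

noncomputable section

namespace Vale.Agent.P144W

open MeasureTheory Filter Topology Metric

theorem Tf.le_ind {z : ℂ} {ε : ℝ} {g : ℂ → ℝ} (h : Tf z ε g) (x : ℂ) :
    |g x| ≤ (ball z ε).indicator (fun _ => (1 : ℝ)) x := by
  by_cases hx : x ∈ ball z ε
  · rw [Set.indicator_of_mem hx]
    exact h.bd x
  · rw [Set.indicator_of_notMem hx]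
    have h0 : g x = 0 := by
      by_contra h1
      exact hx (h.sup x h1)
    rw [h0, abs_zero]

theorem ind_int (z : ℂ) (ε : ℝ) : Integrable ((ball z ε).indicator fun _ => (1 : ℝ)) :=
  (integrable_indicator_iff measurableSet_ball).2 (integrableOn_const measure_ball_lt_top.ne)

theorem Tf.int {z : ℂ} {ε : ℝ} {g : ℂ → ℝ} (h : Tf z ε g) : Integrable g :=
  (ind_int z ε).mono' h.meas.aestronglyMeasurable (Eventually.of_forall fun x => h.le_ind x)

theorem Tf.int_le {z : ℂ} {ε : ℝ} {g : ℂ → ℝ} (h : Tf z ε g) (hε : 0 ≤ ε) :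
    ∫ x, |g x| ≤ 4 * ε ^ 2 := by
  have h1 : ∫ x, |g x| ≤ ∫ x, (ball z ε).indicator (fun _ => (1 : ℝ)) x :=
    integral_mono h.int.abs (ind_int z ε) fun x => h.le_ind x
  refine h1.trans ?_
  rw [integral_indicator measurableSet_ball, setIntegral_const, smul_eq_mul, mul_one,
    Measure.real, Complex.volume_ball, ENNReal.toReal_mul, ENNReal.toReal_pow,
    ENNReal.toReal_ofReal hε, ENNReal.coe_toReal, NNReal.coe_real_pi]
  have := Real.pi_le_four
  nlinarith [sq_nonneg ε]

theorem fub : FUB := by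
  intro Ω _ μ φ hF a ha
  haveI := hF.prob
  have hA : (0 : ℝ) ≤ a ^ (-(1 / 8) : ℝ) := Real.rpow_nonneg ha.le _
  have mφ : ∀ (n : ℕ) (i : Fin n), Measurable fun p : (Fin n → ℂ) × Ω => φ a (p.1 i) p.2 :=
    fun n i => (hF.meas a).comp (f := fun p : (Fin n → ℂ) × Ω => (p.1 i, p.2))
      (((measurable_pi_apply i).comp measurable_fst).prodMk measurable_snd)
  have bφ : ∀ (n : ℕ) (x : Fin n → ℂ) (ω : Ω),
      |∏ i, φ a (x i) ω| ≤ (a ^ (-(1 / 8) : ℝ)) ^ n := by
    intro n x ω
    rw [Finset.abs_prod]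
    refine (Finset.prod_le_prod (fun i _ => abs_nonneg _) fun i _ => hF.bd a ha (x i) ω).trans ?_
    rw [Finset.prod_const, Finset.card_univ, Fintype.card_fin]
  refine ⟨fun z ε g hg => ?_, fun n => ?_⟩
  · have mg : Measurable fun p : ℂ × Ω => g p.1 * φ a p.1 p.2 :=
      (hg.meas.comp measurable_fst).mul (hF.meas a)
    have hb : ∀ ω x, ‖g x * φ a x ω‖ ≤ a ^ (-(1 / 8) : ℝ) * |g x| := by
      intro ω x
      rw [Real.norm_eq_abs, abs_mul, mul_comm]
      exact mul_le_mul_of_nonneg_right (hF.bd a ha x ω) (abs_nonneg _)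
    refine ⟨(mg.stronglyMeasurable.integral_prod_left' (μ := volume)).measurable, hg.int,
      fun ω => ?_, fun ω => ?_, hg.int_le⟩
    · exact (hg.int.abs.const_mul _).mono'
        (mg.comp (measurable_id.prodMk measurable_const)).aestronglyMeasurable
        (Eventually.of_forall (hb ω))
    · rw [← integral_const_mul, ← Real.norm_eq_abs]
      exact norm_integral_le_of_norm_le (hg.int.abs.const_mul _) (Eventually.of_forall (hb ω))
  · have mP : Measurable fun p : (Fin n → ℂ) × Ω => ∏ i, φ a (p.1 i) p.2 :=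
      Finset.measurable_prod _ fun i _ => mφ n i
    have mc : Measurable fun x : Fin n → ℂ => cr μ φ a x :=
      (mP.stronglyMeasurable.integral_prod_right' (ν := μ)).measurable
    have bc : ∀ x : Fin n → ℂ, |cr μ φ a x| ≤ (a ^ (-(1 / 8) : ℝ)) ^ n := by
      intro x
      have h := norm_integral_le_of_norm_le_const (μ := μ) (f := fun ω => ∏ i, φ a (x i) ω)
        (C := (a ^ (-(1 / 8) : ℝ)) ^ n) (Eventually.of_forall fun ω => bφ n x ω)
      simpa [cr] using h
    refine ⟨mc, fun z ε f hf => ?_⟩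
    have iF : Integrable fun x : Fin n → ℂ => ∏ i, f i (x i) :=
      Integrable.fintype_prod (μ := fun _ : Fin n => (volume : Measure ℂ)) fun i => (hf i).int
    have mF : Measurable fun x : Fin n → ℂ => ∏ i, f i (x i) :=
      Finset.measurable_prod _ fun i _ => (hf i).meas.comp (measurable_pi_apply i)
    have iG : Integrable fun x : Fin n → ℂ => |∏ i, f i (x i)| * (a ^ (-(1 / 8) : ℝ)) ^ n :=
      iF.abs.mul_const _
    refine ⟨iG.mono' (mF.mul mc).aestronglyMeasurable (Eventually.of_forall fun x => ?_), ?_⟩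
    · rw [Real.norm_eq_abs, abs_mul]
      exact mul_le_mul_of_nonneg_left (bc x) (abs_nonneg _)
    have e1 : ∀ ω, ∏ i, sm φ a (f i) ω =
        ∫ x : Fin n → ℂ, (∏ i, f i (x i)) * ∏ i, φ a (x i) ω := by
      intro ω
      simp only [sm, ← Finset.prod_mul_distrib]
      exact (integral_fintype_prod_volume_eq_prod fun i x => f i x * φ a x ω).symm
    have iH : Integrable (Function.uncurry fun (x : Fin n → ℂ) (ω : Ω) =>
        (∏ i, f i (x i)) * ∏ i, φ a (x i) ω) ((volume : Measure (Fin n → ℂ)).prod μ) := by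
      refine (iG.comp_fst μ).mono' ((mF.comp measurable_fst).mul mP).aestronglyMeasurable
        (Eventually.of_forall fun p => ?_)
      show ‖(∏ i, f i (p.1 i)) * ∏ i, φ a (p.1 i) p.2‖ ≤ _
      rw [Real.norm_eq_abs, abs_mul]
      exact mul_le_mul_of_nonneg_left (bφ n p.1 p.2) (abs_nonneg _)
    simp only [e1]
    rw [← integral_integral_swap iH]
    simp only [integral_const_mul, cr]

end Vale.Agent.P144W
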