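import Vale.Agent.P144W.St
import Mathlib.Analysis.SpecialFunctions.Pow.Continuity
import Mathlib.Analysis.SpecificLimits.Basic

/-!
# P144W: moments at all scales (helper67)
-/

set_option autoImplicit false
set_option linter.all false

noncomputable section

namespace Vale.Agent.P144W

open MeasureTheory Filter Topology Metric

theorem mom_delta (c : ℝ) (n : ℕ) (hn : n ≠ 0) : ∃ δ : ℝ, 0 < δ ∧ δ < 1 / 4 ∧
    c * δ⁻¹ ^ n * ((2 * δ) ^ (15 / 8 : ℝ)) ^ n ≤ 1 / 2 := by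
  have h1 : ContinuousAt (fun δ : ℝ => c * ((2 : ℝ) ^ (15 / 8 : ℝ) * δ ^ (7 / 8 : ℝ)) ^ n) 0 :=
    continuousAt_const.mul ((continuousAt_const.mul
      (Real.continuousAt_rpow_const 0 (7 / 8) (Or.inr (by norm_num)))).pow n)
  have h2 : ∀ᶠ δ : ℝ in 𝓝 0, c * ((2 : ℝ) ^ (15 / 8 : ℝ) * δ ^ (7 / 8 : ℝ)) ^ n < 1 / 2 := by
    apply h1.eventually_lt continuousAt_const
    rw [Real.zero_rpow (by norm_num), mul_zero, zero_pow hn, mul_zero]
    norm_num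
  have h3 : ∀ᶠ δ : ℝ in 𝓝 0, δ < 1 / 4 := eventually_lt_nhds (by norm_num)
  have h4 : ∀ᶠ δ : ℝ in 𝓝[>] 0, 0 < δ := self_mem_nhdsWithin
  obtain ⟨δ, h0, ha, hb⟩ := (h4.and (((h3.and h2)).filter_mono nhdsWithin_le_nhds)).exists
  refine ⟨δ, h0, ha, ?_⟩
  have e : δ⁻¹ * (2 * δ) ^ (15 / 8 : ℝ) = (2 : ℝ) ^ (15 / 8 : ℝ) * δ ^ (7 / 8 : ℝ) := by
    rw [Real.mul_rpow (by norm_num) h0.le]
    have : δ ^ (15 / 8 : ℝ) = δ * δ ^ (7 / 8 : ℝ) := by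
      rw [show (15 / 8 : ℝ) = 1 + 7 / 8 by norm_num, Real.rpow_add h0, Real.rpow_one]
    rw [this]
    field_simp
  rw [mul_assoc, ← mul_pow, e]
  exact hb.le

theorem mom_scale {ε : ℝ} (h : 0 < ε) : ε ^ (-(1 / 8) : ℝ) * (4 * ε ^ 2) = 4 * ε ^ (15 / 8 : ℝ) := by
  have : ε ^ (15 / 8 : ℝ) = ε ^ (-(1 / 8) : ℝ) * ε ^ 2 := by
    rw [show (15 / 8 : ℝ) = -(1 / 8) + 2 by norm_num, Real.rpow_add h, Real.rpow_two]
  rw [this]
  ring

theorem mom (fub : FUB) (st : STEP) : MOM := by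
  intro Ω _ μ φ hF n hn
  haveI := hF.prob
  rcases Nat.eq_zero_or_pos n with h0 | h0
  · subst h0
    exact ⟨1, zero_le_one, fun a _ ε _ z g _ => by simp⟩
  have h2 : 2 ≤ n := by
    obtain ⟨k, rfl⟩ := hn
    omega
  obtain ⟨c, hc, hst⟩ := st n hn h2
  obtain ⟨δ, hδ, hδ4, hcδ⟩ := mom_delta c n h0.ne'
  obtain ⟨K, T, hK, hT, hs⟩ := hst Ω μ φ hF δ hδ (by linarith)
  have hT8 : 0 ≤ T ^ (1 / 8 : ℝ) := Real.rpow_nonneg hT.le _
  set A : ℝ := 2 * (K * 4 ^ n) + (4 * T ^ (1 / 8 : ℝ)) ^ n with hA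
  have hA1 : 0 ≤ K * 4 ^ n := by positivity
  have hA2 : 0 ≤ (4 * T ^ (1 / 8 : ℝ)) ^ n := by positivity
  have hA0 : 0 ≤ A := by positivity
  refine ⟨A, hA0, fun a ha => ?_⟩
  obtain ⟨hf, -⟩ := fub Ω μ φ hF a ha
  have base : ∀ ε > (0 : ℝ), ε ≤ T * a → ∀ z g, Tf z ε g →
      ∫ ω, sm φ a g ω ^ n ∂μ ≤ A * (ε ^ (15 / 8 : ℝ)) ^ n := by
    intro ε hε hle z g hg
    obtain ⟨-, -, -, hb, hi⟩ := hf z ε g hg
    have hi := hi hε.le
    have h1 : a ^ (-(1 / 8) : ℝ) ≤ T ^ (1 / 8 : ℝ) * ε ^ (-(1 / 8) : ℝ) := by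
      have h3 : ε / T ≤ a := by
        rw [div_le_iff₀ hT]
        linarith
      have h4 := Real.rpow_le_rpow_of_nonpos (div_pos hε hT) h3 (show (-(1 / 8) : ℝ) ≤ 0 by norm_num)
      refine h4.trans (le_of_eq ?_)
      rw [Real.div_rpow hε.le hT.le, Real.rpow_neg hT.le, div_inv_eq_mul, mul_comm]
    have h5 : ∀ ω, |sm φ a g ω| ≤ 4 * T ^ (1 / 8 : ℝ) * ε ^ (15 / 8 : ℝ) := by
      intro ω
      refine (hb ω).trans ?_
      calc a ^ (-(1 / 8) : ℝ) * ∫ x, |g x|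
          ≤ (T ^ (1 / 8 : ℝ) * ε ^ (-(1 / 8) : ℝ)) * (4 * ε ^ 2) :=
            mul_le_mul h1 hi (integral_nonneg fun x => abs_nonneg _) (by positivity)
        _ = T ^ (1 / 8 : ℝ) * (ε ^ (-(1 / 8) : ℝ) * (4 * ε ^ 2)) := by ring
        _ = 4 * T ^ (1 / 8 : ℝ) * ε ^ (15 / 8 : ℝ) := by
            rw [mom_scale hε]
            ring
    have h6 : ∫ ω, sm φ a g ω ^ n ∂μ ≤
        ∫ _ω, (4 * T ^ (1 / 8 : ℝ) * ε ^ (15 / 8 : ℝ)) ^ n ∂μ := by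
      refine integral_mono_of_nonneg (Eventually.of_forall fun ω => hn.pow_nonneg _)
        (integrable_const _) (Eventually.of_forall fun ω => ?_)
      show sm φ a g ω ^ n ≤ _
      rw [← hn.pow_abs]
      exact pow_le_pow_left₀ (abs_nonneg _) (h5 ω) n
    rw [integral_const, probReal_univ, one_smul, mul_pow] at h6
    refine h6.trans (mul_le_mul_of_nonneg_right (by linarith) (by positivity))
  have ind : ∀ k : ℕ, ∀ ε > (0 : ℝ), ε * (2 * δ) ^ k ≤ T * a → ∀ z g, Tf z ε g →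
      ∫ ω, sm φ a g ω ^ n ∂μ ≤ A * (ε ^ (15 / 8 : ℝ)) ^ n := by
    intro k
    induction k with
    | zero =>
      intro ε hε hle
      exact base ε hε (by simpa using hle)
    | succ k ih =>
      intro ε hε hle z g hg
      rcases le_total ε (T * a) with h | h
      · exact base ε hε h z g hg
      have hε' : 0 < 2 * δ * ε := by positivity
      have h1 := hs a ε (A * ((2 * δ * ε) ^ (15 / 8 : ℝ)) ^ n) z g ha h hg (by positivity)
        (fun z' g' hg' => ih (2 * δ * ε) hε' (by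
          have : 2 * δ * ε * (2 * δ) ^ k = ε * (2 * δ) ^ (k + 1) := by ring
          rw [this]
          exact hle) z' g' hg')
      refine h1.trans ?_
      obtain ⟨-, -, -, -, hi⟩ := hf z ε g hg
      have hi := hi hε.le
      have hE : 0 ≤ (ε ^ (15 / 8 : ℝ)) ^ n := by positivity
      have h3 : (ε ^ (-(1 / 8) : ℝ) * ∫ x, |g x|) ^ n ≤ 4 ^ n * (ε ^ (15 / 8 : ℝ)) ^ n := by
        rw [← mul_pow, ← mom_scale hε]
        exact pow_le_pow_left₀ (mul_nonneg (by positivity) (integral_nonneg fun x => abs_nonneg _))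
          (mul_le_mul_of_nonneg_left hi (by positivity)) n
      have h4 : c * δ⁻¹ ^ n * (A * ((2 * δ * ε) ^ (15 / 8 : ℝ)) ^ n) ≤
          1 / 2 * (A * (ε ^ (15 / 8 : ℝ)) ^ n) := by
        rw [Real.mul_rpow (by positivity) hε.le, mul_pow]
        calc c * δ⁻¹ ^ n * (A * (((2 * δ) ^ (15 / 8 : ℝ)) ^ n * (ε ^ (15 / 8 : ℝ)) ^ n))
            = (c * δ⁻¹ ^ n * ((2 * δ) ^ (15 / 8 : ℝ)) ^ n) * (A * (ε ^ (15 / 8 : ℝ)) ^ n) := by ring
          _ ≤ 1 / 2 * (A * (ε ^ (15 / 8 : ℝ)) ^ n) :=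
            mul_le_mul_of_nonneg_right hcδ (mul_nonneg hA0 hE)
      have h5 := mul_le_mul_of_nonneg_left h3 hK
      have h6 : K * 4 ^ n * (ε ^ (15 / 8 : ℝ)) ^ n ≤ 1 / 2 * A * (ε ^ (15 / 8 : ℝ)) ^ n :=
        mul_le_mul_of_nonneg_right (by linarith) hE
      nlinarith
  intro ε hε z g hg
  obtain ⟨k, hk⟩ := exists_pow_lt_of_lt_one (div_pos (mul_pos hT ha) hε)
    (show 2 * δ < 1 by linarith)
  refine ind k ε hε ?_ z g hg
  rw [lt_div_iff₀ hε] at hk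
  linarith

end Vale.Agent.P144W
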