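import Vale.Agent.P144W.St
import Mathlib.Algebra.Order.Chebyshev
import Mathlib.MeasureTheory.Function.Floor

/-!
# P144W: row NEAR
-/

set_option autoImplicit false
set_option linter.all false

noncomputable section

namespace Vale.Agent.P144W

open MeasureTheory Filter Topology Metric

namespace Nr

lemma pw (t : ℝ) (h : 0 ≤ t) (n : ℕ) : t ^ n ≤ 1 + (t ^ 2) ^ (n + 1) := by
  have p : 0 ≤ (t ^ 2) ^ (n + 1) := by positivity
  rcases le_total t 1 with a | a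
  · linarith [pow_le_one₀ (n := n) h a]
  · rw [← pow_mul]
    linarith [pow_le_pow_right₀ a (show n ≤ 2 * (n + 1) by omega)]

lemma ps {ι : Type} [Fintype ι] (u : ι → ℝ) (n : ℕ) :
    (∑ i, u i ^ 2) ^ (n + 1) ≤ (Fintype.card ι : ℝ) ^ n * ∑ i, u i ^ (2 * (n + 1)) := by
  have := pow_sum_le_card_mul_sum_pow (s := Finset.univ) (f := fun i => u i ^ 2)
    (fun i _ => sq_nonneg _) n
  simpa only [Finset.card_univ, ← pow_mul] using this

lemma p1 {n : ℕ} (s : Fin n → ℝ) : |∏ i, s i| ≤ 1 + (n : ℝ) ^ n * ∑ i, s i ^ (2 * (n + 1)) := by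
  have h0 : 0 ≤ ∑ i, s i ^ 2 := Finset.sum_nonneg fun i _ => sq_nonneg _
  have a : |∏ i, s i| ≤ √(∑ i, s i ^ 2) ^ n := by
    rw [Finset.abs_prod]
    refine (Finset.prod_le_prod (fun i _ => abs_nonneg _) fun i _ => Real.abs_le_sqrt
      (Finset.single_le_sum (f := fun i => s i ^ 2) (fun i _ => sq_nonneg _) (Finset.mem_univ i))).trans_eq ?_
    simp
  have b := pw _ (Real.sqrt_nonneg (∑ i, s i ^ 2)) n
  rw [Real.sq_sqrt h0] at b
  have c := ps s n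
  rw [Fintype.card_fin] at c
  linarith

lemma p2 {n : ℕ} {c : ℝ} (hc : 0 ≤ c) {W : Type} [Fintype W] [DecidableEq W]
    (y : Fin n → W → ℝ) (D θ : ℝ) (h0 : 0 < θ)
    (dl : ∀ t, 0 ≤ t → (∀ i, |∑ w, y i w| ≤ t) → (∀ i, ∑ w, y i w ^ 2 ≤ (θ * t) ^ 2) →
      D ≤ c * θ ^ 2 * t ^ n) :
    D ≤ c * θ ^ 2 * (1 + 2 ^ n * ((n : ℝ) ^ n * ∑ i, (∑ w, y i w) ^ (2 * (n + 1)) +
      ((θ ^ 2)⁻¹ ^ (n + 1) * ((n : ℝ) * Fintype.card W) ^ n) *
        ∑ p : Fin n × W, y p.1 p.2 ^ (2 * (n + 1)))) := by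
  set a := ∑ i, (∑ w, y i w) ^ 2 with ha
  set b := ∑ p : Fin n × W, y p.1 p.2 ^ 2 with hb
  have a0 : 0 ≤ a := Finset.sum_nonneg fun i _ => sq_nonneg _
  have b0 : 0 ≤ b := Finset.sum_nonneg fun i _ => sq_nonneg _
  have t2 : 0 < θ ^ 2 := by positivity
  have q0 : 0 ≤ (θ ^ 2)⁻¹ * b := by positivity
  have s0 : 0 ≤ a + (θ ^ 2)⁻¹ * b := by positivity
  have h := dl √(a + (θ ^ 2)⁻¹ * b) (Real.sqrt_nonneg _) (fun i => Real.abs_le_sqrt (by
    have := Finset.single_le_sum (f := fun i => (∑ w, y i w) ^ 2) (fun i _ => sq_nonneg _)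
      (Finset.mem_univ i)
    linarith)) (fun i => by
    rw [mul_pow, Real.sq_sqrt s0, mul_add, ← mul_assoc, mul_inv_cancel₀ t2.ne', one_mul]
    have e : b = ∑ i, ∑ w, y i w ^ 2 := Fintype.sum_prod_type _
    have := Finset.single_le_sum (f := fun i => ∑ w, y i w ^ 2)
      (fun i _ => Finset.sum_nonneg fun _ _ => sq_nonneg _) (Finset.mem_univ i)
    nlinarith [mul_nonneg t2.le a0])
  refine h.trans (mul_le_mul_of_nonneg_left ?_ (by positivity))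
  have k := pw _ (Real.sqrt_nonneg (a + (θ ^ 2)⁻¹ * b)) n
  rw [Real.sq_sqrt s0] at k
  have k1 := add_pow_le a0 q0 (n + 1)
  rw [Nat.add_sub_cancel, mul_pow] at k1
  have k2 := ps (fun i => ∑ w, y i w) n
  have k3 := ps (fun p : Fin n × W => y p.1 p.2) n
  rw [Fintype.card_prod, Nat.cast_mul] at k3
  rw [Fintype.card_fin] at k2 k3
  have k4 := mul_le_mul_of_nonneg_left k3 (show 0 ≤ (θ ^ 2)⁻¹ ^ (n + 1) by positivity)
  refine k.trans (add_le_add le_rfl (k1.trans (mul_le_mul_of_nonneg_left (add_le_add k2 ?_) (by positivity))))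
  rw [mul_assoc]; exact k4

variable {Ω : Type} [MeasurableSpace Ω]

/-- bounded and measurable -/
def Bd (u : Ω → ℝ) : Prop := Measurable u ∧ ∃ C, ∀ ω, |u ω| ≤ C

lemma Bd.int {u : Ω → ℝ} (h : Bd u) (μ : Measure Ω) [IsFiniteMeasure μ] : Integrable u μ := by
  obtain ⟨m, C, hC⟩ := h
  exact Integrable.of_bound m.aestronglyMeasurable C (ae_of_all _ hC)

lemma Bd.prod {ι : Type} [Fintype ι] {u : ι → Ω → ℝ} (h : ∀ i, Bd (u i)) :
    Bd fun ω => ∏ i, u i ω := by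
  choose C hC using fun i => (h i).2
  refine ⟨Finset.measurable_prod _ fun i _ => (h i).1, ∏ i, C i, fun ω => ?_⟩
  rw [Finset.abs_prod]
  exact Finset.prod_le_prod (fun i _ => abs_nonneg _) fun i _ => hC i ω

lemma Bd.pow {u : Ω → ℝ} (h : Bd u) (k : ℕ) : Bd fun ω => u ω ^ k := by
  simpa using Bd.prod (ι := Fin k) fun _ => h

/-- the piece of `f` in a box -/
def pc (δ : ℝ) (f : ℂ → ℝ) (w : ℤ × ℤ) (x : ℂ) : ℝ := if bx δ x = w then f x else 0

lemma mbx (δ : ℝ) : Measurable (bx δ) :=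
  ((Complex.measurable_re.div_const δ).floor).prodMk ((Complex.measurable_im.div_const δ).floor)

lemma pc1 {z : ℂ} {ε : ℝ} {f : ℂ → ℝ} (h : Tf z ε f) (δ : ℝ) (w : ℤ × ℤ) : Tf z ε (pc δ f w) := by
  refine ⟨Measurable.ite (mbx δ (measurableSet_singleton w)) h.meas measurable_const, fun x => ?_,
    fun x hx => h.sup x fun e => hx ?_⟩
  · unfold pc; split_ifs
    · exact h.bd x
    · simp
  · unfold pc; simp [e]

lemma fl1 {δ r : ℝ} (hδ : 0 < δ) : |r - (⌊r / δ⌋ : ℝ) * δ| < δ := by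
  have a := Int.floor_le (r / δ)
  have b := Int.lt_floor_add_one (r / δ)
  rw [le_div_iff₀ hδ] at a
  rw [div_lt_iff₀ hδ] at b
  rw [abs_lt]; constructor <;> linarith

lemma pc2 {z : ℂ} {ε δ : ℝ} {f : ℂ → ℝ} (h : Tf z ε f) (hδ : 0 < δ) (w : ℤ × ℤ) :
    Tf ⟨w.1 * δ, w.2 * δ⟩ (2 * δ) (pc δ f w) := by
  refine ⟨(pc1 h δ w).meas, (pc1 h δ w).bd, fun x hx => ?_⟩
  have e : bx δ x = w := by
    by_contra e; exact hx (if_neg e)
  subst e
  rw [mem_ball, dist_eq_norm]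
  refine (Complex.norm_le_abs_re_add_abs_im _).trans_lt ?_
  have a := fl1 (r := x.re) hδ
  have b := fl1 (r := x.im) hδ
  simp only [Complex.sub_re, Complex.sub_im, bx]
  linarith

/-- the boxes -/
def bs (M : ℕ) : Finset (ℤ × ℤ) := Finset.Icc (-(M : ℤ)) M ×ˢ Finset.Icc (-(M : ℤ)) M

lemma fl2 {δ r R : ℝ} (hδ : 0 < δ) (h : |r| ≤ R) :
    ⌊r / δ⌋ ∈ Finset.Icc (-(⌈R / δ⌉₊ : ℤ)) ⌈R / δ⌉₊ := by
  have a := Nat.le_ceil (R / δ)
  obtain ⟨h1, h2⟩ := abs_le.1 h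
  have b : r / δ ≤ R / δ := div_le_div_of_nonneg_right h2 hδ.le
  have c : -R / δ ≤ r / δ := div_le_div_of_nonneg_right h1 hδ.le
  rw [neg_div] at c
  refine Finset.mem_Icc.2 ⟨Int.le_floor.2 (by push_cast; linarith), ?_⟩
  have := Int.floor_le (r / δ)
  exact_mod_cast (show ((⌊r / δ⌋ : ℤ) : ℝ) ≤ (⌈R / δ⌉₊ : ℝ) by linarith)

lemma mem {δ R : ℝ} {f : ℂ → ℝ} (h : Tf 0 R f) (hδ : 0 < δ) {x : ℂ} (hx : f x ≠ 0) :
    bx δ x ∈ bs ⌈R / δ⌉₊ := by
  have a := (mem_ball_zero_iff.1 (h.sup x hx)).le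
  exact Finset.mem_product.2 ⟨fl2 hδ ((Complex.abs_re_le_norm x).trans a),
    fl2 hδ ((Complex.abs_im_le_norm x).trans a)⟩

lemma card (M : ℕ) : (Fintype.card (bs M) : ℝ) = (2 * M + 1) ^ 2 := by
  have : (Finset.Icc (-(M : ℤ)) M).card = 2 * M + 1 := by rw [Int.card_Icc]; omega
  rw [Fintype.card_coe, bs, Finset.card_product, this]; push_cast; ring

lemma sum1 {δ R : ℝ} {f : ℂ → ℝ} (h : Tf 0 R f) (hδ : 0 < δ) (x : ℂ) :
    ∑ w : bs ⌈R / δ⌉₊, pc δ f w x = f x := by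
  by_cases hx : f x = 0
  · simp [pc, hx]
  · refine (Finset.sum_eq_single (f := fun w : bs ⌈R / δ⌉₊ => pc δ f w x) ⟨bx δ x, mem h hδ hx⟩
      (fun w _ e => ?_) (fun k => absurd (Finset.mem_univ _) k)).trans (if_pos rfl)
    exact if_neg fun (k : bx δ x = w.1) => e (Subtype.ext k.symm)

lemma sum2 {n : ℕ} {δ R : ℝ} {f : Fin n → ℂ → ℝ} (h : ∀ i, Tf 0 R (f i)) (hδ : 0 < δ)
    (x : Fin n → ℂ) (r : ℝ) :
    (∑ w : Fin n → bs ⌈R / δ⌉₊, if Function.Injective w then (∏ i, pc δ (f i) (w i) (x i)) * r else 0) =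
      {x : Fin n → ℂ | Function.Injective fun i => bx δ (x i)}.indicator
        (fun x => ∏ i, f i (x i)) x * r := by
  by_cases hx : ∃ i, f i (x i) = 0
  · obtain ⟨i, hi⟩ := hx
    have a : ∏ i, f i (x i) = 0 := Finset.prod_eq_zero (Finset.mem_univ i) hi
    rw [Finset.sum_eq_zero, Set.indicator_apply, a, ite_self, zero_mul]
    intro w _
    rw [Finset.prod_eq_zero (Finset.mem_univ i) (by simp [pc, hi]), zero_mul, ite_self]
  · replace hx := fun i e => hx ⟨i, e⟩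
    rw [Finset.sum_eq_single (fun i => ⟨bx δ (x i), mem (h i) hδ (hx i)⟩) ?_
      (fun k => absurd (Finset.mem_univ _) k), Set.indicator_apply]
    · have e : (Function.Injective fun i => (⟨bx δ (x i), mem (h i) hδ (hx i)⟩ : bs ⌈R / δ⌉₊)) ↔
          x ∈ {x : Fin n → ℂ | Function.Injective fun i => bx δ (x i)} :=
        ⟨fun k i j e => k (Subtype.ext e), fun k i j e => k (congrArg Subtype.val e)⟩
      by_cases k : x ∈ {x : Fin n → ℂ | Function.Injective fun i => bx δ (x i)}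
      · rw [if_pos k, if_pos (e.2 k)]; simp [pc]
      · rw [if_neg k, if_neg fun j => k (e.1 j), zero_mul]
    · intro w _ e
      obtain ⟨i, hi⟩ := Function.ne_iff.1 e
      have z : pc δ (f i) (w i) (x i) = 0 :=
        if_neg fun (k : bx δ (x i) = (w i).1) => hi (Subtype.ext k.symm)
      rw [Finset.prod_eq_zero (Finset.mem_univ i) z, zero_mul, ite_self]

lemma small {n : ℕ} {R θ δ : ℝ} (hR : 0 < R) (hθ : 0 < θ) (hδ : 0 < δ) (h1 : δ ≤ 1 / 2)
    (h2 : (θ ^ 2)⁻¹ * (n * (8 * (2 * R + 3) ^ 2)) * δ ≤ 1) :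
    (θ ^ 2)⁻¹ * ((n : ℝ) * Fintype.card (bs ⌈R / δ⌉₊)) * ((2 * δ) ^ (15 / 8 : ℝ)) ^ 2 ≤ 1 := by
  have a : ((2 * δ) ^ (15 / 8 : ℝ)) ^ 2 ≤ (2 * δ) ^ 3 := by
    rw [← Real.rpow_natCast, ← Real.rpow_mul (by positivity), ← Real.rpow_natCast]
    exact Real.rpow_le_rpow_of_exponent_ge (by positivity) (by linarith) (by norm_num)
  have b : (2 * (⌈R / δ⌉₊ : ℝ) + 1) * δ ≤ 2 * R + 3 := by
    have := (Nat.ceil_lt_add_one (show 0 ≤ R / δ by positivity)).le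
    have c := mul_le_mul_of_nonneg_right this hδ.le
    rw [add_mul, div_mul_cancel₀ _ hδ.ne'] at c
    nlinarith
  have c : ((2 * (⌈R / δ⌉₊ : ℝ) + 1) * δ) ^ 2 ≤ (2 * R + 3) ^ 2 :=
    pow_le_pow_left₀ (by positivity) b 2
  rw [card]
  calc _ ≤ (θ ^ 2)⁻¹ * ((n : ℝ) * (2 * (⌈R / δ⌉₊ : ℝ) + 1) ^ 2) * (2 * δ) ^ 3 := by gcongr
    _ = (θ ^ 2)⁻¹ * (n * (8 * ((2 * (⌈R / δ⌉₊ : ℝ) + 1) * δ) ^ 2)) * δ := by ring
    _ ≤ (θ ^ 2)⁻¹ * (n * (8 * (2 * R + 3) ^ 2)) * δ := by gcongr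
    _ ≤ 1 := h2

end Nr

open Nr in
theorem near (dl : DL) (fub : FUB) (mo : MOM) : NEAR := by
  intro Ω _ μ φ F n R hR
  haveI := F.prob
  obtain ⟨A, A0, hA⟩ := mo Ω μ φ F (2 * (n + 1)) (even_two_mul _)
  obtain ⟨c, c0, hc⟩ := dl n
  have bd : ∀ a > (0 : ℝ), ∀ {z ε g}, Tf z ε g → Bd (sm φ a g) := fun a ha z ε g h =>
    ⟨((fub Ω μ φ F a ha).1 z ε g h).1, _, ((fub Ω μ φ F a ha).1 z ε g h).2.2.2.1⟩
  set B := (n : ℝ) ^ n * (n * (A * (R ^ (15 / 8 : ℝ)) ^ (2 * (n + 1)))) with hB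
  have B0 : 0 ≤ B := by positivity
  have i1 : ∀ a > (0 : ℝ), ∀ f : Fin n → ℂ → ℝ, (∀ i, Tf 0 R (f i)) →
      Integrable (fun ω => (n : ℝ) ^ n * ∑ i, sm φ a (f i) ω ^ (2 * (n + 1))) μ ∧
      ∫ ω, (n : ℝ) ^ n * ∑ i, sm φ a (f i) ω ^ (2 * (n + 1)) ∂μ ≤ B := fun a ha f hf => by
    have k := fun i => ((bd a ha (hf i)).pow (2 * (n + 1))).int μ
    refine ⟨(integrable_finset_sum _ fun i _ => k i).const_mul _, ?_⟩
    rw [integral_const_mul, integral_finset_sum _ fun i _ => k i]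
    refine mul_le_mul_of_nonneg_left ((Finset.sum_le_sum fun i _ => hA a ha R hR 0 _ (hf i)).trans_eq ?_)
      (by positivity)
    simp
  refine ⟨⟨1 + B, fun a ha f hf => ?_⟩, fun η hη => ?_⟩
  · obtain ⟨k1, k2⟩ := i1 a ha f hf
    rw [← Real.norm_eq_abs]
    refine (norm_integral_le_of_norm_le ((integrable_const (1 : ℝ)).add k1)
      (ae_of_all _ fun ω => ?_)).trans ?_
    · exact p1 fun i => sm φ a (f i) ω
    simp only [Pi.add_apply]
    rw [integral_add (integrable_const _) k1]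
    simpa using k2
  set K := c * (1 + 2 ^ n * (B + A)) with hK
  have K0 : 0 ≤ K := by positivity
  obtain ⟨θ, θ0, θ1, hθ⟩ : ∃ θ : ℝ, 0 < θ ∧ θ ≤ 1 ∧ K * θ ^ 2 ≤ η := by
    refine ⟨min 1 (η / (K + 1)), by positivity, min_le_left _ _, ?_⟩
    have a := min_le_left 1 (η / (K + 1))
    have b := min_le_right 1 (η / (K + 1))
    have p : 0 < min 1 (η / (K + 1)) := by positivity
    rw [le_div_iff₀ (by positivity)] at b
    nlinarith [mul_nonneg K0 p.le, mul_le_mul_of_nonneg_left a (mul_nonneg K0 p.le)]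
  have ev : ∀ᶠ δ in 𝓝 (0 : ℝ), (θ ^ 2)⁻¹ * (n * (8 * (2 * R + 3) ^ 2)) * δ ≤ 1 := by
    have : ContinuousAt (fun δ : ℝ => (θ ^ 2)⁻¹ * (n * (8 * (2 * R + 3) ^ 2)) * δ) 0 := by fun_prop
    exact this.eventually (eventually_le_nhds (by simp))
  filter_upwards [self_mem_nhdsWithin, nhdsWithin_le_nhds ev,
    nhdsWithin_le_nhds (eventually_le_nhds (show (0 : ℝ) < 1 / 2 by norm_num))] with δ hδ h2 h1 a ha f hf
  have hδ : 0 < δ := hδ
  obtain ⟨k1, k2⟩ := i1 a ha f hf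
  obtain ⟨f1, f2⟩ := fub Ω μ φ F a ha
  let y : Ω → Fin n → bs ⌈R / δ⌉₊ → ℝ := fun ω i w => sm φ a (pc δ (f i) w) ω
  have e1 : ∀ ω i, ∑ w, y ω i w = sm φ a (f i) ω := fun ω i => by
    unfold y sm
    rw [← integral_finset_sum _ fun w _ => (f1 0 R _ (pc1 (hf i) δ _)).2.2.1 ω]
    simp only [← Finset.sum_mul, sum1 (hf i) hδ]
  have ms : MeasurableSet {x : Fin n → ℂ | Function.Injective fun i => bx δ (x i)} :=
    (measurable_pi_lambda (fun (x : Fin n → ℂ) i => bx δ (x i)) fun i =>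
      (mbx δ).comp (measurable_pi_apply i))
      (Set.to_countable {w : Fin n → ℤ × ℤ | Function.Injective w}).measurableSet
  have j1 : ∀ w : Fin n → bs ⌈R / δ⌉₊,
      Integrable (fun ω => if Function.Injective w then ∏ i, y ω i (w i) else 0) μ := fun w => by
    split_ifs
    · exact (Bd.prod fun i => bd a ha (pc1 (hf i) δ _)).int μ
    · exact integrable_zero _ _ _
  have j2 : ∀ w : Fin n → bs ⌈R / δ⌉₊, Integrable fun x : Fin n → ℂ =>
      if Function.Injective w then (∏ i, pc δ (f i) (w i) (x i)) * cr μ φ a x else 0 := fun w => by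
    split_ifs
    · exact ((f2 n).2 0 R _ fun i => pc1 (hf i) δ _).1
    · exact integrable_zero _ _ _
  have e2 : ∫ x in {x : Fin n → ℂ | Function.Injective fun i => bx δ (x i)},
      (∏ i, f i (x i)) * cr μ φ a x = ∫ ω, (∑ w : Fin n → bs ⌈R / δ⌉₊,
        if Function.Injective w then ∏ i, y ω i (w i) else 0) ∂μ := by
    rw [integral_finset_sum _ fun w _ => j1 w, ← integral_indicator ms]
    have e : ∀ w : Fin n → bs ⌈R / δ⌉₊,
        ∫ ω, (if Function.Injective w then ∏ i, y ω i (w i) else 0) ∂μ = ∫ x : Fin n → ℂ,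
        if Function.Injective w then (∏ i, pc δ (f i) (w i) (x i)) * cr μ φ a x else 0 := fun w => by
      split_ifs
      · exact ((f2 n).2 0 R _ fun i => pc1 (hf i) δ _).2
      · simp
    simp only [e]
    rw [← integral_finset_sum _ fun w _ => j2 w]
    refine integral_congr_ae (ae_of_all _ fun x => ?_)
    simp only [sum2 hf hδ, Set.indicator_mul_left]
  set q := (θ ^ 2)⁻¹ ^ (n + 1) * ((n : ℝ) * Fintype.card (bs ⌈R / δ⌉₊)) ^ n with hq
  have q0 : 0 ≤ q := by positivity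
  have k := fun p : Fin n × bs ⌈R / δ⌉₊ => ((bd a ha (pc1 (hf p.1) δ p.2)).pow (2 * (n + 1))).int μ
  have k3 : Integrable (fun ω => q * ∑ p : Fin n × bs ⌈R / δ⌉₊, y ω p.1 p.2 ^ (2 * (n + 1))) μ :=
    (integrable_finset_sum _ fun p _ => k p).const_mul _
  have k4 : ∫ ω, q * ∑ p : Fin n × bs ⌈R / δ⌉₊, y ω p.1 p.2 ^ (2 * (n + 1)) ∂μ ≤ A := by
    rw [integral_const_mul, integral_finset_sum _ fun p _ => k p]
    refine (mul_le_mul_of_nonneg_left (Finset.sum_le_sum fun p _ =>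
      hA a ha (2 * δ) (by positivity) _ _ (pc2 (hf p.1) hδ p.2)) q0).trans ?_
    have s := pow_le_one₀ (n := n + 1) (by positivity) (small (n := n) hR θ0 hδ h1 h2)
    rw [Finset.sum_const, Finset.card_univ, Fintype.card_prod, Fintype.card_fin, nsmul_eq_mul,
      Nat.cast_mul, pow_mul]
    refine le_trans (le_of_eq ?_) (mul_le_of_le_one_right A0 s)
    rw [hq]; simp only [mul_pow]; ring
  rw [e2, ← integral_sub ((Bd.prod fun i => bd a ha (hf i)).int μ)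
    (integrable_finset_sum _ fun w _ => j1 w)]
  have k5 := (k1.add k3).const_mul (2 ^ n)
  rw [← Real.norm_eq_abs]
  refine (norm_integral_le_of_norm_le ((((integrable_const (1 : ℝ)).add k5)).const_mul (c * θ ^ 2))
    (ae_of_all _ fun ω => ?_)).trans ?_
  · have := p2 c0 (y ω) _ θ θ0 fun t h0 h3 h4 => hc _ (y ω) t θ h0 θ0.le θ1 h3 h4
    simp only [e1] at this
    exact this
  · simp only [Pi.add_apply] at k5 ⊢
    rw [integral_const_mul, integral_add (integrable_const _) k5, integral_const_mul,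
      integral_add k1 k3]
    refine le_trans ?_ hθ
    have : c * θ ^ 2 * (1 + 2 ^ n * (B + A)) = K * θ ^ 2 := by rw [hK]; ring
    rw [← this]
    simp only [integral_const, probReal_univ, smul_eq_mul, one_mul]
    gcongr

end Vale.Agent.P144W
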