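import Mathlib.MeasureTheory.Integral.Pi
import Mathlib.MeasureTheory.Integral.Prod
import Mathlib.MeasureTheory.Integral.DominatedConvergence
import Mathlib.MeasureTheory.Measure.Lebesgue.Complex
import Mathlib.MeasureTheory.Measure.Lebesgue.VolumeOfBalls
import Mathlib.Analysis.SpecialFunctions.Pow.Real
import Mathlib.Analysis.MeanInequalitiesPow

/-!
# P144W: smeared fields, rows (helper14)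
-/

set_option autoImplicit false
set_option linter.all false

noncomputable section

namespace Vale.Agent.P144W

open MeasureTheory Filter Topology Metric

variable {Ω : Type} [MeasurableSpace Ω]

/-- the correlation function -/
def cr (μ : Measure Ω) (φ : ℝ → ℂ → Ω → ℝ) (a : ℝ) {n : ℕ} (x : Fin n → ℂ) : ℝ :=
  ∫ ω, ∏ i, φ a (x i) ω ∂μ

/-- the smeared field -/
def sm (φ : ℝ → ℂ → Ω → ℝ) (a : ℝ) (f : ℂ → ℝ) (ω : Ω) : ℝ := ∫ x, f x * φ a x ω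

/-- test functions bounded by one with support in a ball -/
structure Tf (z : ℂ) (ε : ℝ) (g : ℂ → ℝ) : Prop where
  meas : Measurable g
  bd : ∀ x, |g x| ≤ 1
  sup : ∀ x, g x ≠ 0 → x ∈ ball z ε

/-- the index of the box of side `δ` -/
def bx (δ : ℝ) (z : ℂ) : ℤ × ℤ := (⌊z.re / δ⌋, ⌊z.im / δ⌋)

/-- the fields -/
structure Fd (μ : Measure Ω) (φ : ℝ → ℂ → Ω → ℝ) : Prop where
  prob : IsProbabilityMeasure μ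
  meas : ∀ a, Measurable fun p : ℂ × Ω => φ a p.1 p.2
  bd : ∀ a > (0 : ℝ), ∀ x ω, |φ a x ω| ≤ a ^ (-(1 / 8) : ℝ)
  sep : ∀ n : ℕ, ∀ δ > (0 : ℝ), ∃ K T : ℝ, 0 ≤ K ∧ 0 < T ∧ ∀ (a ε : ℝ) (z : ℂ) (x : Fin n → ℂ),
    0 < a → T * a ≤ ε → (∀ i, x i ∈ ball z ε) → (∀ i j, i ≠ j → δ * ε ≤ ‖x i - x j‖) →
    |cr μ φ a x| ≤ K * (ε ^ (-(1 / 8) : ℝ)) ^ n

/-- row DL: products of sums and sums over injective tuples -/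
def DL : Prop := ∀ n : ℕ, ∃ c : ℝ, 0 ≤ c ∧ ∀ (W : Type) [Fintype W] [DecidableEq W]
  (y : Fin n → W → ℝ) (t θ : ℝ), 0 ≤ t → 0 ≤ θ → θ ≤ 1 → (∀ i, |∑ w, y i w| ≤ t) →
  (∀ i, ∑ w, y i w ^ 2 ≤ (θ * t) ^ 2) →
  |∏ i, ∑ w, y i w - ∑ w : Fin n → W, if Function.Injective w then ∏ i, y i (w i) else 0| ≤
    c * θ ^ 2 * t ^ n

/-- row FUB: Fubini -/
def FUB : Prop := ∀ (Ω : Type) [MeasurableSpace Ω] (μ : Measure Ω) φ, Fd μ φ → ∀ a > (0 : ℝ),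
  (∀ z ε g, Tf z ε g → Measurable (sm φ a g) ∧ Integrable g ∧ (∀ ω, Integrable fun x => g x * φ a x ω) ∧
    (∀ ω, |sm φ a g ω| ≤ a ^ (-(1 / 8) : ℝ) * ∫ x, |g x|) ∧ (0 ≤ ε → ∫ x, |g x| ≤ 4 * ε ^ 2)) ∧
  ∀ (n : ℕ), Measurable (fun x : Fin n → ℂ => cr μ φ a x) ∧ ∀ z ε (f : Fin n → ℂ → ℝ),
    (∀ i, Tf z ε (f i)) → Integrable (fun x : Fin n → ℂ => (∏ i, f i (x i)) * cr μ φ a x) ∧
    ∫ ω, ∏ i, sm φ a (f i) ω ∂μ = ∫ x : Fin n → ℂ, (∏ i, f i (x i)) * cr μ φ a x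

/-- row STEP: one change of scale -/
def STEP : Prop := ∀ n : ℕ, Even n → 2 ≤ n → ∃ c : ℝ, 0 ≤ c ∧ ∀ (Ω : Type) [MeasurableSpace Ω]
  (μ : Measure Ω) φ, Fd μ φ → ∀ δ > (0 : ℝ), δ ≤ 1 → ∃ K T : ℝ, 0 ≤ K ∧ 0 < T ∧ ∀ (a ε B : ℝ) z g,
    0 < a → T * a ≤ ε → Tf z ε g → 0 ≤ B →
    (∀ z' g', Tf z' (2 * δ * ε) g' → ∫ ω, sm φ a g' ω ^ n ∂μ ≤ B) →
    ∫ ω, sm φ a g ω ^ n ∂μ ≤ K * (ε ^ (-(1 / 8) : ℝ) * ∫ x, |g x|) ^ n + c * δ⁻¹ ^ n * B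

/-- row MOM: moments at all scales -/
def MOM : Prop := ∀ (Ω : Type) [MeasurableSpace Ω] (μ : Measure Ω) φ, Fd μ φ → ∀ n : ℕ, Even n →
  ∃ A : ℝ, 0 ≤ A ∧ ∀ a > (0 : ℝ), ∀ ε > (0 : ℝ), ∀ z g, Tf z ε g →
    ∫ ω, sm φ a g ω ^ n ∂μ ≤ A * (ε ^ (15 / 8 : ℝ)) ^ n

/-- row SML: small test functions change the moments little -/
def SML : Prop := ∀ (Ω : Type) [MeasurableSpace Ω] (μ : Measure Ω) φ, Fd μ φ → ∀ (n : ℕ),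
  ∀ R > (0 : ℝ), ∀ η > (0 : ℝ), ∃ θ > (0 : ℝ), ∀ᶠ a in 𝓝[>] (0 : ℝ), ∀ f f' : Fin n → ℂ → ℝ,
    (∀ i, Tf 0 R (f i)) → (∀ i, Tf 0 R (f' i)) → (∀ i, Tf 0 R (f i - f' i)) →
    (∀ i, ∫ x, |f i x - f' i x| ≤ θ) →
    |∫ ω, ∏ i, sm φ a (f i) ω ∂μ - ∫ ω, ∏ i, sm φ a (f' i) ω ∂μ| ≤ η

/-- row NEAR: the diagonals carry little -/
def NEAR : Prop := ∀ (Ω : Type) [MeasurableSpace Ω] (μ : Measure Ω) φ, Fd μ φ → ∀ (n : ℕ),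
  ∀ R > (0 : ℝ), (∃ A : ℝ, ∀ a > (0 : ℝ), ∀ f : Fin n → ℂ → ℝ, (∀ i, Tf 0 R (f i)) →
    |∫ ω, ∏ i, sm φ a (f i) ω ∂μ| ≤ A) ∧ ∀ η > (0 : ℝ), ∀ᶠ δ in 𝓝[>] (0 : ℝ), ∀ a > (0 : ℝ),
    ∀ f : Fin n → ℂ → ℝ, (∀ i, Tf 0 R (f i)) → |∫ ω, ∏ i, sm φ a (f i) ω ∂μ -
      ∫ x in {x : Fin n → ℂ | Function.Injective fun i => bx δ (x i)},
        (∏ i, f i (x i)) * cr μ φ a x| ≤ η

/-- row CONV: convergence of the smeared correlations -/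
def CONV : Prop := ∀ (Ω : Type) [MeasurableSpace Ω] (μ : Measure Ω) φ, Fd μ φ → ∀ (n : ℕ)
  (L : (Fin n → ℂ) → ℝ), (∀ x, Function.Injective x → 0 ≤ L x ∧
    Tendsto (fun a => cr μ φ a x) (𝓝[>] 0) (𝓝 (L x))) → ∀ R > (0 : ℝ), ∀ f : Fin n → ℂ → ℝ,
  (∀ i, Tf 0 R (f i)) → Integrable (fun x : Fin n → ℂ => (∏ i, f i (x i)) * L x) ∧
    Tendsto (fun a => ∫ x : Fin n → ℂ, (∏ i, f i (x i)) * cr μ φ a x) (𝓝[>] 0)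
      (𝓝 (∫ x : Fin n → ℂ, (∏ i, f i (x i)) * L x))

end Vale.Agent.P144W
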