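import Mathlib.MeasureTheory.Function.Floor
import Mathlib.MeasureTheory.Function.SpecialFunctions.Basic
import Mathlib.Topology.UniformSpace.LocallyUniformConvergence
import Vale.Agent.P144W.St
import Vale.Agent.P144A.Unif

/-!
# P144W: the rescaled spin field of a torus state has the properties `Fd` (helper16)
-/

set_option autoImplicit false
set_option linter.all false

noncomputable section

namespace Vale.Agent.P144W

open MeasureTheory Filter Topology Metric Vale.Agent.P144 Vale.Agent.P144Z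

/-- the rescaled spin field -/
def ph (a : ℝ) (x : ℂ) (s : Config) : ℝ := a ^ (-(1 / 8) : ℝ) * sp (s (fl a x))

theorem cr_eq (μ : Measure Config) (a : ℝ) {n : ℕ} (x : Fin n → ℂ) (y : Fin 0 → ℂ)
    (j : Fin 0 → Fin 2) : corr a (famOf μ a) ⟨n, 0, x, y, j⟩ = cr μ ph a x := by
  simp only [corr, famOf, cr, ph, Finset.univ_eq_empty, Finset.prod_empty, mul_one]

theorem cr_pow (μ : Measure Config) (a : ℝ) {n : ℕ} (x : Fin n → ℂ) :
    cr μ ph a x = (a ^ (-(1 / 8) : ℝ)) ^ n * ∫ σ, ∏ i, sp (σ (fl a (x i))) ∂μ := by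
  simp only [cr, ph, Finset.prod_mul_distrib, Finset.prod_const, Finset.card_univ,
    Fintype.card_fin, integral_const_mul]

theorem abs_sp (b : Bool) : |sp b| = 1 := by cases b <;> simp [sp]

theorem meas_sp : Measurable sp := measurable_of_countable _

theorem meas_fl (a : ℝ) : Measurable (fl a) :=
  (Int.measurable_floor.comp (Complex.measurable_re.div_const a)).prodMk
    (Int.measurable_floor.comp (Complex.measurable_im.div_const a))

theorem meas_ph (a : ℝ) : Measurable fun p : ℂ × Config => ph a p.1 p.2 := by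
  have h : Measurable fun q : Config × Site => q.1 q.2 :=
    measurable_from_prod_countable_left fun v => measurable_pi_apply v
  exact (meas_sp.comp (h.comp (measurable_snd.prodMk ((meas_fl a).comp measurable_fst)))).const_mul _

theorem abs_ph {a : ℝ} (ha : 0 < a) (x : ℂ) (s : Config) : |ph a x s| = a ^ (-(1 / 8) : ℝ) := by
  rw [ph, abs_mul, abs_sp, mul_one, abs_of_pos (by positivity)]

/-- odd correlations vanish -/
theorem cr_odd {J lam β : ℝ} {V : Finset Site → ℝ} (hV : IsPotential V) {μ : Measure Config}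
    (hμ : IsTorusState J lam V β μ) (a : ℝ) {n : ℕ} (hn : Odd n) (x : Fin n → ℂ) :
    cr μ ph a x = 0 := by
  rw [← cr_eq μ a x (fun i => i.elim0) fun i => i.elim0]
  have h := U1.state_corr hμ a ⟨n, 0, x, fun i => i.elim0, fun i => i.elim0⟩
  have e : ∀ M, corr a (gibbsT J lam V β M) ⟨n, 0, x, fun i => i.elim0, fun i => i.elim0⟩ = 0 :=
    fun M => U1.corr_odd hV J lam β M a hn
  simp only [e] at h
  exact tendsto_nhds_unique h tendsto_const_nhds

/-- limits of odd correlations vanish -/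
theorem lim_odd {J lam β : ℝ} {V : Finset Site → ℝ} (hV : IsPotential V) {μ : Measure Config}
    (hμ : IsTorusState J lam V β μ) {n : ℕ} (hn : Odd n) (x : Fin n → ℂ) (y : Fin 0 → ℂ)
    (j : Fin 0 → Fin 2) {c : ℝ} (h : Lim (famOf μ) ⟨n, 0, x, y, j⟩ c) : c = 0 := by
  unfold Lim at h
  simp only [cr_eq, cr_odd hV hμ _ hn] at h
  exact tendsto_nhds_unique h tendsto_const_nhds

theorem shift {μ : Measure Config} (hμ : ∀ t : Site, μ.map (fun σ x => σ (x + t)) = μ) {n : ℕ}
    (w : Fin n → Site) (t : Site) :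
    ∫ σ, ∏ i, sp (σ (w i)) ∂μ = ∫ σ, ∏ i, sp (σ (w i + t)) ∂μ := by
  have hm : Measurable fun (σ : Config) (x : Site) => σ (x + t) :=
    measurable_pi_lambda _ fun x => measurable_pi_apply _
  have hF : Measurable fun σ : Config => ∏ i, sp (σ (w i)) :=
    Finset.measurable_prod _ fun i _ => meas_sp.comp (measurable_pi_apply _)
  conv_lhs => rw [← hμ t]
  rw [integral_map hm.aemeasurable hF.aestronglyMeasurable]

theorem fl_move {a ε : ℝ} (ha : 0 < a) (hε : 0 < ε) (x : ℂ) (t : Site) :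
    fl (a / ε) ((x - ⟨a * t.1, a * t.2⟩) / ε) + t = fl a x := by
  have k : ∀ (u : ℝ) (s : ℤ), ⌊(u - a * s) / ε / (a / ε)⌋ + s = ⌊u / a⌋ := fun u s => by
    rw [show (u - a * s) / ε / (a / ε) = u / a - s by field_simp, Int.floor_sub_intCast]
    ring
  refine Prod.ext ?_ ?_
  · simp only [fl, Prod.fst_add, Complex.div_ofReal_re, Complex.sub_re]
    exact k _ _
  · simp only [fl, Prod.snd_add, Complex.div_ofReal_im, Complex.sub_im]
    exact k _ _

theorem cr_move {μ : Measure Config} (hμ : ∀ t : Site, μ.map (fun σ x => σ (x + t)) = μ)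
    {a ε : ℝ} (ha : 0 < a) (hε : 0 < ε) {n : ℕ} (x : Fin n → ℂ) (t : Site) :
    cr μ ph a x = (ε ^ (-(1 / 8) : ℝ)) ^ n *
      cr μ ph (a / ε) fun i => (x i - ⟨a * t.1, a * t.2⟩) / ε := by
  have e1 : a ^ (-(1 / 8) : ℝ) = ε ^ (-(1 / 8) : ℝ) * (a / ε) ^ (-(1 / 8) : ℝ) := by
    rw [← Real.mul_rpow hε.le (div_pos ha hε).le, mul_div_cancel₀ _ hε.ne']
  rw [cr_pow, cr_pow, shift hμ (fun i => fl (a / ε) ((x i - ⟨a * t.1, a * t.2⟩) / ε)) t]
  simp only [fl_move ha hε]
  rw [e1, mul_pow, mul_assoc]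

theorem near_fl {a : ℝ} (ha : 0 < a) (z : ℂ) :
    ‖z - ⟨a * (fl a z).1, a * (fl a z).2⟩‖ ≤ 2 * a := by
  have k : ∀ u : ℝ, |u - a * ⌊u / a⌋| ≤ a := fun u => by
    have h1 := Int.floor_le (u / a)
    have h2 := Int.lt_floor_add_one (u / a)
    rw [le_div_iff₀ ha] at h1
    rw [div_lt_iff₀ ha] at h2
    rw [abs_le]
    constructor <;> nlinarith
  refine (Complex.norm_le_abs_re_add_abs_im _).trans ?_
  simp only [Complex.sub_re, Complex.sub_im, fl]
  linarith [k z.re, k z.im]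

/-- the bound for the nearest neighbour model -/
theorem zero_bd {J : ℝ} (hJ : 0 < J) {E₀ : Fam} (hE : PlaneFam J 0 (fun _ => 0) (Kc / J) E₀)
    (n : ℕ) {δ : ℝ} (hδ : 0 < δ) : ∃ K : ℝ, 0 ≤ K ∧ ∀ᶠ a in 𝓝[>] (0 : ℝ),
      ∀ (x : Fin n → ℂ) y j, (∀ i, ‖x i‖ ≤ 3) → (∀ i k, i ≠ k → δ ≤ ‖x i - x k‖) →
        |corr a (E₀ a) ⟨n, 0, x, y, j⟩| ≤ K := by
  obtain ⟨C, hC, hup⟩ := Z0.gibbsT_upper hJ n
  have hc : 0 < δ / 4 := by positivity
  refine ⟨C * ((δ / 4 / 2) ^ (-(1 / 8) : ℝ)) ^ n, by positivity, ?_⟩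
  filter_upwards [AN.sepU (B := 3) hc (by norm_num), self_mem_nhdsWithin] with a ⟨h2, h3, h4⟩ ha0
    x y j hx hs
  have ha : 0 < a := ha0
  have h5 := (h4 x (fun i => fl a (x i)) hx (fun i k e => le_trans (by linarith) (hs i k e))
    fun i => by simpa using U4.fl_near a (x i) 0 (by simp) (by simp)).2
  generalize ⌊δ / 4 / a⌋₊ = r at h2 h3 h5
  have hinj : Function.Injective fun i => fl a (x i) := by
    intro i i' e
    by_contra hne
    have := h5 i i' hne
    simp only at e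
    rw [e] at this
    simp [zd] at this
  have hb := hup (Finset.univ.image fun i => fl a (x i)) r
    (by rw [Finset.card_image_of_injective _ hinj]; simp) h2 (by
    intro u hu v hv huv
    obtain ⟨i, -, rfl⟩ := Finset.mem_image.1 hu
    obtain ⟨i', -, rfl⟩ := Finset.mem_image.1 hv
    have := h5 i i' fun e => huv (by rw [e])
    unfold zd at this
    rw [Int.abs_eq_natAbs, Int.abs_eq_natAbs]
    omega) fun _ => 0
  obtain ⟨μ, h6, h7⟩ := hE
  have e : E₀ a = famOf (μ a) a := funext fun F => h7 a F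
  have h8 := le_of_tendsto ((U1.zero_state hJ (h6 a ha)).2.2.2 _).abs hb
  simp only [Finset.prod_image (fun i _ k _ h => hinj h)] at h8
  have h9 := U4.scale ha hc h3 n 0
  simp only [pow_zero, mul_one, div_one] at h9
  rw [e, cr_eq, cr_pow, abs_mul, abs_of_nonneg (by positivity)]
  calc _ ≤ (a ^ (-(1 / 8) : ℝ)) ^ n * (C * (r : ℝ) ^ (-(n : ℝ) / 8)) :=
        mul_le_mul_of_nonneg_left h8 (by positivity)
    _ = C * ((a ^ (-(1 / 8) : ℝ)) ^ n * (r : ℝ) ^ (-(n : ℝ) / 8)) := by ring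
    _ ≤ _ := mul_le_mul_of_nonneg_left h9 hC

/-- the bound at unit scale -/
theorem unit_bd {J Zσ Zε : ℝ} (hJ : 0 < J) {μ : Measure Config} [IsProbabilityMeasure μ]
    {E₀ : Fam} (hE : PlaneFam J 0 (fun _ => 0) (Kc / J) E₀)
    (hD : LocDiff Set.univ E₀ (famOf μ) Zσ Zε) (n : ℕ) {δ : ℝ} (hδ : 0 < δ) :
    ∃ K : ℝ, 0 ≤ K ∧ ∀ᶠ a in 𝓝[>] (0 : ℝ), ∀ (x : Fin n → ℂ), (∀ i, ‖x i‖ ≤ 3) →
      (∀ i k, i ≠ k → δ ≤ ‖x i - x k‖) → |cr μ ph a x| ≤ K := by
  rcases Nat.eq_zero_or_pos n with rfl | hn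
  · exact ⟨1, zero_le_one, Eventually.of_forall fun a x _ _ => by simp [cr]⟩
  obtain ⟨K, hK, h⟩ := zero_bd hJ hE n hδ
  set S : Set ((Fin n → ℂ) × (Fin 0 → ℂ)) :=
    {z | (∀ i, ‖z.1 i‖ ≤ 3) ∧ ∀ i k, i ≠ k → δ ≤ ‖z.1 i - z.1 k‖} with hS
  have hc : ∀ i, Continuous fun w : (Fin n → ℂ) × (Fin 0 → ℂ) => w.1 i := fun i =>
    (continuous_apply i).comp continuous_fst
  have hcl : IsClosed S := by
    simp only [hS, Set.setOf_and, Set.setOf_forall]
    exact (isClosed_iInter fun i => isClosed_le (hc i).norm continuous_const).inter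
      (isClosed_iInter fun i => isClosed_iInter fun k => isClosed_iInter fun _ =>
        isClosed_le continuous_const ((hc i).sub (hc k)).norm)
  have hcp : IsCompact S := by
    refine (isCompact_closedBall (0 : (Fin n → ℂ) × (Fin 0 → ℂ)) 3).of_isClosed_subset hcl
      fun z hz => ?_
    rw [mem_closedBall_zero_iff, Prod.norm_def, max_le_iff]
    exact ⟨(pi_norm_le_iff_of_nonneg (by norm_num)).2 hz.1,
      (pi_norm_le_iff_of_nonneg (by norm_num)).2 fun i => i.elim0⟩
  have h1 := (tendstoLocallyUniformlyOn_iff_tendstoUniformlyOn_of_compact hcp).1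
    ((hD n 0 fun i => i.elim0).mono (s' := S) (by
      intro z hz
      refine ⟨hn, fun _ => trivial, fun _ => trivial, ?_⟩
      rintro (i | i) (k | k) e
      · by_contra hne
        have h2 := hz.2 i k fun e' => hne (by rw [e'])
        have h3 : z.1 i = z.1 k := e
        rw [h3, sub_self, norm_zero] at h2
        linarith
      · exact k.elim0
      · exact i.elim0
      · exact i.elim0))
  refine ⟨1 + |Zσ ^ n * Zε ^ 0| * K, by positivity, ?_⟩
  filter_upwards [h, Metric.tendstoUniformlyOn_iff.1 h1 1 one_pos] with a h2 h3 x hx hs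
  have h4 := h3 (x, fun i => i.elim0) ⟨hx, hs⟩
  have h5 := h2 x (fun i => i.elim0) (fun i => i.elim0) hx hs
  rw [Pi.zero_apply, dist_zero_left, Real.norm_eq_abs, cr_eq] at h4
  generalize corr a (E₀ a) _ = B at h4 h5
  generalize Zσ ^ n * Zε ^ 0 = Z at h4 ⊢
  have h6 := abs_add_le (cr μ ph a x - Z * B) (Z * B)
  rw [sub_add_cancel, abs_mul] at h6
  have h7 := mul_le_mul_of_nonneg_left h5 (abs_nonneg Z)
  linarith

/-- row SEP -/
theorem sepm {J lam β Zσ Zε : ℝ} {V : Finset Site → ℝ} (hJ : 0 < J) {μ : Measure Config}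
    (hμ : IsTorusState J lam V β μ) {E₀ : Fam} (hE : PlaneFam J 0 (fun _ => 0) (Kc / J) E₀)
    (hD : LocDiff Set.univ E₀ (famOf μ) Zσ Zε) : Fd μ ph where
  prob := hμ.1
  meas := meas_ph
  bd := fun a ha x ω => (abs_ph ha x ω).le
  sep := fun n δ hδ => by
    have := hμ.1
    obtain ⟨K, hK, h⟩ := unit_bd hJ hE hD n hδ
    obtain ⟨b, hb, h⟩ := (mem_nhdsGT_iff_exists_Ioo_subset).1 h
    have hb0 : 0 < b := hb
    refine ⟨K, 1 + 2 / b, hK, by positivity, fun a ε z x ha hT hx hs => ?_⟩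
    have h1 : 0 < 2 / b * a := by positivity
    have haε : a ≤ ε := by nlinarith
    have hε : 0 < ε := ha.trans_le haε
    have h2 : a / ε < b := by
      rw [div_lt_iff₀ hε]
      have h3 : b * (2 / b * a) = 2 * a := by field_simp
      nlinarith
    rw [cr_move hμ.2.1 ha hε x (fl a z), abs_mul, abs_of_nonneg (by positivity), mul_comm]
    refine mul_le_mul_of_nonneg_right (h ⟨div_pos ha hε, h2⟩ _ (fun i => ?_) fun i k e => ?_)
      (by positivity)
    · rw [norm_div, Complex.norm_real, Real.norm_of_nonneg hε.le, div_le_iff₀ hε]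
      have h4 := near_fl ha z
      have h5 : ‖x i - z‖ < ε := by simpa only [mem_ball, dist_eq_norm] using hx i
      have h6 := norm_add_le (x i - z) (z - ⟨a * (fl a z).1, a * (fl a z).2⟩)
      rw [sub_add_sub_cancel] at h6
      linarith
    · rw [← sub_div, sub_sub_sub_cancel_right, norm_div, Complex.norm_real,
        Real.norm_of_nonneg hε.le, le_div_iff₀ hε]
      exact hs i k e

theorem good_of {n : ℕ} (hn : 0 < n) {x : Fin n → ℂ} (hx : Function.Injective x) (y : Fin 0 → ℂ)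
    (j : Fin 0 → Fin 2) : Good Set.univ ⟨n, 0, x, y, j⟩ := by
  refine ⟨hn, fun _ => trivial, fun _ => trivial, ?_⟩
  rintro (i | i) (k | k) e
  · exact congrArg Sum.inl (hx e)
  · exact k.elim0
  · exact i.elim0
  · exact i.elim0

/-- the hypothesis of row CONV on the limit -/
theorem lim_cr {J lam β Zσ Zε : ℝ} {V : Finset Site → ℝ} (hV : IsPotential V)
    {μ : Measure Config} (hμ : IsTorusState J lam V β μ) {C : Pts → ℝ} (hZ : 0 ≤ Zσ)
    (hC : ∀ p, Good Set.univ p → p.m = 0 → Even p.n → 0 < C p)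
    (hl : ∀ p, Good Set.univ p → Lim (famOf μ) p (Zσ ^ p.n * Zε ^ p.m * C p)) {n : ℕ} (hn : 0 < n)
    (y : Fin 0 → ℂ) (j : Fin 0 → Fin 2) (x : Fin n → ℂ) (hx : Function.Injective x) :
    0 ≤ Zσ ^ n * C ⟨n, 0, x, y, j⟩ ∧
      Tendsto (fun a => cr μ ph a x) (𝓝[>] 0) (𝓝 (Zσ ^ n * C ⟨n, 0, x, y, j⟩)) := by
  have hg := good_of hn hx y j
  have h := hl _ hg
  simp only [pow_zero, mul_one] at h
  refine ⟨?_, ?_⟩
  · rcases Nat.even_or_odd n with he | ho
    · exact mul_nonneg (pow_nonneg hZ n) (hC _ hg rfl he).le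
    · exact (lim_odd hV hμ ho x y j h).ge
  · unfold Lim at h
    simpa only [cr_eq] using h

end Vale.Agent.P144W
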