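import Vale.Agent.P144W.St

/-!
# P144W: row SML (helper69)
-/

set_option autoImplicit false
set_option linter.all false

noncomputable section

namespace Vale.Agent.P144W

open MeasureTheory Filter Topology Metric

namespace Sml

theorem tele {ι : Type} [DecidableEq ι] (s : Finset ι) (a b : ι → ℝ) (t : ℝ) (ht : 1 ≤ t)
    (ha : ∀ i, |a i| ≤ t) (hb : ∀ i, |b i| ≤ t) :
    |∏ i ∈ s, b i| ≤ t ^ s.card ∧
      |∏ i ∈ s, a i - ∏ i ∈ s, b i| ≤ (∑ i ∈ s, |a i - b i|) * t ^ s.card := by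
  induction s using Finset.induction_on with
  | empty => simp
  | insert j s hj ih =>
    obtain ⟨h1, h2⟩ := ih
    rw [Finset.prod_insert hj, Finset.prod_insert hj, Finset.sum_insert hj,
      Finset.card_insert_of_notMem hj]
    have ht0 : 0 ≤ t := by linarith
    have hp : 0 ≤ t ^ s.card := pow_nonneg ht0 _
    refine ⟨?_, ?_⟩
    · rw [abs_mul, pow_succ']
      exact mul_le_mul (hb j) h1 (abs_nonneg _) ht0
    · have e : a j * ∏ i ∈ s, a i - b j * ∏ i ∈ s, b i =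
          (a j - b j) * ∏ i ∈ s, b i + a j * (∏ i ∈ s, a i - ∏ i ∈ s, b i) := by ring
      rw [e]
      have h3 : |(a j - b j) * ∏ i ∈ s, b i| ≤ |a j - b j| * t ^ (s.card + 1) := by
        rw [abs_mul]
        refine mul_le_mul_of_nonneg_left (h1.trans ?_) (abs_nonneg _)
        exact pow_le_pow_right₀ ht (Nat.le_succ _)
      have h4 : |a j * (∏ i ∈ s, a i - ∏ i ∈ s, b i)| ≤
          (∑ i ∈ s, |a i - b i|) * t ^ (s.card + 1) := by
        rw [abs_mul]
        calc |a j| * |∏ i ∈ s, a i - ∏ i ∈ s, b i|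
            ≤ t * ((∑ i ∈ s, |a i - b i|) * t ^ s.card) :=
              mul_le_mul (ha j) h2 (abs_nonneg _) ht0
          _ = (∑ i ∈ s, |a i - b i|) * t ^ (s.card + 1) := by ring
      calc _ ≤ |(a j - b j) * ∏ i ∈ s, b i| + |a j * (∏ i ∈ s, a i - ∏ i ∈ s, b i)| :=
            abs_add_le _ _
        _ ≤ _ := by rw [add_mul]; exact add_le_add h3 h4

theorem pw (n : ℕ) (a b : Fin n → ℝ) (l : ℝ) (hl : 0 < l) :
    |∏ i, a i - ∏ i, b i| ≤
      l⁻¹ * ∑ i, (a i - b i) ^ 2 + n * l * (1 + ∑ i, (a i ^ (2 * n) + b i ^ (2 * n))) := by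
  classical
  have ev : ∀ x : ℝ, |x| ^ (2 * n) = x ^ (2 * n) := fun x => by
    rw [pow_mul, pow_mul, sq_abs]
  have nn : ∀ x : ℝ, 0 ≤ x ^ (2 * n) := fun x => by rw [← ev]; positivity
  have hS : 0 ≤ ∑ i, (a i ^ (2 * n) + b i ^ (2 * n)) :=
    Finset.sum_nonneg fun i _ => add_nonneg (nn _) (nn _)
  obtain ⟨t, ht, ha, hb, hu⟩ : ∃ t : ℝ, 1 ≤ t ∧ (∀ i, |a i| ≤ t) ∧ (∀ i, |b i| ≤ t) ∧
      t ^ (2 * n) ≤ 1 + ∑ i, (a i ^ (2 * n) + b i ^ (2 * n)) := by
    let g : Option (Fin n ⊕ Fin n) → ℝ := fun o => match o with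
      | none => 1
      | some (Sum.inl j) => |a j|
      | some (Sum.inr j) => |b j|
    obtain ⟨o, ho⟩ := Finite.exists_max g
    refine ⟨g o, ho none, fun i => ho (some (Sum.inl i)), fun i => ho (some (Sum.inr i)), ?_⟩
    rcases o with _ | j | j
    · simp only [g, one_pow]; linarith
    · simp only [g, ev]
      have := Finset.single_le_sum (f := fun i => a i ^ (2 * n) + b i ^ (2 * n))
        (fun i _ => add_nonneg (nn _) (nn _)) (Finset.mem_univ j)
      have := nn (b j)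
      linarith
    · simp only [g, ev]
      have := Finset.single_le_sum (f := fun i => a i ^ (2 * n) + b i ^ (2 * n))
        (fun i _ => add_nonneg (nn _) (nn _)) (Finset.mem_univ j)
      have := nn (a j)
      linarith
  have h := (tele Finset.univ a b t ht ha hb).2
  rw [Finset.card_univ, Fintype.card_fin, Finset.sum_mul] at h
  refine h.trans ?_
  have h1 : ∀ i, |a i - b i| * t ^ n ≤ l⁻¹ * (a i - b i) ^ 2 + l * t ^ (2 * n) := fun i => by
    have e : t ^ (2 * n) = (t ^ n) ^ 2 := by rw [← pow_mul, mul_comm]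
    rw [e, ← sq_abs (a i - b i)]
    generalize |a i - b i| = x
    generalize t ^ n = y
    have h2 : l⁻¹ * x ^ 2 + l * y ^ 2 - x * y = l⁻¹ * ((x - l * y / 2) ^ 2 + 3 / 4 * (l * y) ^ 2) := by
      field_simp; ring
    have h3 : 0 ≤ l⁻¹ * ((x - l * y / 2) ^ 2 + 3 / 4 * (l * y) ^ 2) := by positivity
    linarith
  calc ∑ i, |a i - b i| * t ^ n ≤ ∑ i, (l⁻¹ * (a i - b i) ^ 2 + l * t ^ (2 * n)) :=
        Finset.sum_le_sum fun i _ => h1 i
    _ = l⁻¹ * ∑ i, (a i - b i) ^ 2 + n * l * t ^ (2 * n) := by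
        rw [Finset.sum_add_distrib, ← Finset.mul_sum, Finset.sum_const, Finset.card_univ,
          Fintype.card_fin, nsmul_eq_mul]; ring
    _ ≤ _ := by
        have : (0 : ℝ) ≤ n * l := by positivity
        have := mul_le_mul_of_nonneg_left hu this
        linarith

variable {Ω : Type} [MeasurableSpace Ω]

/-- bounded and measurable -/
def BM (h : Ω → ℝ) : Prop := Measurable h ∧ ∃ C, ∀ ω, |h ω| ≤ C

theorem BM.int {h : Ω → ℝ} (H : BM h) (μ : Measure Ω) [IsProbabilityMeasure μ] :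
    Integrable h μ := by
  obtain ⟨hm, C, hC⟩ := H
  exact Integrable.of_bound hm.aestronglyMeasurable C (Eventually.of_forall hC)

theorem BM.pow {h : Ω → ℝ} (H : BM h) (k : ℕ) : BM fun ω => h ω ^ k := by
  obtain ⟨hm, C, hC⟩ := H
  refine ⟨hm.pow_const k, C ^ k, fun ω => ?_⟩
  rw [abs_pow]
  exact pow_le_pow_left₀ (abs_nonneg _) (hC ω) k

theorem BM.prod {n : ℕ} {h : Fin n → Ω → ℝ} (H : ∀ i, BM (h i)) : BM fun ω => ∏ i, h i ω := by
  choose hm C hC using H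
  refine ⟨Finset.measurable_prod _ fun i _ => hm i, ∏ i, C i, fun ω => ?_⟩
  rw [Finset.abs_prod]
  exact Finset.prod_le_prod (fun i _ => abs_nonneg _) fun i _ => hC i ω

end Sml

open Sml in
theorem sml (fub : FUB) (st : STEP) (mo : MOM) : SML := by
  intro Ω _ μ φ hF n R hR η hη
  haveI := hF.prob
  obtain ⟨A, hA, hAm⟩ := mo Ω μ φ hF (2 * n) (even_two_mul n)
  obtain ⟨A2, hA2, hA2m⟩ := mo Ω μ φ hF 2 even_two
  obtain ⟨c, hc, hst⟩ := st 2 even_two le_rfl
  set M : ℝ := A * (R ^ (15 / 8 : ℝ)) ^ (2 * n) with hM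
  have hM0 : 0 ≤ M := by positivity
  -- the Young parameter
  obtain ⟨l, hl, hl2⟩ : ∃ l : ℝ, 0 < l ∧ n * l * (1 + n * (M + M)) ≤ η / 2 := by
    refine ⟨η / 2 / (n * (1 + n * (M + M)) + 1), by positivity, ?_⟩
    have h0 : (0 : ℝ) < n * (1 + n * (M + M)) + 1 := by positivity
    have e : n * (η / 2 / (n * (1 + n * (M + M)) + 1)) * (1 + n * (M + M)) =
        η / 2 * ((n * (1 + n * (M + M))) / (n * (1 + n * (M + M)) + 1)) := by
      field_simp
    rw [e]
    refine mul_le_of_le_one_right (by positivity) ?_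
    rw [div_le_one h0]; linarith
  obtain ⟨ρ, hρ, hρ2⟩ : ∃ ρ : ℝ, 0 < ρ ∧ l⁻¹ * (n * (ρ + ρ)) ≤ η / 2 := by
    refine ⟨l * η / 4 / (n + 1), by positivity, ?_⟩
    have h0 : (0 : ℝ) < n + 1 := by positivity
    have e : l⁻¹ * (n * (l * η / 4 / (n + 1) + l * η / 4 / (n + 1))) = η / 2 * (n / (n + 1)) := by
      field_simp; ring
    rw [e]
    refine mul_le_of_le_one_right (by positivity) ?_
    rw [div_le_one h0]; linarith
  have small : ∀ X : ℝ, 0 ≤ X → ∃ s : ℝ, 0 < s ∧ s ≤ 1 ∧ X * s ≤ ρ := fun X hX => by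
    refine ⟨min 1 (ρ / (X + 1)), by positivity, min_le_left _ _, ?_⟩
    have h0 : 0 < X + 1 := by linarith
    calc X * min 1 (ρ / (X + 1)) ≤ (X + 1) * (ρ / (X + 1)) :=
          mul_le_mul (by linarith) (min_le_right _ _) (by positivity) h0.le
      _ = ρ := by field_simp
  obtain ⟨s, hs, hs1, hs2⟩ := small (c * A2 * ((2 * R) ^ (15 / 8 : ℝ)) ^ 2) (by positivity)
  obtain ⟨K, T, hK, hT, hKT⟩ := hst Ω μ φ hF (s ^ 8) (by positivity) (pow_le_one₀ hs.le hs1)
  obtain ⟨θ, hθ, hθ1, hθ2⟩ := small (K * (R ^ (-(1 / 8) : ℝ)) ^ 2) (by positivity)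
  refine ⟨θ, hθ, ?_⟩
  have hev : ∀ᶠ a in 𝓝[>] (0 : ℝ), 0 < a ∧ T * a ≤ R := by
    have h1 : Set.Ioo (0 : ℝ) (R / T) ∈ 𝓝[>] (0 : ℝ) := Ioo_mem_nhdsGT (by positivity)
    filter_upwards [h1] with a ha
    refine ⟨ha.1, ?_⟩
    have := ha.2
    rw [lt_div_iff₀ hT] at this
    linarith
  filter_upwards [hev] with a ⟨ha, haT⟩ f f' hf hf' hd hθd
  obtain ⟨F1, -⟩ := fub Ω μ φ hF a ha
  have bm : ∀ z ε g, Tf z ε g → BM (sm φ a g) := fun z ε g hg =>
    ⟨(F1 z ε g hg).1, _, (F1 z ε g hg).2.2.2.1⟩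
  have add : ∀ i ω, sm φ a (f i) ω - sm φ a (f' i) ω = sm φ a (f i - f' i) ω := fun i ω => by
    unfold sm
    rw [← integral_sub ((F1 0 R _ (hf i)).2.2.1 ω) ((F1 0 R _ (hf' i)).2.2.1 ω)]
    congr 1; funext x; simp only [Pi.sub_apply]; ring
  -- second moments of the differences
  have hD : ∀ i, ∫ ω, sm φ a (f i - f' i) ω ^ 2 ∂μ ≤ ρ + ρ := fun i => by
    have h := hKT a R (A2 * ((2 * s ^ 8 * R) ^ (15 / 8 : ℝ)) ^ 2) 0 _ ha haT (hd i) (by positivity)
      (fun z' g' hg' => hA2m a ha _ (by positivity) z' g' hg')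
    refine h.trans (add_le_add ?_ ?_)
    · have h0 : 0 ≤ ∫ x, |(f i - f' i) x| := integral_nonneg fun x => abs_nonneg _
      have h1 : ∫ x, |(f i - f' i) x| ≤ θ := hθd i
      have h2 : (∫ x, |(f i - f' i) x|) ^ 2 ≤ θ := by nlinarith
      rw [mul_pow, ← mul_assoc]
      exact (mul_le_mul_of_nonneg_left h2 (by positivity)).trans hθ2
    · have e1 : (2 * s ^ 8 * R) ^ (15 / 8 : ℝ) = (2 * R) ^ (15 / 8 : ℝ) * s ^ 15 := by
        rw [show 2 * s ^ 8 * R = (2 * R) * s ^ 8 by ring,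
          Real.mul_rpow (by positivity) (by positivity), ← Real.rpow_natCast s 8,
          ← Real.rpow_mul hs.le, ← Real.rpow_natCast s 15]
        norm_num
      rw [e1]
      have e2 : c * (s ^ 8)⁻¹ ^ 2 * (A2 * ((2 * R) ^ (15 / 8 : ℝ) * s ^ 15) ^ 2) =
          c * A2 * ((2 * R) ^ (15 / 8 : ℝ)) ^ 2 * s ^ 14 := by
        field_simp
      rw [e2]
      refine le_trans (mul_le_mul_of_nonneg_left ?_ (by positivity)) hs2
      exact pow_le_of_le_one hs.le hs1 (by norm_num)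
  have i1 := (BM.prod fun i => bm 0 R _ (hf i)).int μ
  have i2 := (BM.prod fun i => bm 0 R _ (hf' i)).int μ
  have i3 : ∀ i, Integrable (fun ω => sm φ a (f i - f' i) ω ^ 2) μ := fun i =>
    ((bm 0 R _ (hd i)).pow 2).int μ
  have i4 : ∀ i, Integrable (fun ω => sm φ a (f i) ω ^ (2 * n)) μ := fun i =>
    ((bm 0 R _ (hf i)).pow _).int μ
  have i5 : ∀ i, Integrable (fun ω => sm φ a (f' i) ω ^ (2 * n)) μ := fun i =>
    ((bm 0 R _ (hf' i)).pow _).int μ
  have j3 : Integrable (fun ω => ∑ i, sm φ a (f i - f' i) ω ^ 2) μ :=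
    integrable_finset_sum _ fun i _ => i3 i
  have i45 : ∀ i, Integrable
      (fun ω => sm φ a (f i) ω ^ (2 * n) + sm φ a (f' i) ω ^ (2 * n)) μ := fun i =>
    (i4 i).add (i5 i)
  have j4 : Integrable
      (fun ω => ∑ i, (sm φ a (f i) ω ^ (2 * n) + sm φ a (f' i) ω ^ (2 * n))) μ :=
    integrable_finset_sum _ fun i _ => i45 i
  have j5 : Integrable
      (fun ω => 1 + ∑ i, (sm φ a (f i) ω ^ (2 * n) + sm φ a (f' i) ω ^ (2 * n))) μ :=
    (integrable_const 1).add j4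
  rw [← integral_sub i1 i2]
  refine abs_integral_le_integral_abs.trans ?_
  have hle : ∫ ω, |∏ i, sm φ a (f i) ω - ∏ i, sm φ a (f' i) ω| ∂μ ≤
      ∫ ω, (l⁻¹ * ∑ i, sm φ a (f i - f' i) ω ^ 2 +
        n * l * (1 + ∑ i, (sm φ a (f i) ω ^ (2 * n) + sm φ a (f' i) ω ^ (2 * n)))) ∂μ := by
    refine integral_mono (i1.sub i2).abs ((j3.const_mul _).add (j5.const_mul _)) fun ω => ?_
    have := pw n (fun i => sm φ a (f i) ω) (fun i => sm φ a (f' i) ω) l hl
    simp only [add] at this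
    exact this
  refine hle.trans ?_
  rw [integral_add (j3.const_mul _) (j5.const_mul _), integral_const_mul, integral_const_mul,
    integral_add (integrable_const 1) j4, integral_finset_sum _ fun i _ => i3 i,
    integral_finset_sum _ fun i _ => i45 i]
  have k1 : ∑ i, ∫ ω, sm φ a (f i - f' i) ω ^ 2 ∂μ ≤ n * (ρ + ρ) := by
    calc _ ≤ ∑ _i : Fin n, (ρ + ρ) := Finset.sum_le_sum fun i _ => hD i
      _ = _ := by simp; ring
  have k2 : ∑ i, ∫ ω, (sm φ a (f i) ω ^ (2 * n) + sm φ a (f' i) ω ^ (2 * n)) ∂μ ≤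
      n * (M + M) := by
    calc _ ≤ ∑ _i : Fin n, (M + M) := Finset.sum_le_sum fun i _ => by
          rw [integral_add (i4 i) (i5 i)]
          exact add_le_add (hAm a ha R hR 0 _ (hf i)) (hAm a ha R hR 0 _ (hf' i))
      _ = _ := by simp; ring
  have k3 : ∫ _ω, (1 : ℝ) ∂μ = 1 := by simp
  rw [k3]
  have k4 := mul_le_mul_of_nonneg_left k1 (inv_nonneg.2 hl.le)
  have k5 : n * l * (1 + ∑ i, ∫ ω, (sm φ a (f i) ω ^ (2 * n) + sm φ a (f' i) ω ^ (2 * n)) ∂μ) ≤
      n * l * (1 + n * (M + M)) := mul_le_mul_of_nonneg_left (by linarith) (by positivity)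
  linarith

end Vale.Agent.P144W
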