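import Vale.Agent.P144W.St
import Mathlib.Algebra.Order.Chebyshev
import Mathlib.MeasureTheory.Function.Floor

/-!
# P144W, row STEP (helper14)
-/

set_option autoImplicit false
set_option linter.all false

noncomputable section

namespace Vale.Agent.P144W.Sp

open MeasureTheory Filter Topology Metric Finset

theorem pw (dl : DL) (k : ℕ) : ∃ c : ℝ, 0 ≤ c ∧ ∀ (W : Type) [Fintype W] [DecidableEq W]
    (X : W → ℝ), (∑ w, X w) ^ (2 * (k + 1)) ≤
      2 * (∑ w : Fin (2 * (k + 1)) → W, if Function.Injective w then ∏ i, X (w i) else 0) +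
      c * (Fintype.card W : ℝ) ^ k * ∑ w, X w ^ (2 * (k + 1)) := by
  obtain ⟨c, hc, h⟩ := dl (2 * (k + 1))
  set n := 2 * (k + 1) with hn
  set l : ℝ := 1 / (2 * (c * 2 ^ n + 1)) with hl
  have l0 : 0 < l := by positivity
  have cp : 0 ≤ c * 2 ^ n := by positivity
  have l1 : l ≤ 1 := by rw [hl, div_le_one (by positivity)]; linarith
  have l2 : c * 2 ^ n * l ≤ 1 / 2 := by
    rw [hl, mul_one_div, div_le_iff₀ (by positivity)]; linarith
  refine ⟨l⁻¹ ^ n, by positivity, fun W _ _ X => ?_⟩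
  set Q := √(∑ w, X w ^ 2) with hQ
  have q2 : Q ^ 2 = ∑ w, X w ^ 2 := Real.sq_sqrt (sum_nonneg fun _ _ => sq_nonneg _)
  have q0 : 0 ≤ Q := Real.sqrt_nonneg _
  set S := ∑ w, X w with hS
  have h1 := h W (fun _ => X) (|S| + Q / l) l (by positivity) l0.le l1
    (fun _ => le_add_of_nonneg_right (by positivity)) (fun _ => by
      rw [← q2]
      refine pow_le_pow_left₀ q0 ?_ 2
      rw [mul_add, mul_div_cancel₀ _ l0.ne']
      exact le_add_of_nonneg_left (by positivity))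
  rw [prod_const, card_univ, Fintype.card_fin, ← hS] at h1
  have h2 : (|S| + Q / l) ^ n ≤ 2 ^ n * (|S| ^ n + (Q / l) ^ n) :=
    (add_pow_le (abs_nonneg _) (by positivity) n).trans (by
      gcongr
      · norm_num
      · omega)
  have ev : Even n := ⟨k + 1, by omega⟩
  rw [ev.pow_abs] at h2
  have h3 : Q ^ n ≤ (Fintype.card W : ℝ) ^ k * ∑ w, X w ^ n := by
    rw [hn, pow_mul, q2]
    simpa only [card_univ, ← pow_mul] using
      pow_sum_le_card_mul_sum_pow (s := univ) (f := fun w => X w ^ 2) (fun _ _ => sq_nonneg _) k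
  have s0 : 0 ≤ S ^ n := ev.pow_nonneg _
  have h4 : c * l ^ 2 * (|S| + Q / l) ^ n ≤ 1 / 2 * (S ^ n + (Q / l) ^ n) := by
    calc _ ≤ c * l ^ 2 * (2 ^ n * (S ^ n + (Q / l) ^ n)) := by gcongr
      _ = (c * 2 ^ n * l) * l * (S ^ n + (Q / l) ^ n) := by ring
      _ ≤ 1 / 2 * 1 * (S ^ n + (Q / l) ^ n) := by gcongr
      _ = _ := by ring
  have h5 : (Q / l) ^ n ≤ l⁻¹ ^ n * ((Fintype.card W : ℝ) ^ k * ∑ w, X w ^ n) := by
    rw [div_eq_inv_mul, mul_pow]
    gcongr
  have h6 := (abs_le.1 (h1.trans h4)).2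
  rw [mul_assoc]
  linarith

/-- the part of `g` on a set -/
def pc (g : ℂ → ℝ) (s : Set ℂ) : ℂ → ℝ := s.indicator g

theorem pc_ne {g : ℂ → ℝ} {s : Set ℂ} {x : ℂ} (h : pc g s x ≠ 0) : x ∈ s ∧ g x ≠ 0 := by
  by_cases e : x ∈ s
  · exact ⟨e, by rwa [pc, Set.indicator_of_mem e] at h⟩
  · exact (h (Set.indicator_of_notMem e _)).elim

theorem pc_abs (g : ℂ → ℝ) (s : Set ℂ) (x : ℂ) : |pc g s x| ≤ |g x| := by
  by_cases e : x ∈ s
  · rw [pc, Set.indicator_of_mem e]
  · rw [pc, Set.indicator_of_notMem e, abs_zero]; exact abs_nonneg _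

theorem pc_tf {z z' : ℂ} {ε ε' : ℝ} {g : ℂ → ℝ} (h : Tf z ε g) {s : Set ℂ} (hs : MeasurableSet s)
    (k : ∀ x ∈ s, g x ≠ 0 → x ∈ ball z' ε') : Tf z' ε' (pc g s) :=
  ⟨h.meas.indicator hs, fun x => (pc_abs g s x).trans (h.bd x),
    fun x e => k x (pc_ne e).1 (pc_ne e).2⟩

theorem bx_meas (h : ℝ) : Measurable (bx h) :=
  ((Complex.measurable_re.div_const h).floor).prodMk ((Complex.measurable_im.div_const h).floor)

theorem bx_ball {h : ℝ} (h0 : 0 < h) (x : ℂ) :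
    x ∈ ball (⟨h * (bx h x).1, h * (bx h x).2⟩ : ℂ) (2 * h) := by
  have k : ∀ t : ℝ, |t - h * ⌊t / h⌋| < h := fun t => by
    have a := Int.floor_le (t / h)
    have b := Int.lt_floor_add_one (t / h)
    rw [le_div_iff₀ h0] at a
    rw [div_lt_iff₀ h0] at b
    rw [abs_lt]; constructor <;> nlinarith
  rw [mem_ball, dist_eq_norm]
  refine (Complex.norm_le_abs_re_add_abs_im _).trans_lt ?_
  have a := k x.re
  have b := k x.im
  simp only [Complex.sub_re, Complex.sub_im, bx]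
  linarith

/-- the boxes that meet a ball -/
def bxs (h : ℝ) (z : ℂ) (ε : ℝ) : Finset (ℤ × ℤ) :=
  Icc ⌊(z.re - ε) / h⌋ ⌊(z.re + ε) / h⌋ ×ˢ Icc ⌊(z.im - ε) / h⌋ ⌊(z.im + ε) / h⌋

theorem mem_bxs {h ε : ℝ} (h0 : 0 < h) {z x : ℂ} (hx : x ∈ ball z ε) : bx h x ∈ bxs h z ε := by
  rw [mem_ball, dist_eq_norm] at hx
  have a := abs_lt.1 ((Complex.abs_re_le_norm _).trans_lt hx)
  have b := abs_lt.1 ((Complex.abs_im_le_norm _).trans_lt hx)
  simp only [Complex.sub_re, Complex.sub_im] at a b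
  simp only [bxs, bx, mem_product, mem_Icc]
  refine ⟨⟨?_, ?_⟩, ?_, ?_⟩ <;> refine Int.floor_mono (div_le_div_of_nonneg_right ?_ h0.le) <;>
    linarith [a.1, a.2, b.1, b.2]

theorem card_bxs {h ε : ℝ} (h0 : 0 < h) (e0 : 0 ≤ ε) (z : ℂ) :
    ((bxs h z ε).card : ℝ) ≤ (2 * ε / h + 2) ^ 2 := by
  have k : ∀ t : ℝ, ((Icc ⌊(t - ε) / h⌋ ⌊(t + ε) / h⌋).card : ℝ) ≤ 2 * ε / h + 2 := fun t => by
    have a := Int.floor_le ((t + ε) / h)
    have b := Int.lt_floor_add_one ((t - ε) / h)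
    have m : ⌊(t - ε) / h⌋ ≤ ⌊(t + ε) / h⌋ :=
      Int.floor_mono (div_le_div_of_nonneg_right (by linarith) h0.le)
    have c : (((⌊(t + ε) / h⌋ + 1 - ⌊(t - ε) / h⌋).toNat : ℤ) : ℝ) =
        ((⌊(t + ε) / h⌋ + 1 - ⌊(t - ε) / h⌋ : ℤ) : ℝ) := by rw [Int.toNat_of_nonneg (by omega)]
    rw [Int.card_Icc]
    push_cast at c
    rw [c]
    have : (t + ε) / h - (t - ε) / h = 2 * ε / h := by ring
    linarith
  rw [bxs, card_product, Nat.cast_mul, sq]
  exact mul_le_mul (k _) (k _) (Nat.cast_nonneg _) (by positivity)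

theorem sum_pc {ι : Type} [DecidableEq ι] (W : Finset ι) (b : ℂ → ι) (g : ℂ → ℝ)
    (hg : ∀ x, g x ≠ 0 → b x ∈ W) (F : ℝ → ℝ) (F0 : F 0 = 0) (x : ℂ) :
    ∑ w : W, F (pc g {y | b y = w} x) = F (g x) := by
  by_cases e : g x = 0
  · rw [e, F0]
    refine sum_eq_zero fun w _ => ?_
    have := pc_abs g {y | b y = w} x
    rw [e, abs_zero, abs_nonpos_iff] at this
    rw [this, F0]
  · rw [sum_eq_single ⟨b x, hg x e⟩]
    · rw [pc, Set.indicator_of_mem (by exact rfl)]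
    · intro w _ k
      rw [pc, Set.indicator_of_notMem (s := {y | b y = w}) (fun e' => k (Subtype.ext (Eq.symm e'))), F0]
    · simp

variable {Ω : Type} [MeasurableSpace Ω] {μ : Measure Ω} {φ : ℝ → ℂ → Ω → ℝ}

theorem sm_sum (fub : FUB) (hF : Fd μ φ) {a : ℝ} (ha : 0 < a) {ι : Type} [DecidableEq ι]
    [MeasurableSpace ι] [MeasurableSingletonClass ι] (W : Finset ι) {b : ℂ → ι} (hb : Measurable b)
    {z ε g} (hg : Tf z ε g) (k : ∀ x, g x ≠ 0 → b x ∈ W) :
    (∀ ω, sm φ a g ω = ∑ w : W, sm φ a (pc g {y | b y = w}) ω) ∧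
      ∫ x, |g x| = ∑ w : W, ∫ x, |pc g {y | b y = w} x| := by
  have t : ∀ w : W, Tf z ε (pc g {y | b y = w}) := fun w =>
    pc_tf hg (hb (measurableSet_singleton w.1)) fun x _ => hg.sup x
  have f := fun w => (fub Ω μ φ hF a ha).1 z ε _ (t w)
  refine ⟨fun ω => ?_, ?_⟩
  · unfold sm
    rw [← integral_finset_sum _ fun w _ => (f w).2.2.1 ω]
    refine integral_congr_ae (ae_of_all _ fun x => ?_)
    exact (sum_pc W b g k (fun t => t * φ a x ω) (zero_mul _) x).symm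
  · rw [← integral_finset_sum _ fun w _ => (f w).2.1.abs]
    exact integral_congr_ae (ae_of_all _ fun x => (sum_pc W b g k _ abs_zero x).symm)

theorem int_prod (fub : FUB) (hF : Fd μ φ) {a : ℝ} (ha : 0 < a) {n : ℕ} {z ε}
    {f : Fin n → ℂ → ℝ} (hf : ∀ i, Tf z ε (f i)) :
    Integrable (fun ω => ∏ i, sm φ a (f i) ω) μ := by
  have := hF.prob
  have k := fun i => (fub Ω μ φ hF a ha).1 z ε _ (hf i)
  refine Integrable.of_bound (Finset.measurable_prod _ fun i _ => (k i).1).aestronglyMeasurable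
    (∏ i, a ^ (-(1 / 8) : ℝ) * ∫ x, |f i x|) (ae_of_all _ fun ω => ?_)
  rw [Real.norm_eq_abs, abs_prod]
  exact prod_le_prod (fun _ _ => abs_nonneg _) fun i _ => (k i).2.2.2.1 ω

theorem int_pow (fub : FUB) (hF : Fd μ φ) {a : ℝ} (ha : 0 < a) (n : ℕ) {z ε} {g : ℂ → ℝ}
    (hg : Tf z ε g) : Integrable (fun ω => sm φ a g ω ^ n) μ := by
  simpa using int_prod fub hF ha (n := n) (f := fun _ => g) fun _ => hg

theorem one (fub : FUB) (hF : Fd μ φ) {k : ℕ} {c : ℝ} (hc : 0 ≤ c)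
    (P : ∀ (W : Type) [Fintype W] [DecidableEq W] (X : W → ℝ), (∑ w, X w) ^ (2 * (k + 1)) ≤
      2 * (∑ w : Fin (2 * (k + 1)) → W, if Function.Injective w then ∏ i, X (w i) else 0) +
      c * (Fintype.card W : ℝ) ^ k * ∑ w, X w ^ (2 * (k + 1)))
    {a ε h K B : ℝ} (ha : 0 < a) (h0 : 0 < h) (K0 : 0 ≤ K) {z g} (hg : Tf z ε g)
    (sep : ∀ x : Fin (2 * (k + 1)) → ℂ, (∀ i, g (x i) ≠ 0) →
      (Function.Injective fun i => bx h (x i)) → |cr μ φ a x| ≤ K)
    (hB : ∀ z' g', Tf z' (2 * h) g' → ∫ ω, sm φ a g' ω ^ (2 * (k + 1)) ∂μ ≤ B) :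
    ∫ ω, sm φ a g ω ^ (2 * (k + 1)) ∂μ ≤ 2 * (K * (∫ x, |g x|) ^ (2 * (k + 1))) +
      c * ((bxs h z ε).card : ℝ) ^ (k + 1) * B := by
  set n := 2 * (k + 1)
  set W := bxs h z ε
  obtain ⟨s1, s2⟩ := sm_sum fub hF ha W (bx_meas h) hg fun x e => mem_bxs h0 (hg.sup x e)
  set p : W → ℂ → ℝ := fun w => pc g {y | bx h y = w}
  have ms : ∀ w : W, MeasurableSet {y | bx h y = w} := fun w =>
    bx_meas h (measurableSet_singleton w.1)
  have t : ∀ w : W, Tf z ε (p w) := fun w => pc_tf hg (ms w) fun x _ => hg.sup x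
  have t' : ∀ w : W, Tf ⟨h * w.1.1, h * w.1.2⟩ (2 * h) (p w) := fun w =>
    pc_tf hg (ms w) fun x e _ => by
      have := bx_ball h0 x
      rwa [show bx h x = w from e] at this
  have i1 : ∀ w : Fin n → W, Integrable
      (fun ω => if Function.Injective w then ∏ i, sm φ a (p (w i)) ω else 0) μ := fun w => by
    split_ifs
    · exact int_prod fub hF ha fun i => t (w i)
    · exact integrable_zero _ _ _
  have i2 := fun w => int_pow fub hF ha n (t w)
  have j1 := integrable_finset_sum univ fun w _ => i1 w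
  have j2 := integrable_finset_sum univ fun w _ => i2 w
  refine (integral_mono (int_pow fub hF ha n hg) ((j1.const_mul 2).add (j2.const_mul
    (c * (Fintype.card W : ℝ) ^ k))) fun ω => ?_).trans ?_
  · have := P W fun w => sm φ a (p w) ω
    rw [← s1 ω] at this
    exact this
  simp only [Pi.add_apply]
  rw [integral_add (j1.const_mul 2) (j2.const_mul _), integral_const_mul, integral_const_mul,
    integral_finset_sum _ fun w _ => i1 w, integral_finset_sum _ fun w _ => i2 w]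
  refine add_le_add (mul_le_mul_of_nonneg_left ?_ zero_le_two) ?_
  · have e : (∫ x, |g x|) ^ n = ∑ w : Fin n → W, ∏ i, ∫ x, |p (w i) x| := by
      rw [s2, ← Fintype.piFinset_univ,
        ← prod_univ_sum (fun _ : Fin n => univ) (fun _ w => ∫ x, |p w x|), prod_const, card_univ,
        Fintype.card_fin]
    rw [e, mul_sum]
    refine sum_le_sum fun w _ => ?_
    split_ifs with hw
    · obtain ⟨u1, u2⟩ := ((fub Ω μ φ hF a ha).2 n).2 z ε _ fun i => t (w i)
      rw [u2, ← integral_fintype_prod_volume_eq_prod (fun i x => |p (w i) x|), ← integral_const_mul]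
      refine integral_mono u1 ((Integrable.fintype_prod fun i =>
        ((fub Ω μ φ hF a ha).1 z ε _ (t (w i))).2.1.abs).const_mul K) fun x => ?_
      by_cases e : ∀ i, p (w i) (x i) ≠ 0
      · refine (le_abs_self _).trans ?_
        rw [abs_mul, abs_prod, mul_comm]
        refine mul_le_mul_of_nonneg_right (sep x (fun i => (pc_ne (e i)).2) fun i j e' => hw ?_)
          (prod_nonneg fun _ _ => abs_nonneg _)
        exact Subtype.ext (((pc_ne (e i)).1.symm.trans e').trans (pc_ne (e j)).1)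
      · push Not at e
        obtain ⟨i, e⟩ := e
        show (∏ i, p (w i) (x i)) * _ ≤ K * ∏ i, |p (w i) (x i)|
        rw [prod_eq_zero (mem_univ i) e, zero_mul]
        positivity
    · rw [integral_zero]
      exact mul_nonneg K0 (prod_nonneg fun _ _ => integral_nonneg fun _ => abs_nonneg _)
  · rw [Fintype.card_coe, pow_succ, ← mul_assoc, mul_assoc _ _ B]
    refine mul_le_mul_of_nonneg_left ((sum_le_sum fun w _ => hB _ _ (t' w)).trans ?_) (by positivity)
    rw [sum_const, card_univ, Fintype.card_coe, nsmul_eq_mul]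

theorem far {h : ℝ} (h0 : 0 < h) {s t : ℝ} (e : ⌊s / h⌋ % 2 = ⌊t / h⌋ % 2) (d : ⌊s / h⌋ ≠ ⌊t / h⌋) :
    h ≤ |s - t| := by
  have a := Int.floor_le (s / h)
  have b := Int.lt_floor_add_one (s / h)
  have a' := Int.floor_le (t / h)
  have b' := Int.lt_floor_add_one (t / h)
  rw [le_div_iff₀ h0] at a a'
  rw [div_lt_iff₀ h0] at b b'
  rcases (by omega : ⌊s / h⌋ + 2 ≤ ⌊t / h⌋ ∨ ⌊t / h⌋ + 2 ≤ ⌊s / h⌋) with k | k
  · have : (⌊s / h⌋ : ℝ) + 2 ≤ ⌊t / h⌋ := by exact_mod_cast k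
    exact le_abs.2 (.inr (by nlinarith))
  · have : (⌊t / h⌋ : ℝ) + 2 ≤ ⌊s / h⌋ := by exact_mod_cast k
    exact le_abs.2 (.inl (by nlinarith))

end Sp

open Sp MeasureTheory Finset

theorem step (dl : DL) (fub : FUB) : STEP := by
  intro n ⟨k', hk⟩ h2
  obtain ⟨k, rfl⟩ : ∃ k, n = 2 * (k + 1) := ⟨k' - 1, by omega⟩
  obtain ⟨c, hc, P⟩ := pw dl k
  set n := 2 * (k + 1) with hn
  refine ⟨4 ^ n * (c * 4 ^ n), by positivity, fun Ω _ μ φ hF δ d0 d1 => ?_⟩
  obtain ⟨K, T, K0, T0, hs⟩ := hF.sep n δ d0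
  refine ⟨4 ^ n * (2 * K), T, by positivity, T0, fun a ε B z g ha hT hg B0 hB => ?_⟩
  have e0 : 0 < ε := lt_of_lt_of_le (by positivity) hT
  have h0 : 0 < δ * ε := by positivity
  let b : ℂ → ℤ × ℤ := fun x => ((bx (δ * ε) x).1 % 2, (bx (δ * ε) x).2 % 2)
  have hb : Measurable b := (measurable_from_top (f := fun u : ℤ × ℤ => (u.1 % 2, u.2 % 2))).comp
    ((bx_meas _).mono le_rfl (by
      intro s _
      exact (Set.to_countable s).measurableSet))
  let W : Finset (ℤ × ℤ) := Icc 0 1 ×ˢ Icc 0 1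
  have cW : Fintype.card W = 4 := by rw [Fintype.card_coe]; rfl
  obtain ⟨s1, -⟩ := sm_sum fub hF ha W hb hg fun x _ => by
    simp only [W, b, mem_product, mem_Icc]; omega
  have t : ∀ w : W, Tf z ε (pc g {y | b y = w}) := fun w =>
    pc_tf hg (hb (measurableSet_singleton w.1)) fun x _ => hg.sup x
  have ev : Even n := ⟨k + 1, by omega⟩
  set M := 2 * (K * (ε ^ (-(1 / 8) : ℝ) * ∫ x, |g x|) ^ n) + c * 4 ^ n * δ⁻¹ ^ n * B
  have o : ∀ w : W, ∫ ω, sm φ a (pc g {y | b y = w}) ω ^ n ∂μ ≤ M := fun w => by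
    refine (one fub hF hc P (K := K * (ε ^ (-(1 / 8) : ℝ)) ^ n) ha h0 (by positivity) (t w)
      (fun x hx hi => hs a ε z x ha hT (fun i => (t w).sup _ (hx i)) fun i j ij => ?_)
      (by simpa only [← mul_assoc] using hB)).trans (add_le_add ?_ ?_)
    · have e := ((pc_ne (hx i)).1.trans (pc_ne (hx j)).1.symm : b (x i) = b (x j))
      have d : bx (δ * ε) (x i) ≠ bx (δ * ε) (x j) := fun e => ij (hi e)
      simp only [b, bx, Prod.mk.injEq, ne_eq, not_and_or] at e d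
      rcases d with d | d
      · exact (far h0 e.1 d).trans (by rw [← Complex.sub_re]; exact Complex.abs_re_le_norm _)
      · exact (far h0 e.2 d).trans (by rw [← Complex.sub_im]; exact Complex.abs_im_le_norm _)
    · rw [mul_pow, mul_assoc]
      have : ∫ x, |pc g {y | b y = w} x| ≤ ∫ x, |g x| :=
        integral_mono ((fub Ω μ φ hF a ha).1 z ε _ (t w)).2.1.abs
          ((fub Ω μ φ hF a ha).1 z ε _ hg).2.1.abs fun x => pc_abs _ _ x
      have p0 : 0 ≤ ∫ x, |pc g {y | b y = w} x| := integral_nonneg fun _ => abs_nonneg _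
      gcongr
    · have c1 := card_bxs h0 e0.le z
      have c2 : 2 * ε / (δ * ε) + 2 ≤ 4 * δ⁻¹ := by
        have : 1 ≤ δ⁻¹ := one_le_inv_iff₀.2 ⟨d0, d1⟩
        rw [show 2 * ε / (δ * ε) = 2 * δ⁻¹ by field_simp]
        linarith
      rw [mul_assoc c (4 ^ n), ← mul_pow, hn, pow_mul]
      gcongr
      exact c1.trans (by gcongr)
  have i2 := fun w => int_pow fub hF ha n (t w)
  have M0 : 0 ≤ M := by
    have : 0 ≤ ∫ x, |g x| := integral_nonneg fun _ => abs_nonneg _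
    positivity
  calc ∫ ω, sm φ a g ω ^ n ∂μ
      ≤ ∫ ω, (4 : ℝ) ^ (2 * k + 1) * ∑ w : W, sm φ a (pc g {y | b y = w}) ω ^ n ∂μ := by
        refine integral_mono (int_pow fub hF ha n hg)
          ((integrable_finset_sum univ fun w _ => i2 w).const_mul _) fun ω => ?_
        show sm φ a g ω ^ n ≤ _
        rw [s1 ω, ← ev.pow_abs]
        refine (pow_le_pow_left₀ (abs_nonneg _) (abs_sum_le_sum_abs _ _) n).trans ?_
        have := pow_sum_le_card_mul_sum_pow (s := univ)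
          (f := fun w : W => |sm φ a (pc g {y | b y = w}) ω|) (fun _ _ => abs_nonneg _) (2 * k + 1)
        rw [card_univ, cW, show 2 * k + 1 + 1 = n by omega] at this
        simpa only [ev.pow_abs, Nat.cast_ofNat] using this
    _ ≤ 4 ^ (2 * k + 1) * (4 * M) := by
        rw [integral_const_mul, integral_finset_sum _ fun w _ => i2 w]
        refine mul_le_mul_of_nonneg_left ((sum_le_sum fun w _ => o w).trans ?_) (by positivity)
        rw [sum_const, card_univ, cW, nsmul_eq_mul, Nat.cast_ofNat]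
    _ = _ := by
        rw [← mul_assoc, ← pow_succ, show 2 * k + 1 + 1 = n by omega]
        ring

end Vale.Agent.P144W
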