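import Vale.Agent.P144W.Gl
import Vale.Agent.P144W.Dl
import Vale.Agent.P144W.Fub
import Vale.Agent.P144W.Step
import Vale.Agent.P144W.Mom
import Vale.Agent.P144W.Sml
import Vale.Agent.P144W.Near
import Vale.Agent.P144W.Conv
import Vale.Agent.P144W.Sep

/-!
# P144W: the moments of the smeared spin field converge (helper14)
-/

set_option autoImplicit false
set_option linter.all false

noncomputable section

namespace Vale.Agent.P144W

open MeasureTheory Filter Topology Vale.Agent.P144 Vale.Agent.P144Z Vale.Agent.P144F58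

theorem mom_all : MOM := mom fub (step dl fub)

theorem conv_all : CONV := conv fub (sml fub (step dl fub) mom_all) (near dl fub mom_all)

/-- **the moments of the smeared spin field** -/
theorem spin_mom {J lam β Zσ Zε : ℝ} {V : Finset Site → ℝ} {μ : Measure Config} {E₀ : Fam}
    (hJ : 0 < J) (hV : IsPotential V) (hμ : IsTorusState J lam V β μ)
    (hE : PlaneFam J 0 (fun _ => 0) (Kc / J) E₀) (hD : LocDiff Set.univ E₀ (famOf μ) Zσ Zε)
    (hZ : 0 < Zσ) {C : Pts → ℝ}
    (hL : ∀ p, Good Set.univ p → Lim (famOf μ) p (Zσ ^ p.n * Zε ^ p.m * C p))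
    (hC : ∀ p, Good Set.univ p → p.m = 0 → Even p.n → 0 < C p) : Mom μ Zσ C :=
  mom_gl conv_all hV hμ (sepm hJ hμ hE hD) hZ hL hC

/-- the same for the critical nearest-neighbour state -/
theorem spin_mom0 {J : ℝ} (hJ : 0 < J) {C : Pts → ℝ}
    (hL : ∀ p, Good Set.univ p → ∀ E₀, PlaneFam J 0 (fun _ => 0) (Kc / J) E₀ → Lim E₀ p (C p))
    (hC : ∀ p, Good Set.univ p → p.m = 0 → Even p.n → 0 < C p) (μ : Measure Config)
    (h : IsPlaneState J 0 (fun _ => 0) (Kc / J) μ) : Mom μ 1 C :=
  spin_mom (Zε := 1) hJ U1.pot_zero (U1.zero_state hJ h) (fam_self h) (loc_self μ) one_pos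
    (fun p hp => by simpa only [one_pow, one_mul] using hL p hp _ (fam_self h)) hC

end Vale.Agent.P144W
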