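import Vale.Agent.P144W.Sub13
import Vale.Agent.P144F58.Moment

/-!
# P144W: convergence in law from convergence of the moments (helper13)
-/

set_option autoImplicit false
set_option linter.all false

noncomputable section

namespace Vale.Agent.P144W.C13

open MeasureTheory Filter Topology Vale.Agent.P144 Vale.Agent.P144.H436 Vale.Agent.P144F58
open scoped Nat

theorem smear_int {f : ℂ → ℝ} (hf : Test f) (a : ℝ) (σ : Config) :
    Integrable fun x => f x * (a ^ (-(1 / 8) : ℝ) * sp (σ (fl a x))) := by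
  refine (test_int hf).mul_bdd (c := |a ^ (-(1 / 8) : ℝ)|) ((measurable_of_countable
    fun i : Site => a ^ (-(1 / 8) : ℝ) * sp (σ i)).comp (fl_meas a)).aestronglyMeasurable
    (Eventually.of_forall fun x => ?_)
  rw [Real.norm_eq_abs, abs_mul, abs_sp, mul_one]

theorem test_pos {f : ℂ → ℝ} (hf : Test f) : Test fun x => max (f x) 0 := by
  obtain ⟨hm, ⟨B, hB⟩, hs⟩ := hf
  refine ⟨hm.max measurable_const, ⟨B, fun x => le_trans ?_ (hB x)⟩, hs.subset fun x hx h => hx ?_⟩
  · rw [abs_of_nonneg (le_max_right _ _)]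
    exact max_le (le_abs_self _) (abs_nonneg _)
  · simp [h]

theorem test_neg {f : ℂ → ℝ} (hf : Test f) : Test fun x => -f x := by
  obtain ⟨hm, ⟨B, hB⟩, hs⟩ := hf
  exact ⟨hm.neg, ⟨B, fun x => by simpa using hB x⟩, hs.subset fun x hx h => hx (by simp [h])⟩

theorem test_sum {k : ℕ} {f : Fin k → ℂ → ℝ} (hf : ∀ i, Test (f i)) (t : Fin k → ℝ) :
    Test fun x => ∑ i, t i * f i x := by
  choose B hB using fun i => (hf i).2.1
  refine ⟨Finset.measurable_sum _ fun i _ => (hf i).1.const_mul _,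
    ⟨∑ i, |t i| * B i, fun x => (Finset.abs_sum_le_sum_abs _ _).trans
      (Finset.sum_le_sum fun i _ => ?_)⟩,
    (Bornology.isBounded_iUnion.2 fun i => (hf i).2.2).subset fun x hx => ?_⟩
  · rw [abs_mul]
    exact mul_le_mul_of_nonneg_left (hB i x) (abs_nonneg _)
  · obtain ⟨i, -, hi⟩ := Finset.exists_ne_zero_of_sum_ne_zero hx
    exact Set.mem_iUnion.2 ⟨i, right_ne_zero_of_mul hi⟩

theorem smear_lin {k : ℕ} {f : Fin k → ℂ → ℝ} (hf : ∀ i, Test (f i)) (t : Fin k → ℝ) (a : ℝ)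
    (σ : Config) : smear a (fun x => ∑ i, t i * f i x) σ = ∑ i, t i * smear a (f i) σ := by
  unfold smear
  simp only [← integral_const_mul]
  rw [← integral_finsetSum _ fun i _ => (smear_int (hf i) a σ).const_mul _]
  simp only [Finset.sum_mul, mul_assoc]

theorem smear_split {f : ℂ → ℝ} (hf : Test f) (a : ℝ) (σ : Config) : smear a f σ =
    smear a (fun x => max (f x) 0) σ - smear a (fun x => max (-f x) 0) σ := by
  unfold smear
  rw [← integral_sub (smear_int (test_pos hf) a σ) (smear_int (test_pos (test_neg hf)) a σ)]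
  refine integral_congr_ae (Eventually.of_forall fun x => ?_)
  show _ = _ - _
  rw [← sub_mul, max_zero_sub_max_neg_zero_eq_self]

theorem cont_int {μ : Measure Config} [IsProbabilityMeasure μ] {F : Config → ℝ}
    (hF : Continuous F) : Integrable F μ :=
  (BoundedContinuousFunction.mkOfCompact ⟨F, hF⟩).integrable μ

theorem exp_bd {J : ℝ} (hJ : 0 < J) {C : Pts → ℝ}
    (h0 : ∀ μ₀, IsPlaneState J 0 (fun _ => 0) (Kc / J) μ₀ → Mom μ₀ 1 C) :
    ∃ μ₀ : Measure Config, IsProbabilityMeasure μ₀ ∧ Mom μ₀ 1 C ∧ ∀ g, Test g → ∀ s : ℝ, ∃ B : ℝ,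
      ∀ᶠ a in 𝓝[>] (0 : ℝ), ∫ σ, Real.exp (s * smear a g σ) ∂μ₀ ≤ B := by
  obtain ⟨μ, hμ, hs⟩ := subg hJ
  have := hμ.1
  have pos : ∀ g, Test g → (∀ x, 0 ≤ g x) → ∀ s : ℝ, ∃ B : ℝ,
      ∀ᶠ a in 𝓝[>] (0 : ℝ), ∫ σ, Real.exp (s * smear a g σ) ∂μ ≤ B := by
    intro g hg hp s
    have t := (h0 μ hμ 2 two_pos (fun _ => g) fun _ => hg).2
    simp only [Finset.prod_const, Finset.card_univ, Fintype.card_fin] at t
    have t2 := (Real.continuous_exp.tendsto _).comp ((t.const_mul (s ^ 2)).div_const 2)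
    exact ⟨_, ((t2.eventually (eventually_le_nhds (lt_add_one _))).and self_mem_nhdsWithin).mono
      fun a h => (hs a h.2 g hg hp s).trans h.1⟩
  refine ⟨μ, this, h0 μ hμ, fun g hg s => ?_⟩
  obtain ⟨B1, h1⟩ := pos _ (test_pos hg) (fun x => le_max_right _ _) (2 * s)
  obtain ⟨B2, h2⟩ := pos _ (test_pos (test_neg hg)) (fun x => le_max_right _ _) (-(2 * s))
  refine ⟨B1 + B2, ?_⟩
  filter_upwards [h1, h2, self_mem_nhdsWithin] with a b1 b2 ha
  have ci : ∀ g, Test g → ∀ s : ℝ, Integrable (fun σ => Real.exp (s * smear a g σ)) μ :=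
    fun g hg s => cont_int (Real.continuous_exp.comp (continuous_const.mul (smear_cont ha hg)))
  refine le_trans ?_ (add_le_add b1 b2)
  rw [← integral_add (ci _ (test_pos hg) _) (ci _ (test_pos (test_neg hg)) _)]
  refine integral_mono (ci g hg s) ((ci _ (test_pos hg) _).add (ci _ (test_pos (test_neg hg)) _))
    fun σ => ?_
  show Real.exp _ ≤ Real.exp _ + Real.exp _
  rw [smear_split hg]
  set u := smear a (fun x => max (g x) 0) σ
  set v := smear a (fun x => max (-g x) 0) σ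
  rcases le_total (2 * s * u) (-(2 * s) * v) with h | h
  · exact le_add_of_nonneg_of_le (Real.exp_pos _).le (Real.exp_le_exp.2 (by linarith))
  · exact le_add_of_le_of_nonneg (Real.exp_le_exp.2 (by linarith)) (Real.exp_pos _).le

theorem pow_le_exp (y : ℝ) (q : ℕ) : y ^ (2 * q) / (2 * q)! ≤ Real.exp y + Real.exp (-y) := by
  rw [← (even_two_mul q).pow_abs]
  refine (Real.pow_div_factorial_le_exp _ (abs_nonneg y) _).trans ?_
  rcases abs_cases y with h | h <;> rw [h.1]
  · exact le_add_of_nonneg_right (Real.exp_pos _).le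
  · exact le_add_of_nonneg_left (Real.exp_pos _).le

theorem growth {J : ℝ} (hJ : 0 < J) {C : Pts → ℝ}
    (h0 : ∀ μ₀, IsPlaneState J 0 (fun _ => 0) (Kc / J) μ₀ → Mom μ₀ 1 C) {k : ℕ}
    {f : Fin k → ℂ → ℝ} (hf : ∀ i, Test (f i)) (t : Fin k → ℝ) (Z : ℝ) :
    Tendsto (fun q : ℕ => (∑ i : Fin (2 * q) → Fin k, (∏ j, t (i j)) * (Z ^ (2 * q) *
      ∫ x : Fin (2 * q) → ℂ, (∏ j, f (i j) (x j)) * C ⟨2 * q, 0, x, ![], ![]⟩)) / (2 * q)!)
      atTop (𝓝 0) := by
  obtain ⟨μ, hp, hm, hb⟩ := exp_bd hJ h0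
  have hg := test_sum hf t
  obtain ⟨B1, h1⟩ := hb _ hg (2 * Z)
  obtain ⟨B2, h2⟩ := hb _ hg (-(2 * Z))
  have lim : Tendsto (fun q : ℕ => (B1 + B2) * (1 / 4 : ℝ) ^ q) atTop (𝓝 0) := by
    simpa using (tendsto_pow_atTop_nhds_zero_of_lt_one (r := (1 / 4 : ℝ)) (by norm_num)
      (by norm_num)).const_mul (B1 + B2)
  have key : ∀ q : ℕ, 0 < q → Tendsto (fun a => ∫ σ, (Z * smear a (fun x => ∑ i, t i * f i x) σ) ^
      (2 * q) / (2 * q)! ∂μ) (𝓝[>] 0) (𝓝 ((∑ i : Fin (2 * q) → Fin k, (∏ j, t (i j)) *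
      (Z ^ (2 * q) * ∫ x : Fin (2 * q) → ℂ, (∏ j, f (i j) (x j)) * C ⟨2 * q, 0, x, ![], ![]⟩)) /
      (2 * q)!)) := by
    intro q hq
    have t1 := (tendsto_finsetSum Finset.univ fun (i : Fin (2 * q) → Fin k) _ =>
      (((hm (2 * q) (by omega) (fun j => f (i j)) fun j => hf _).2.const_mul
        (Z ^ (2 * q))).const_mul (∏ j, t (i j)))).div_const ((2 * q)! : ℝ)
    simp only [one_pow, one_mul] at t1
    refine t1.congr' ?_
    filter_upwards [self_mem_nhdsWithin] with a ha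
    simp only [← integral_const_mul]
    rw [integral_div, ← integral_finsetSum _ fun i _ => ((cont_int (continuous_finsetProd _
      fun j _ => smear_cont ha (hf (i j)))).const_mul _).const_mul _]
    congr 2
    funext σ
    rw [smear_lin hf, mul_pow, Finset.sum_pow', Fintype.piFinset_univ, Finset.mul_sum]
    refine Finset.sum_congr rfl fun i _ => ?_
    rw [Finset.prod_mul_distrib]
    ring
  refine squeeze_zero' ?_ ?_ lim
  · filter_upwards [eventually_gt_atTop 0] with q hq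
    exact ge_of_tendsto' (key q hq) fun a => integral_nonneg fun σ =>
      div_nonneg ((even_two_mul q).pow_nonneg _) (Nat.cast_nonneg _)
  · filter_upwards [eventually_gt_atTop 0] with q hq
    refine le_of_tendsto (key q hq) ?_
    filter_upwards [h1, h2, self_mem_nhdsWithin] with a b1 b2 ha
    have c := smear_cont ha hg
    have ci : ∀ s : ℝ, Integrable
        (fun σ => Real.exp (s * smear a (fun x => ∑ i, t i * f i x) σ)) μ :=
      fun s => cont_int (Real.continuous_exp.comp (continuous_const.mul c))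
    refine le_trans ?_ (mul_le_mul_of_nonneg_right (add_le_add b1 b2) (by positivity))
    rw [← integral_add (ci _) (ci _), ← integral_mul_const]
    refine integral_mono (cont_int (((continuous_const.mul c).pow _).div_const _))
      (((ci _).add (ci _)).mul_const _) fun σ => ?_
    set y := smear a (fun x => ∑ i, t i * f i x) σ
    have h3 := mul_le_mul_of_nonneg_right (pow_le_exp (2 * Z * y) q)
      (show 0 ≤ (1 / 4 : ℝ) ^ q by positivity)
    have e : (2 * Z * y) ^ (2 * q) / (2 * q)! * (1 / 4 : ℝ) ^ q = (Z * y) ^ (2 * q) / (2 * q)! := by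
      rw [mul_assoc 2, mul_pow 2, pow_mul 2, div_mul_eq_mul_div, mul_right_comm, ← mul_pow]
      norm_num
    rw [e, ← neg_mul] at h3
    exact h3

theorem law {J : ℝ} (hJ : 0 < J) {C : Pts → ℝ}
    (h0 : ∀ μ₀, IsPlaneState J 0 (fun _ => 0) (Kc / J) μ₀ → Mom μ₀ 1 C) {μ : Measure Config}
    [IsProbabilityMeasure μ] {Z : ℝ} (h : Mom μ Z C) : Law μ Z C := by
  intro k f hf
  let p : ℝ → ℝ := fun a => if 0 < a then a else 1
  have p0 : ∀ a, 0 < p a := fun a => by
    simp only [p]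
    split_ifs with h
    exacts [h, one_pos]
  have p1 : ∀ᶠ a in 𝓝[>] (0 : ℝ), p a = a := by
    filter_upwards [self_mem_nhdsWithin] with a ha
    exact if_pos ha
  let Φ : ℝ → Config → EuclideanSpace ℝ (Fin k) := fun a σ =>
    WithLp.toLp 2 fun i => smear a (f i) σ
  have hΦ : ∀ a, Continuous (Φ (p a)) := fun a =>
    (PiLp.continuous_toLp 2 _).comp (continuous_pi fun i => smear_cont (p0 a) (hf i))
  let ρ : ℝ → ProbabilityMeasure (EuclideanSpace ℝ (Fin k)) := fun a =>
    ⟨μ.map (Φ (p a)), Measure.isProbabilityMeasure_map (hΦ a).measurable.aemeasurable⟩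
  have hρ : ∀ (F : EuclideanSpace ℝ (Fin k) → ℝ), Continuous F → ∀ a, Integrable F (ρ a) ∧
      ∫ y, F y ∂(ρ a) = ∫ σ, F (Φ (p a) σ) ∂μ := fun F hF a =>
    ⟨(integrable_map_measure hF.aestronglyMeasurable (hΦ a).measurable.aemeasurable).2
      (cont_int (hF.comp (hΦ a))),
      integral_map (hΦ a).measurable.aemeasurable hF.aestronglyMeasurable⟩
  have cp : ∀ n (i : Fin n → Fin k),
      Continuous fun y : EuclideanSpace ℝ (Fin k) => ∏ j, y (i j) := fun n i => by fun_prop
  obtain ⟨ν, n1, n2, n3⟩ := moments (l := 𝓝[>] (0 : ℝ)) ρ (fun n i => if n = 0 then 1 else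
    Z ^ n * ∫ x : Fin n → ℂ, (∏ j, f (i j) (x j)) * C ⟨n, 0, x, ![], ![]⟩)
    (fun a n i => (hρ _ (cp n i) a).1) (fun n i => by
      rcases Nat.eq_zero_or_pos n with rfl | hn
      · simp
      rw [if_neg hn.ne']
      refine (h n hn (fun j => f (i j)) fun j => hf _).2.congr' ?_
      filter_upwards [p1] with a ha
      rw [(hρ _ (cp n i) a).2, ha]) (fun t => by
      refine (growth hJ h0 hf (fun i => t i) Z).congr' ?_
      filter_upwards [eventually_gt_atTop 0] with q hq
      simp only [if_neg (show 2 * q ≠ 0 by omega)])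
  refine ⟨ν, ⟨inferInstance, fun n hn i => ?_⟩, fun ν' h' => ?_, fun F => ?_⟩
  · simpa only [if_neg hn.ne'] using n1 n i
  · refine congrArg ProbabilityMeasure.toMeasure (n2 ⟨ν', h'.1⟩ fun n i => ?_)
    rcases Nat.eq_zero_or_pos n with rfl | hn
    · have := h'.1
      simp
    · rw [if_neg hn.ne']
      exact h'.2 n hn i
  · refine (ProbabilityMeasure.tendsto_iff_forall_integral_tendsto.1 n3 F).congr' ?_
    filter_upwards [p1] with a ha
    rw [(hρ _ F.continuous a).2, ha]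

end Vale.Agent.P144W.C13
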