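import Vale.Agent.P144W.St
import Mathlib.MeasureTheory.Function.Floor
import Mathlib.MeasureTheory.Function.LpSpace.Complete
import Mathlib.MeasureTheory.Measure.Lebesgue.EqHaar

/-!
# P144W: the row CONV (spare, helper13)
-/

set_option autoImplicit false
set_option linter.all false

noncomputable section

namespace Vale.Agent.P144W.C13

open MeasureTheory Filter Topology Metric Vale.Agent.P144W

theorem fatou {X ι : Type*} [MeasurableSpace X] {ν : Measure X} {l : Filter ι} [l.NeBot]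
    [l.IsCountablyGenerated] {u : ι → X → ℝ} {v : X → ℝ} {C : ℝ}
    (hm : ∀ i, AEStronglyMeasurable (u i) ν)
    (hC : ∀ᶠ i in l, Integrable (u i) ν ∧ ∫ x, |u i x| ∂ν ≤ C)
    (hl : ∀ᵐ x ∂ν, Tendsto (u · x) l (𝓝 (v x))) : Integrable v ν ∧ ∫ x, |v x| ∂ν ≤ C := by
  have hb : eLpNorm v 1 ν ≤ ENNReal.ofReal C := by
    refine Lp.eLpNorm_le_of_ae_tendsto (hC.mono fun i hi => ?_) hm hl
    rw [eLpNorm_one_eq_lintegral_enorm, ← ofReal_integral_norm_eq_lintegral_enorm hi.1]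
    exact ENNReal.ofReal_le_ofReal hi.2
  have hv : AEStronglyMeasurable v ν := aestronglyMeasurable_of_tendsto_ae l hm hl
  have hi : Integrable v ν :=
    memLp_one_iff_integrable.1 ⟨hv, hb.trans_lt ENNReal.ofReal_lt_top⟩
  obtain ⟨i, -, h2⟩ := hC.exists
  have h0 : 0 ≤ C := (integral_nonneg fun x => abs_nonneg _).trans h2
  rw [eLpNorm_one_eq_lintegral_enorm, ← ofReal_integral_norm_eq_lintegral_enorm hi] at hb
  exact ⟨hi, (ENNReal.ofReal_le_ofReal_iff h0).1 hb⟩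

open Classical in
/-- the indicator of the trimmed boxes -/
def tr (δ η : ℝ) (z : ℂ) : ℝ :=
  if η ≤ Int.fract (z.re / δ) ∧ η ≤ Int.fract (z.im / δ) then 1 else 0

theorem tr_meas (δ η : ℝ) : Measurable (tr δ η) := by
  refine Measurable.ite (MeasurableSet.inter ?_ ?_) measurable_const measurable_const
  · exact measurableSet_le measurable_const (Complex.measurable_re.div_const δ).fract
  · exact measurableSet_le measurable_const (Complex.measurable_im.div_const δ).fract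

theorem tr_cases (δ η : ℝ) (z : ℂ) : tr δ η z = 0 ∨ tr δ η z = 1 := by
  unfold tr
  split_ifs
  · exact Or.inr rfl
  · exact Or.inl rfl

theorem ae_fract {δ : ℝ} (hδ : 0 < δ) : ∀ᵐ t : ℝ, 0 < Int.fract (t / δ) := by
  have h : ∀ᵐ t : ℝ, t ∉ Set.range fun k : ℤ => (k : ℝ) * δ :=
    (Set.countable_range _).ae_notMem volume
  filter_upwards [h] with t ht
  refine (Int.fract_nonneg _).lt_of_ne fun h0 => ht ⟨⌊t / δ⌋, ?_⟩
  have h1 := Int.floor_add_fract (t / δ)
  rw [← h0, add_zero] at h1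
  show ((⌊t / δ⌋ : ℤ) : ℝ) * δ = t
  rw [h1]
  field_simp

theorem ae_tr {δ : ℝ} (hδ : 0 < δ) : ∀ᵐ z : ℂ, ∀ᶠ η in 𝓝[>] (0 : ℝ), tr δ η z = 1 := by
  have q := Complex.volume_preserving_equiv_real_prod.quasiMeasurePreserving
  have h1 : ∀ᵐ z : ℂ, 0 < Int.fract (z.re / δ) :=
    (Measure.quasiMeasurePreserving_fst.comp q).ae (ae_fract hδ)
  have h2 : ∀ᵐ z : ℂ, 0 < Int.fract (z.im / δ) :=
    (Measure.quasiMeasurePreserving_snd.comp q).ae (ae_fract hδ)
  filter_upwards [h1, h2] with z a b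
  have e1 : ∀ᶠ η in 𝓝[>] (0 : ℝ), η ≤ Int.fract (z.re / δ) :=
    nhdsWithin_le_nhds (eventually_le_nhds a)
  have e2 : ∀ᶠ η in 𝓝[>] (0 : ℝ), η ≤ Int.fract (z.im / δ) :=
    nhdsWithin_le_nhds (eventually_le_nhds b)
  filter_upwards [e1, e2] with η c d
  exact if_pos ⟨c, d⟩

theorem ae_tr_pi {δ : ℝ} (hδ : 0 < δ) (n : ℕ) :
    ∀ᵐ x : Fin n → ℂ, ∀ᶠ η in 𝓝[>] (0 : ℝ), ∀ i, tr δ η (x i) = 1 := by
  have h : ∀ᵐ x : Fin n → ℂ, ∀ i, ∀ᶠ η in 𝓝[>] (0 : ℝ), tr δ η (x i) = 1 :=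
    ae_all_iff.2 fun i =>
      (Measure.quasiMeasurePreserving_eval (fun _ : Fin n => (volume : Measure ℂ)) i).ae (ae_tr hδ)
  filter_upwards [h] with x hx
  exact eventually_all.2 hx

theorem ae_inj (n : ℕ) : ∀ᵐ x : Fin n → ℂ, Function.Injective x := by
  have h : ∀ i j : Fin n, ∀ᵐ x : Fin n → ℂ, x i = x j → i = j := by
    intro i j
    by_cases hij : i = j
    · exact Eventually.of_forall fun _ _ => hij
    let s : Submodule ℝ (Fin n → ℂ) :=
      LinearMap.eqLocus (LinearMap.proj i : (Fin n → ℂ) →ₗ[ℝ] ℂ) (LinearMap.proj j)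
    have hs : s ≠ ⊤ := by
      intro h
      have h1 : (Pi.single i (1 : ℂ) : Fin n → ℂ) ∈ s := h ▸ Submodule.mem_top
      have h2 : (Pi.single i (1 : ℂ) : Fin n → ℂ) i = (Pi.single i (1 : ℂ) : Fin n → ℂ) j := h1
      rw [Pi.single_eq_same, Pi.single_eq_of_ne (Ne.symm hij)] at h2
      exact one_ne_zero h2
    have h0 := Measure.addHaar_submodule (volume : Measure (Fin n → ℂ)) s hs
    filter_upwards [measure_eq_zero_iff_ae_notMem.1 h0] with x hx hx'
    exact absurd hx' hx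
  filter_upwards [ae_all_iff.2 fun i => ae_all_iff.2 (h i)] with x hx
  exact fun i j => hx i j

theorem floor_gap {u v η : ℝ} (h : ⌊u⌋ ≠ ⌊v⌋) (hu : η ≤ Int.fract u) (hv : η ≤ Int.fract v) :
    η ≤ |u - v| := by
  have a1 := Int.floor_add_fract u
  have a2 := Int.floor_add_fract v
  have b1 := Int.fract_lt_one u
  have b2 := Int.fract_lt_one v
  rcases lt_or_gt_of_ne h with h | h
  · have : (⌊u⌋ : ℝ) + 1 ≤ ⌊v⌋ := by exact_mod_cast h
    exact le_abs.2 (Or.inr (by linarith))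
  · have : (⌊v⌋ : ℝ) + 1 ≤ ⌊u⌋ := by exact_mod_cast h
    exact le_abs.2 (Or.inl (by linarith))

theorem sep_of {δ η : ℝ} (hδ : 0 < δ) {z w : ℂ} (h : bx δ z ≠ bx δ w) (hz : tr δ η z ≠ 0)
    (hw : tr δ η w ≠ 0) : η * δ ≤ ‖z - w‖ := by
  have cz : η ≤ Int.fract (z.re / δ) ∧ η ≤ Int.fract (z.im / δ) := by
    by_contra c
    exact hz (if_neg c)
  have cw : η ≤ Int.fract (w.re / δ) ∧ η ≤ Int.fract (w.im / δ) := by
    by_contra c
    exact hw (if_neg c)
  by_cases h1 : ⌊z.re / δ⌋ = ⌊w.re / δ⌋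
  · have h2 : ⌊z.im / δ⌋ ≠ ⌊w.im / δ⌋ := fun h2 => h (Prod.ext h1 h2)
    have h3 := floor_gap h2 cz.2 cw.2
    rw [← sub_div, abs_div, abs_of_pos hδ, le_div_iff₀ hδ, ← Complex.sub_im] at h3
    exact h3.trans (Complex.abs_im_le_norm _)
  · have h3 := floor_gap h1 cz.1 cw.1
    rw [← sub_div, abs_div, abs_of_pos hδ, le_div_iff₀ hδ, ← Complex.sub_re] at h3
    exact h3.trans (Complex.abs_re_le_norm _)

/-- the tuples in distinct boxes -/
def SS (n : ℕ) (δ : ℝ) : Set (Fin n → ℂ) := {x | Function.Injective fun i => bx δ (x i)}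

theorem bx_meas (δ : ℝ) : Measurable (bx δ) :=
  (Complex.measurable_re.div_const δ).floor.prodMk (Complex.measurable_im.div_const δ).floor

theorem SS_meas (n : ℕ) (δ : ℝ) : MeasurableSet (SS n δ) := by
  have h : Measurable fun (x : Fin n → ℂ) (i : Fin n) => bx δ (x i) :=
    measurable_pi_lambda _ fun i => (bx_meas δ).comp (measurable_pi_apply i)
  exact h (Set.to_countable {y : Fin n → ℤ × ℤ | Function.Injective y}).measurableSet

theorem floor_ne {u v : ℝ} (h : u ≠ v) : ∀ᶠ δ in 𝓝[>] (0 : ℝ), ⌊u / δ⌋ ≠ ⌊v / δ⌋ := by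
  have h0 : 0 < |u - v| := abs_pos.2 (sub_ne_zero.2 h)
  have e1 : ∀ᶠ δ in 𝓝[>] (0 : ℝ), δ ≤ |u - v| := nhdsWithin_le_nhds (eventually_le_nhds h0)
  filter_upwards [e1, self_mem_nhdsWithin] with δ h1 h2 h3
  have h4 := Int.abs_sub_lt_one_of_floor_eq_floor h3
  rw [← sub_div, abs_div, abs_of_pos (show 0 < δ from h2), div_lt_one h2] at h4
  linarith

theorem ev_SS {n : ℕ} {x : Fin n → ℂ} (hx : Function.Injective x) :
    ∀ᶠ δ in 𝓝[>] (0 : ℝ), x ∈ SS n δ := by
  have h : ∀ i j : Fin n, ∀ᶠ δ in 𝓝[>] (0 : ℝ), bx δ (x i) = bx δ (x j) → i = j := by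
    intro i j
    by_cases hij : i = j
    · exact Eventually.of_forall fun _ _ => hij
    have hne : x i ≠ x j := fun h => hij (hx h)
    by_cases h1 : (x i).re = (x j).re
    · have h2 : (x i).im ≠ (x j).im := fun h2 => hne (Complex.ext h1 h2)
      filter_upwards [floor_ne h2] with δ h3 h4
      exact absurd (congrArg Prod.snd h4) h3
    · filter_upwards [floor_ne h1] with δ h3 h4
      exact absurd (congrArg Prod.fst h4) h3
  filter_upwards [eventually_all.2 fun i => eventually_all.2 (h i)] with δ hδ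
  exact fun i j => hδ i j

theorem tf_cut {R : ℝ} {g : ℂ → ℝ} (hg : Tf 0 R g) (δ η : ℝ) :
    Tf 0 R fun z => g z * tr δ η z := by
  refine ⟨hg.meas.mul (tr_meas δ η), fun z => ?_, fun z h => hg.sup z (left_ne_zero_of_mul h)⟩
  rcases tr_cases δ η z with h | h <;> simp [h, hg.bd z]

theorem tf_rest {R : ℝ} {g : ℂ → ℝ} (hg : Tf 0 R g) (δ η : ℝ) :
    Tf 0 R (g - fun z => g z * tr δ η z) := by
  refine ⟨hg.meas.sub (tf_cut hg δ η).meas, fun z => ?_, fun z h => hg.sup z fun h0 => h ?_⟩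
  · rcases tr_cases δ η z with h | h <;> simp [h, hg.bd z]
  · simp [h0]

theorem pr_meas {n : ℕ} {R : ℝ} {f : Fin n → ℂ → ℝ} (hf : ∀ i, Tf 0 R (f i)) :
    Measurable fun x : Fin n → ℂ => ∏ i, f i (x i) :=
  Finset.measurable_prod _ fun i _ => (hf i).meas.comp (measurable_pi_apply i)

theorem pr_cut_le {n : ℕ} {f : Fin n → ℂ → ℝ} (δ η : ℝ) (x : Fin n → ℂ) :
    |∏ i, f i (x i) * tr δ η (x i)| ≤ |∏ i, f i (x i)| := by
  rw [Finset.abs_prod, Finset.abs_prod]
  refine Finset.prod_le_prod (fun i _ => abs_nonneg _) fun i _ => ?_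
  rcases tr_cases δ η (x i) with h | h <;> simp [h]

variable {Ω : Type} [MeasurableSpace Ω] {μ : Measure Ω} {φ : ℝ → ℂ → Ω → ℝ} {n : ℕ}
  {L : (Fin n → ℂ) → ℝ} {R : ℝ}

theorem L_meas (fub : FUB) (h : Fd μ φ) (hL : ∀ x, Function.Injective x → 0 ≤ L x ∧
    Tendsto (fun a => cr μ φ a x) (𝓝[>] 0) (𝓝 (L x))) : AEStronglyMeasurable L volume := by
  have t : Tendsto (fun k : ℕ => 1 / ((k : ℝ) + 1)) atTop (𝓝[>] 0) :=
    tendsto_nhdsWithin_iff.2 ⟨tendsto_one_div_add_atTop_nhds_zero_nat,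
      Eventually.of_forall fun k => Set.mem_Ioi.2 Nat.one_div_pos_of_nat⟩
  refine aestronglyMeasurable_of_tendsto_ae (f := fun (k : ℕ) x => cr μ φ (1 / ((k : ℝ) + 1)) x)
    atTop (fun k => ((fub Ω μ φ h _ Nat.one_div_pos_of_nat).2 n).1.aestronglyMeasurable) ?_
  filter_upwards [ae_inj n] with x hx
  exact (hL x hx).2.comp t

theorem dct (fub : FUB) (h : Fd μ φ) (hL : ∀ x, Function.Injective x → 0 ≤ L x ∧
    Tendsto (fun a => cr μ φ a x) (𝓝[>] 0) (𝓝 (L x))) (hR : 0 < R) {f : Fin n → ℂ → ℝ}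
    (hf : ∀ i, Tf 0 R (f i)) {δ η : ℝ} (hδ : 0 < δ) (hη : 0 < η) :
    IntegrableOn (fun x => (∏ i, f i (x i) * tr δ η (x i)) * L x) (SS n δ) ∧
      Tendsto (fun a => ∫ x in SS n δ, (∏ i, f i (x i) * tr δ η (x i)) * cr μ φ a x) (𝓝[>] 0)
        (𝓝 (∫ x in SS n δ, (∏ i, f i (x i) * tr δ η (x i)) * L x)) := by
  obtain ⟨K, T, hK, hT, hs⟩ := h.sep n (η * δ / R) (by positivity)
  have hc := fun i => tf_cut (hf i) δ η
  have hi : Integrable fun x : Fin n → ℂ => ∏ i, f i (x i) * tr δ η (x i) :=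
    Integrable.fintype_prod (f := fun i z => f i z * tr δ η z)
      fun i => ((fub Ω μ φ h 1 one_pos).1 0 R _ (hc i)).2.1
  have hb : Integrable (fun x : Fin n → ℂ => |∏ i, f i (x i) * tr δ η (x i)| *
      (K * (R ^ (-(1 / 8) : ℝ)) ^ n)) (volume.restrict (SS n δ)) :=
    (hi.abs.mul_const _).restrict
  have ev : ∀ᶠ a in 𝓝[>] (0 : ℝ), ∀ x ∈ SS n δ, ‖(∏ i, f i (x i) * tr δ η (x i)) * cr μ φ a x‖ ≤
      |∏ i, f i (x i) * tr δ η (x i)| * (K * (R ^ (-(1 / 8) : ℝ)) ^ n) := by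
    have e1 : ∀ᶠ a in 𝓝[>] (0 : ℝ), a ≤ R / T :=
      nhdsWithin_le_nhds (eventually_le_nhds (div_pos hR hT))
    filter_upwards [e1, self_mem_nhdsWithin] with a h1 h2 x hx
    rw [Real.norm_eq_abs, abs_mul]
    by_cases h0 : ∏ i, f i (x i) * tr δ η (x i) = 0
    · simp [h0]
    have h3 : ∀ i, f i (x i) * tr δ η (x i) ≠ 0 :=
      fun i => Finset.prod_ne_zero_iff.1 h0 i (Finset.mem_univ i)
    refine mul_le_mul_of_nonneg_left (hs a R 0 x h2 ?_ (fun i => (hc i).sup _ (h3 i))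
      fun i j hij => ?_) (abs_nonneg _)
    · rw [mul_comm]
      exact (le_div_iff₀ hT).1 h1
    · rw [div_mul_cancel₀ _ hR.ne']
      exact sep_of hδ (fun e => hij (hx e)) (right_ne_zero_of_mul (h3 i))
        (right_ne_zero_of_mul (h3 j))
  have li : ∀ x ∈ SS n δ, Tendsto (fun a => (∏ i, f i (x i) * tr δ η (x i)) * cr μ φ a x)
      (𝓝[>] 0) (𝓝 ((∏ i, f i (x i) * tr δ η (x i)) * L x)) := fun x hx =>
    (hL x (Function.Injective.of_comp (f := bx δ) hx)).2.const_mul _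
  refine ⟨Integrable.mono' hb ((pr_meas hc).aestronglyMeasurable.mul (L_meas fub h hL)).restrict
    ?_, tendsto_integral_filter_of_dominated_convergence _ ?_ ?_ hb ?_⟩
  · filter_upwards [ae_restrict_mem (SS_meas n δ)] with x hx
    exact le_of_tendsto (li x hx).norm (ev.mono fun a ha => ha x hx)
  · filter_upwards [self_mem_nhdsWithin] with a ha
    exact ((pr_meas hc).mul ((fub Ω μ φ h a ha).2 n).1).aestronglyMeasurable
  · filter_upwards [ev] with a ha
    filter_upwards [ae_restrict_mem (SS_meas n δ)] with x hx using ha x hx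
  · filter_upwards [ae_restrict_mem (SS_meas n δ)] with x hx using li x hx

theorem ind_lim (F : (Fin n → ℂ) → ℝ) : ∀ᵐ x : Fin n → ℂ,
    Tendsto (fun δ => (SS n δ).indicator F x) (𝓝[>] 0) (𝓝 (F x)) := by
  filter_upwards [ae_inj n] with x hx
  refine tendsto_const_nhds.congr' ?_
  filter_upwards [ev_SS hx] with δ hδ
  exact (Set.indicator_of_mem hδ F).symm

theorem cut_lim (f : Fin n → ℂ → ℝ) (L : (Fin n → ℂ) → ℝ) {δ : ℝ} (hδ : 0 < δ) :
    ∀ᵐ x : Fin n → ℂ, Tendsto (fun η => (∏ i, f i (x i) * tr δ η (x i)) * L x) (𝓝[>] 0)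
      (𝓝 ((∏ i, f i (x i)) * L x)) := by
  filter_upwards [ae_tr_pi hδ n] with x hx
  refine tendsto_const_nhds.congr' ?_
  filter_upwards [hx] with η hη
  simp [hη]

theorem integ (fub : FUB) (ne : NEAR) (h : Fd μ φ) (hL : ∀ x, Function.Injective x → 0 ≤ L x ∧
    Tendsto (fun a => cr μ φ a x) (𝓝[>] 0) (𝓝 (L x))) (hR : 0 < R) {f : Fin n → ℂ → ℝ}
    (hf : ∀ i, Tf 0 R (f i)) : Integrable fun x : Fin n → ℂ => (∏ i, f i (x i)) * L x := by
  obtain ⟨⟨A, hA⟩, hN⟩ := ne Ω μ φ h n R hR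
  have hm := L_meas fub h hL
  have hg : ∀ i, Tf 0 R fun z => |f i z| := fun i =>
    ⟨continuous_abs.measurable.comp (hf i).meas, fun z => by simpa using (hf i).bd z,
      fun z hz => (hf i).sup z (abs_ne_zero.1 hz)⟩
  have key : Integrable fun x : Fin n → ℂ => (∏ i, |f i (x i)|) * L x := by
    refine (fatou (l := 𝓝[>] (0 : ℝ)) (C := A + 1)
      (u := fun δ => (SS n δ).indicator fun x => (∏ i, |f i (x i)|) * L x)
      (fun δ => ((pr_meas hg).aestronglyMeasurable.mul hm).indicator (SS_meas n δ)) ?_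
      (ind_lim _)).1
    filter_upwards [hN 1 one_pos, self_mem_nhdsWithin] with δ h1 hδ
    have h2 := fatou (ν := volume.restrict (SS n δ)) (l := 𝓝[>] (0 : ℝ)) (C := A + 1)
      (u := fun η x => (∏ i, |f i (x i)| * tr δ η (x i)) * L x)
      (v := fun x => (∏ i, |f i (x i)|) * L x)
      (fun η => ((pr_meas fun i => tf_cut (hg i) δ η).aestronglyMeasurable.mul hm).restrict) ?_
      (ae_restrict_of_ae (cut_lim (fun i z => |f i z|) L hδ))
    · refine ⟨(integrable_indicator_iff (SS_meas n δ)).2 h2.1, le_trans (le_of_eq ?_) h2.2⟩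
      rw [← integral_indicator (SS_meas n δ)]
      refine integral_congr_ae (Eventually.of_forall fun x => ?_)
      by_cases hx : x ∈ SS n δ <;> simp [hx]
    filter_upwards [self_mem_nhdsWithin] with η hη
    obtain ⟨d1, d2⟩ := dct fub h hL hR hg hδ hη
    refine ⟨d1, ?_⟩
    have e : ∫ x in SS n δ, |(∏ i, |f i (x i)| * tr δ η (x i)) * L x| =
        ∫ x in SS n δ, (∏ i, |f i (x i)| * tr δ η (x i)) * L x := by
      refine setIntegral_congr_fun (SS_meas n δ) fun x hx => abs_of_nonneg (mul_nonneg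
        (Finset.prod_nonneg fun i _ => mul_nonneg (abs_nonneg _) ?_)
        (hL x (Function.Injective.of_comp (f := bx δ) hx)).1)
      rcases tr_cases δ η (x i) with h | h <;> simp [h]
    rw [e]
    refine le_of_tendsto d2 ?_
    filter_upwards [self_mem_nhdsWithin] with a ha
    have b1 := abs_le.1 (hA a ha _ fun i => tf_cut (hg i) δ η)
    have b2 := abs_le.1 (h1 a ha _ fun i => tf_cut (hg i) δ η)
    have b3 := b2.1
    unfold SS
    linarith [b1.2]
  refine key.abs.mono' ((pr_meas hf).aestronglyMeasurable.mul hm) (Eventually.of_forall fun x => ?_)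
  simp only [Real.norm_eq_abs, abs_mul, Finset.abs_prod, abs_abs, Pi.abs_apply, le_refl]

theorem conv (fub : FUB) (sl : SML) (ne : NEAR) : CONV := by
  intro Ω _ μ φ h n L hL R hR f hf
  have hI := integ fub ne h hL hR hf
  refine ⟨hI, Metric.tendsto_nhds.2 fun ε hε => ?_⟩
  have h6 : 0 < ε / 6 := by positivity
  obtain ⟨θ, hθ, hS⟩ := sl Ω μ φ h n R hR _ h6
  have hm := L_meas fub h hL
  have t1 : Tendsto (fun δ => ∫ x, (SS n δ).indicator (fun x => (∏ i, f i (x i)) * L x) x)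
      (𝓝[>] 0) (𝓝 (∫ x : Fin n → ℂ, (∏ i, f i (x i)) * L x)) :=
    tendsto_integral_filter_of_dominated_convergence _
      (Eventually.of_forall fun δ => hI.1.indicator (SS_meas n δ))
      (Eventually.of_forall fun δ => Eventually.of_forall fun x => norm_indicator_le_norm_self _ _)
      hI.norm (ind_lim _)
  obtain ⟨δ, d1, d2, hδ⟩ := ((Metric.tendsto_nhds.1 t1 _ h6).and
    (((ne Ω μ φ h n R hR).2 _ h6).and self_mem_nhdsWithin)).exists
  replace hδ : 0 < δ := hδ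
  rw [integral_indicator (SS_meas n δ), Real.dist_eq] at d1
  have t2 : Tendsto (fun η => ∫ x in SS n δ, (∏ i, f i (x i) * tr δ η (x i)) * L x) (𝓝[>] 0)
      (𝓝 (∫ x in SS n δ, (∏ i, f i (x i)) * L x)) := by
    refine tendsto_integral_filter_of_dominated_convergence _ (Eventually.of_forall fun η =>
      ((pr_meas fun i => tf_cut (hf i) δ η).aestronglyMeasurable.mul hm).restrict)
      (Eventually.of_forall fun η => Eventually.of_forall fun x => ?_) hI.norm.restrict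
      (ae_restrict_of_ae (cut_lim f L hδ))
    simp only [Real.norm_eq_abs, abs_mul]
    exact mul_le_mul_of_nonneg_right (pr_cut_le δ η x) (abs_nonneg _)
  have t3 : ∀ i, ∀ᶠ η in 𝓝[>] (0 : ℝ), ∫ z, |f i z - f i z * tr δ η z| ≤ θ := by
    intro i
    have t : Tendsto (fun η => ∫ z, |f i z - f i z * tr δ η z|) (𝓝[>] 0)
        (𝓝 (∫ _ : ℂ, (0 : ℝ))) := by
      refine tendsto_integral_filter_of_dominated_convergence _ (Eventually.of_forall fun η =>
        (continuous_abs.measurable.comp (tf_rest (hf i) δ η).meas).aestronglyMeasurable)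
        (Eventually.of_forall fun η => Eventually.of_forall fun z => ?_)
        ((fub Ω μ φ h 1 one_pos).1 0 R _ (hf i)).2.1.norm ?_
      · rcases tr_cases δ η z with h | h <;> simp [h]
      · filter_upwards [ae_tr hδ] with z hz
        refine tendsto_const_nhds.congr' ?_
        filter_upwards [hz] with η hη
        simp [hη]
    rw [integral_zero] at t
    exact t.eventually (eventually_le_nhds hθ)
  obtain ⟨η, e1, e2, hη⟩ := ((Metric.tendsto_nhds.1 t2 _ h6).and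
    ((eventually_all.2 t3).and self_mem_nhdsWithin)).exists
  replace hη : 0 < η := hη
  rw [Real.dist_eq] at e1
  filter_upwards [hS, Metric.tendsto_nhds.1 (dct fub h hL hR hf hδ hη).2 _ h6,
    self_mem_nhdsWithin] with a a1 a2 ha
  have b1 := abs_le.1 (a1 f (fun i z => f i z * tr δ η z) hf (fun i => tf_cut (hf i) δ η)
    (fun i => tf_rest (hf i) δ η) e2)
  have b2 := abs_le.1 (d2 a ha (fun i z => f i z * tr δ η z) fun i => tf_cut (hf i) δ η)
  rw [(((fub Ω μ φ h a ha).2 n).2 0 R f hf).2] at b1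
  rw [Real.dist_eq] at a2 ⊢
  have b3 := abs_lt.1 a2
  have b4 := abs_lt.1 e1
  have b5 := abs_lt.1 d1
  unfold SS at b3 b4 b5
  refine abs_lt.2 ⟨?_, ?_⟩ <;> linarith [b1.1, b1.2, b2.1, b2.2, b3.1, b3.2, b4.1, b4.2, b5.1, b5.2]

end Vale.Agent.P144W.C13
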