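import Vale.Agent.P144W.Tst
import Vale.Agent.P144F58.Defs
import Vale.Agent.P144A.Stmt
import Vale.Agent.P144Z.U1.Zero

/-!
# P144W: the moments of the smeared spin field from the rows (helper14)
-/

set_option autoImplicit false
set_option linter.all false

noncomputable section

namespace Vale.Agent.P144W

open MeasureTheory Filter Topology Vale.Agent.P144 Vale.Agent.P144Z Vale.Agent.P144F58

theorem gl_cr (μ : Measure Config) (a : ℝ) {n : ℕ} (x : Fin n → ℂ) :
    corr a (famOf μ a) ⟨n, 0, x, ![], ![]⟩ =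
      cr μ (fun a x σ => a ^ (-(1 / 8) : ℝ) * sp (σ (fl a x))) a x := by
  simp [corr, famOf, cr]

theorem gl_good {n : ℕ} (hn : 0 < n) {x : Fin n → ℂ} (hx : Function.Injective x) :
    Good Set.univ ⟨n, 0, x, ![], ![]⟩ := by
  refine ⟨hn, fun _ => trivial, fun _ => trivial, ?_⟩
  rintro (i | i) (j | j) e
  · exact congrArg _ (hx e)
  all_goals first | exact i.elim0 | exact j.elim0

theorem mom_gl (cv : CONV) {J lam β Zσ Zε : ℝ} {V : Finset Site → ℝ} {μ : Measure Config}
    (hV : IsPotential V) (hμ : IsTorusState J lam V β μ)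
    (hF : Fd μ fun a x σ => a ^ (-(1 / 8) : ℝ) * sp (σ (fl a x))) (hZ : 0 < Zσ) {C : Pts → ℝ}
    (hL : ∀ p, Good Set.univ p → Lim (famOf μ) p (Zσ ^ p.n * Zε ^ p.m * C p))
    (hC : ∀ p, Good Set.univ p → p.m = 0 → Even p.n → 0 < C p) : Mom μ Zσ C := by
  intro n hn f hf
  obtain ⟨h1, h2⟩ := mom_test cv hF n (fun x => Zσ ^ n * C ⟨n, 0, x, ![], ![]⟩) (fun x hx => by
    have l := hL _ (gl_good hn hx)
    simp only [Lim, pow_zero, mul_one] at l
    refine ⟨?_, by simpa only [gl_cr] using l⟩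
    rcases Nat.even_or_odd n with e | e
    · exact (mul_pos (pow_pos hZ n) (hC _ (gl_good hn hx) rfl e)).le
    · have z : ∀ a, corr a (famOf μ a) ⟨n, 0, x, ![], ![]⟩ = 0 := fun a =>
        tendsto_nhds_unique (U1.state_corr hμ a _) (by
          simp only [fun M => U1.corr_odd hV J lam β M a (p := ⟨n, 0, x, ![], ![]⟩) e]
          exact tendsto_const_nhds)
      simp only [z] at l
      exact (tendsto_nhds_unique tendsto_const_nhds l).le) f hf
  refine ⟨(h1.const_mul (Zσ ^ n)⁻¹).congr (ae_of_all _ fun x => ?_), ?_⟩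
  · have := (pow_pos hZ n).ne'
    field_simp
  · rw [← integral_const_mul]
    simp only [mul_left_comm (Zσ ^ n)]
    exact h2

theorem loc_self (μ : Measure Config) : LocDiff Set.univ (famOf μ) (famOf μ) 1 1 := by
  intro n m j
  simp only [one_pow, one_mul, sub_self]
  exact fun u hu x _ => ⟨Set.univ, univ_mem, Eventually.of_forall fun _ _ _ => refl_mem_uniformity hu⟩

theorem fam_self {J : ℝ} {μ : Measure Config} (h : IsPlaneState J 0 (fun _ => 0) (Kc / J) μ) :
    PlaneFam J 0 (fun _ => 0) (Kc / J) (famOf μ) := ⟨fun _ => μ, fun _ _ => h, fun _ _ => rfl⟩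

end Vale.Agent.P144W
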