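import Mathlib.MeasureTheory.Measure.Prokhorov
import Mathlib.MeasureTheory.Measure.HasOuterApproxClosed
import Mathlib.Analysis.Normed.Lp.lpSpace
import Mathlib.Analysis.InnerProductSpace.PiL2
import Mathlib.MeasureTheory.Constructions.BorelSpace.Metrizable
import Mathlib.MeasureTheory.Integral.DominatedConvergence
import Mathlib.Analysis.Normed.Group.Tannery

/-!
# P144W: convergence in law in the space of square summable sequences
-/

set_option autoImplicit false
set_option linter.all false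

noncomputable section

namespace Vale.Agent.P144W.L2

open MeasureTheory Filter Topology Metric

theorem tight_of {H : Type} [MetricSpace H] [CompleteSpace H] [MeasurableSpace H]
    (S : Set (Measure H)) (h : ∀ ε > (0 : ℝ), ∀ η > (0 : ℝ), ∃ K : Set H, IsCompact K ∧
      ∀ μ ∈ S, μ (cthickening ε K)ᶜ ≤ ENNReal.ofReal η) : IsTightMeasureSet S := by
  rw [isTightMeasureSet_iff_exists_isCompact_measure_compl_le]
  intro η hη
  obtain ⟨u, u0, hu⟩ := ENNReal.exists_pos_sum_of_countable hη.ne' ℕ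
  choose K hK hS using fun j : ℕ => h (1 / ((j : ℝ) + 1)) (by positivity) (u j) (u0 j)
  refine ⟨⋂ j : ℕ, cthickening (1 / ((j : ℝ) + 1)) (K j), ?_, fun μ hμ => ?_⟩
  · refine TotallyBounded.isCompact_of_isClosed (Metric.totallyBounded_iff.2 fun ε hε => ?_)
      (isClosed_iInter fun j => isClosed_cthickening)
    obtain ⟨j, hj⟩ := exists_nat_one_div_lt (half_pos hε)
    obtain ⟨t, ht, hc⟩ := Metric.totallyBounded_iff.1 (hK j).totallyBounded _ (half_pos hε)
    refine ⟨t, ht, fun x hx => ?_⟩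
    have h1 := Set.mem_iInter.1 hx j
    rw [(hK j).cthickening_eq_biUnion_closedBall (by positivity)] at h1
    obtain ⟨y, hy, h2⟩ := Set.mem_iUnion₂.1 h1
    obtain ⟨z, hz, h3⟩ := Set.mem_iUnion₂.1 (hc hy)
    refine Set.mem_iUnion₂.2 ⟨z, hz, ?_⟩
    rw [mem_ball] at h3 ⊢
    rw [mem_closedBall] at h2
    linarith [dist_triangle x y z]
  · rw [Set.compl_iInter]
    refine (measure_iUnion_le _).trans (le_trans (ENNReal.tsum_le_tsum fun j => ?_) hu.le)
    simpa only [ENNReal.ofReal_coe_nnreal] using hS j μ hμ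

/-- square summable real sequences -/
abbrev H : Type := lp (fun _ : ℕ => ℝ) 2

/-- finitely supported sequences -/
def T (N : ℕ) (y : Fin N → ℝ) : H := ∑ i : Fin N, lp.single 2 (i : ℕ) (y i)

theorem T_cont (N : ℕ) : Continuous (T N) :=
  continuous_finsetSum _ fun i _ =>
    (lp.isometry_single (E := fun _ : ℕ => ℝ) (p := 2) (i : ℕ)).continuous.comp (continuous_apply i)

theorem T_eq (N : ℕ) (x : H) :
    T N (fun i => x i) = ∑ i ∈ Finset.range N, lp.single 2 i (x i) :=
  (Finset.sum_range fun i => (lp.single 2 i (x i) : H)).symm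

theorem T_lim (x : H) : Tendsto (fun N => T N fun i => x i) atTop (𝓝 x) := by
  simp only [T_eq]
  exact (lp.hasSum_single (by simp) x).tendsto_sum_nat

theorem T_sub (N : ℕ) (x : H) (k : ℕ) :
    (x - T N fun i => x i) k = if k < N then 0 else x k := by
  rw [T_eq, lp.coeFn_sub, Pi.sub_apply, lp.coeFn_sum, Finset.sum_apply]
  simp only [lp.single_apply, Pi.single_apply, Finset.sum_ite_eq, Finset.mem_range]
  split_ifs <;> simp

theorem ev_cont (k : ℕ) : Continuous fun x : H => x k :=
  (continuous_apply k).comp lp.uniformContinuous_coe.continuous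

theorem norm_sq (x : H) : HasSum (fun k => x k ^ 2) (‖x‖ ^ 2) := by
  simpa using lp.hasSum_norm (p := 2) (by norm_num) x

theorem markov {Ω : Type} [MeasurableSpace Ω] (μ : Measure Ω) [IsProbabilityMeasure μ]
    {S : ℕ → Ω → ℝ} (hm : ∀ k, Measurable (S k)) {B A : ℝ} (hA : 0 ≤ A) (hb : ∀ k ω, |S k ω| ≤ B)
    (h2 : ∀ k, ∫ ω, S k ω ^ 2 ∂μ ≤ A) {v : ℕ → ℝ} (hv : Summable fun k => v k ^ 2) {Y : Ω → H}
    (hY : ∀ ω k, Y ω k = v k * S k ω) {r : ℝ} (hr : 0 < r) :
    μ {ω | r ≤ ‖Y ω‖} ≤ ENNReal.ofReal ((∑' k, v k ^ 2) * A / r ^ 2) := by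
  have mk : ∀ k, Measurable fun ω => ENNReal.ofReal ((v k * S k ω) ^ 2) := fun k =>
    (((hm k).const_mul _).pow_const 2).ennreal_ofReal
  have h1 : μ {ω | r ≤ ‖Y ω‖} ≤
      μ {ω | ENNReal.ofReal (r ^ 2) ≤ ∑' k, ENNReal.ofReal ((v k * S k ω) ^ 2)} := by
    refine measure_mono fun ω hω => ?_
    have h3 := norm_sq (Y ω)
    simp only [hY] at h3
    rw [Set.mem_setOf_eq, ← ENNReal.ofReal_tsum_of_nonneg (fun _ => sq_nonneg _) h3.summable,
      h3.tsum_eq]
    exact ENNReal.ofReal_le_ofReal (pow_le_pow_left₀ hr.le hω 2)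
  refine h1.trans ((meas_ge_le_lintegral_div (Measurable.ennreal_tsum mk).aemeasurable
    (by simpa using hr.ne') ENNReal.ofReal_ne_top).trans ?_)
  rw [ENNReal.ofReal_div_of_pos (by positivity)]
  refine ENNReal.div_le_div_right ?_ _
  rw [lintegral_tsum fun k => (mk k).aemeasurable, ← tsum_mul_right,
    ENNReal.ofReal_tsum_of_nonneg (fun _ => by positivity) (hv.mul_right A)]
  refine ENNReal.tsum_le_tsum fun k => ?_
  have i2 : Integrable (fun ω => S k ω ^ 2) μ :=
    Integrable.of_bound ((hm k).pow_const 2).aestronglyMeasurable (B ^ 2)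
      (Eventually.of_forall fun ω => by
        rw [Real.norm_eq_abs, abs_pow]
        exact pow_le_pow_left₀ (abs_nonneg _) (hb k ω) 2)
  simp only [mul_pow]
  rw [← ofReal_integral_eq_lintegral_ofReal (i2.const_mul _)
    (Eventually.of_forall fun ω => by positivity), integral_const_mul]
  exact ENNReal.ofReal_le_ofReal (mul_le_mul_of_nonneg_left (h2 k) (sq_nonneg _))

theorem l2law {Ω α : Type} [MeasurableSpace Ω] (μ : Measure Ω) [IsProbabilityMeasure μ]
    (l : Filter α) [l.NeBot] (S : α → ℕ → Ω → ℝ) (hm : ∀ a k, Measurable (S a k))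
    (hb : ∀ a, ∃ B, ∀ k ω, |S a k ω| ≤ B) {A : ℝ} (hA : 0 ≤ A)
    (h2 : ∀ a k, ∫ ω, S a k ω ^ 2 ∂μ ≤ A) {w : ℕ → ℝ} (hw : Summable fun k => w k ^ 2)
    (hl : ∀ (N : ℕ) (F : BoundedContinuousFunction (EuclideanSpace ℝ (Fin N)) ℝ), ∃ c,
      Tendsto (fun a => ∫ ω, F (WithLp.toLp 2 fun i : Fin N => S a i ω) ∂μ) l (𝓝 c))
    [MeasurableSpace H] [BorelSpace H] :
    ∃ X : α → Ω → H, (∀ a, Measurable (X a) ∧ ∀ ω k, X a ω k = w k * S a k ω) ∧
      ∃ ν : Measure H, IsProbabilityMeasure ν ∧ ∀ F : BoundedContinuousFunction H ℝ,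
        Tendsto (fun a => ∫ ω, F (X a ω) ∂μ) l (𝓝 (∫ y, F y ∂ν)) := by
  choose B hB using hb
  have mem : ∀ a ω, Memℓp (fun k => w k * S a k ω) 2 := fun a ω => memℓp_gen (by
    have : Summable fun k => (w k * S a k ω) ^ 2 :=
      Summable.of_nonneg_of_le (fun _ => sq_nonneg _) (fun k => by
        rw [mul_pow]
        refine mul_le_mul_of_nonneg_left ?_ (sq_nonneg _)
        rw [← sq_abs]
        exact pow_le_pow_left₀ (abs_nonneg _) (hB a k ω) 2) (hw.mul_right (B a ^ 2))
    simpa [mul_pow] using this)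
  obtain ⟨X, hX⟩ : ∃ X : α → Ω → H, ∀ a ω k, X a ω k = w k * S a k ω :=
    ⟨fun a ω => ⟨_, mem a ω⟩, fun _ _ _ => rfl⟩
  have mX : ∀ a, Measurable (X a) := fun a =>
    measurable_of_tendsto_metrizable (f := fun N ω => T N fun i => X a ω i)
      (fun N => (T_cont N).measurable.comp (measurable_pi_lambda _ fun i => by
        simp only [hX]
        exact (hm a i).const_mul _)) (tendsto_pi_nhds.2 fun ω => T_lim _)
  let ρ : α → ProbabilityMeasure H := fun a =>
    ⟨μ.map (X a), Measure.isProbabilityMeasure_map (mX a).aemeasurable⟩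
  have hρ : ∀ a (F : BoundedContinuousFunction H ℝ), ∫ y, F y ∂(ρ a) = ∫ ω, F (X a ω) ∂μ :=
    fun a F => integral_map (mX a).aemeasurable F.continuous.measurable.aestronglyMeasurable
  have hK : IsCompact (closure (Set.range ρ)) := by
    refine isCompact_closure_of_isTightMeasureSet (tight_of _ fun ε hε η hη => ?_)
    have t1 : Tendsto (fun N : ℕ => (∑' k, (if k < N then 0 else w k) ^ 2) * A / ε ^ 2) atTop
        (𝓝 ((∑' k : ℕ, (0 : ℝ)) * A / ε ^ 2)) := by
      refine ((tendsto_tsum_of_dominated_convergence hw (fun k => ?_)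
        (Eventually.of_forall fun N k => ?_)).mul_const A).div_const _
      · refine tendsto_const_nhds.congr' ?_
        filter_upwards [eventually_gt_atTop k] with N hN
        simp [hN]
      · split_ifs <;> simp [sq_nonneg]
    simp only [tsum_zero, zero_mul, zero_div] at t1
    obtain ⟨N, hN⟩ := (t1.eventually (gt_mem_nhds (half_pos hη))).exists
    have t2 : Tendsto (fun M : ℝ => (∑' k, w k ^ 2) * A / M ^ 2) atTop (𝓝 0) :=
      (tendsto_pow_atTop two_ne_zero).const_div_atTop _
    obtain ⟨M, hM, M0⟩ := ((t2.eventually (gt_mem_nhds (half_pos hη))).and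
      (eventually_gt_atTop 0)).exists
    refine ⟨T N '' closedBall 0 M, (isCompact_closedBall _ _).image (T_cont N), ?_⟩
    rintro _ ⟨_, ⟨a, rfl⟩, rfl⟩
    show μ.map (X a) _ ≤ _
    rw [Measure.map_apply (mX a) isClosed_cthickening.measurableSet.compl]
    have sv : Summable fun k => (if k < N then 0 else w k) ^ 2 :=
      Summable.of_nonneg_of_le (fun _ => sq_nonneg _)
        (fun k => by split_ifs <;> simp [sq_nonneg]) hw
    have m1 := markov μ (hm a) hA (hB a) (h2 a) hw (hX a) M0
    have m2 := markov μ (hm a) hA (hB a) (h2 a) sv (Y := fun ω => X a ω - T N fun i => X a ω i)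
      (fun ω k => by rw [T_sub, hX, ite_mul, zero_mul]) hε
    refine le_trans (measure_mono (t := {ω | M ≤ ‖X a ω‖} ∪
      {ω | ε ≤ ‖X a ω - T N fun i => X a ω i‖}) fun ω hω => ?_) ((measure_union_le _ _).trans ?_)
    · by_contra hc
      simp only [Set.mem_union, Set.mem_setOf_eq, not_or, not_le] at hc
      refine hω (mem_cthickening_of_dist_le _ (T N fun i => X a ω i) _ _ ⟨_, ?_, rfl⟩ ?_)
      · rw [mem_closedBall_zero_iff, pi_norm_le_iff_of_nonneg M0.le]
        exact fun i => (lp.norm_apply_le_norm (by simp) (X a ω) i).trans hc.1.le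
      · rw [dist_eq_norm]
        exact hc.2.le
    · rw [← add_halves η, ENNReal.ofReal_add (half_pos hη).le (half_pos hη).le]
      exact add_le_add (m1.trans (ENNReal.ofReal_le_ofReal hM.le))
        (m2.trans (ENNReal.ofReal_le_ofReal hN.le))
  have hmem : ∀ᶠ a in l, ρ a ∈ closure (Set.range ρ) :=
    Eventually.of_forall fun a => subset_closure ⟨a, rfl⟩
  obtain ⟨ν, -, hν⟩ := hK.exists_mapClusterPt (f := l) (u := ρ) (le_principal_iff.2 hmem)
  have cQ : ∀ N : ℕ, Continuous fun x : H => T N fun i => x i := fun N =>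
    (T_cont N).comp (continuous_pi fun i => ev_cont i)
  have un : ∀ ν' : ProbabilityMeasure H, MapClusterPt ν' l ρ → ν' = ν := by
    intro ν' hν'
    refine ProbabilityMeasure.toMeasure_injective
      (ext_of_forall_integral_eq_of_IsFiniteMeasure fun F => ?_)
    have lim : ∀ τ : ProbabilityMeasure H,
        Tendsto (fun N => ∫ y : H, F (T N fun i => y i) ∂τ) atTop (𝓝 (∫ y, F y ∂τ)) := fun τ =>
      tendsto_integral_of_dominated_convergence (fun _ => ‖F‖)
        (fun N => (F.continuous.comp (cQ N)).measurable.aestronglyMeasurable) (integrable_const _)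
        (fun N => Eventually.of_forall fun y => F.norm_coe_le_norm _)
        (Eventually.of_forall fun y => (F.continuous.tendsto y).comp (T_lim y))
    refine tendsto_nhds_unique (lim ν') ((lim ν).congr fun N => ?_)
    obtain ⟨c, hc⟩ := hl N (F.compContinuous ⟨fun y => T N fun i => w i * y i,
      (T_cont N).comp (by fun_prop)⟩)
    have key : ∀ τ : ProbabilityMeasure H, MapClusterPt τ l ρ →
        ∫ y : H, F (T N fun i => y i) ∂τ = c := by
      intro τ hτ
      have cg := ProbabilityMeasure.continuous_integral_boundedContinuousFunction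
        (F.compContinuous ⟨_, cQ N⟩)
      have : (𝓝 τ ⊓ map ρ l).NeBot := hτ
      refine tendsto_nhds_unique (l := 𝓝 τ ⊓ map ρ l) ((cg.tendsto τ).mono_left inf_le_left)
        (Tendsto.mono_left (tendsto_map'_iff.2 (hc.congr fun a => ?_)) inf_le_right)
      rw [Function.comp_apply, hρ]
      simp only [BoundedContinuousFunction.compContinuous_apply, ContinuousMap.coe_mk, hX]
    rw [key ν hν, key ν' hν']
  refine ⟨X, fun a => ⟨mX a, hX a⟩, ν, inferInstance, fun F => ?_⟩
  simp only [← hρ]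
  exact ProbabilityMeasure.tendsto_iff_forall_integral_tendsto.1
    (hK.tendsto_nhds_of_unique_mapClusterPt hmem fun x _ hx => un x hx) F

end Vale.Agent.P144W.L2
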