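import Mathlib.Analysis.InnerProductSpace.l2Space
import Mathlib.MeasureTheory.Measure.Tight
import Mathlib.MeasureTheory.Integral.Lebesgue.Markov
import Mathlib.MeasureTheory.Constructions.BorelSpace.Real
import Mathlib.MeasureTheory.Constructions.BorelSpace.Metric
import Mathlib.Topology.Algebra.Module.Basic

/-!
# P144W: tightness in the space of square-summable sequences (helper14)
-/

set_option autoImplicit false
set_option linter.all false

noncomputable section

namespace Vale.Agent.P144W.Lt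

open MeasureTheory Filter Topology Set
open scoped ENNReal NNReal

abbrev E := lp (fun _ : ℕ => ℝ) 2

theorem sc : SecondCountableTopology E := by
  have h : TopologicalSpace.IsSeparable
      (Set.range fun k : ℕ => (lp.single 2 k (1 : ℝ) : E)) := (Set.countable_range _).isSeparable
  have h2 := (h.span (R := ℝ)).closure
  have : TopologicalSpace.SeparableSpace E := by
    refine TopologicalSpace.isSeparable_univ_iff.1 (h2.mono fun x _ => ?_)
    refine mem_closure_of_tendsto (lp.hasSum_single (by simp) x) (Eventually.of_forall fun s => ?_)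
    refine Submodule.sum_mem _ fun k _ => ?_
    have : (lp.single 2 k (x k) : E) = x k • (lp.single 2 k (1 : ℝ) : E) := by
      rw [← lp.single_smul, smul_eq_mul, mul_one]
    rw [this]
    exact Submodule.smul_mem _ _ (Submodule.subset_span ⟨k, rfl⟩)
  exact UniformSpace.secondCountable_of_separable E

def Q (N : ℕ) (y : Fin N → ℝ) : E := ∑ k : Fin N, lp.single 2 (k : ℕ) (y k)

theorem Q_cont (N : ℕ) : Continuous (Q N) :=
  continuous_finset_sum _ fun k _ =>
    (lp.isometry_single (E := fun _ : ℕ => ℝ) (p := 2) (k : ℕ)).continuous.comp (continuous_apply k)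

theorem ev_cont (k : ℕ) : Continuous fun x : E => x k :=
  (continuous_apply k).comp (lp.uniformContinuous_coe (E := fun _ : ℕ => ℝ) (p := 2)).continuous

def P (N : ℕ) (x : E) : E := Q N fun k => x k

theorem P_cont (N : ℕ) : Continuous (P N) :=
  (Q_cont N).comp (continuous_pi fun k => ev_cont k)

theorem P_apply (N : ℕ) (x : E) (k : ℕ) : P N x k = if k < N then x k else 0 := by
  simp only [P, Q, lp.coeFn_sum, Finset.sum_apply, lp.single_apply]
  split_ifs with h
  · rw [Finset.sum_eq_single (⟨k, h⟩ : Fin N)]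
    · simp
    · intro j _ hj
      exact Pi.single_eq_of_ne (fun e => hj (Fin.ext e.symm)) _
    · simp
  · exact Finset.sum_eq_zero fun j _ =>
      Pi.single_eq_of_ne (fun e : k = (j : ℕ) => h (e ▸ j.2)) _

theorem cpt (M : ℝ) (N : ℕ → ℕ) :
    IsCompact {x : E | ‖x‖ ≤ M ∧ ∀ j, ‖x - P (N j) x‖ ≤ 1 / ((j : ℝ) + 1)} := by
  refine isCompact_iff_totallyBounded_isComplete.2 ⟨?_, IsClosed.isComplete ?_⟩
  · refine Metric.totallyBounded_iff.2 fun ε hε => ?_
    obtain ⟨j, hj⟩ := exists_nat_one_div_lt (half_pos hε)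
    obtain ⟨t, ht, h⟩ := Metric.totallyBounded_iff.1
      ((isCompact_closedBall (0 : Fin (N j) → ℝ) |M|).image (Q_cont (N j))).totallyBounded _
      (half_pos hε)
    refine ⟨t, ht, fun x hx => ?_⟩
    have h1 : P (N j) x ∈ Q (N j) '' Metric.closedBall (0 : Fin (N j) → ℝ) |M| :=
      ⟨_, mem_closedBall_zero_iff.2 ((pi_norm_le_iff_of_nonneg (abs_nonneg M)).2 fun k =>
        (lp.norm_apply_le_norm (by simp) x k).trans (hx.1.trans (le_abs_self M))), rfl⟩
    obtain ⟨y, hy, h2⟩ := Set.mem_iUnion₂.1 (h h1)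
    refine Set.mem_iUnion₂.2 ⟨y, hy, ?_⟩
    have h3 := hx.2 j
    rw [← dist_eq_norm] at h3
    have h4 := dist_triangle x (P (N j) x) y
    rw [Metric.mem_ball] at h2 ⊢
    linarith
  · simp only [Set.setOf_and, Set.setOf_forall]
    exact (isClosed_le continuous_norm continuous_const).inter (isClosed_iInter fun j =>
      isClosed_le (continuous_id.sub (P_cont _)).norm continuous_const)

theorem norm_sq (x : E) : ENNReal.ofReal (‖x‖ ^ 2) = ∑' k, ENNReal.ofReal (x k ^ 2) := by
  have h := lp.hasSum_norm (p := 2) (by simp) x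
  simp only [ENNReal.toReal_ofNat, Real.rpow_ofNat, Real.norm_eq_abs, sq_abs] at h
  rw [← h.tsum_eq, ENNReal.ofReal_tsum_of_nonneg (fun k => sq_nonneg _) h.summable]

variable [MeasurableSpace E] [BorelSpace E]

theorem markov (μ : Measure E) (b : ℕ → ℝ) (hb : Summable b) (h0 : ∀ k, 0 ≤ b k)
    (h : ∀ k, ∫⁻ x, ENNReal.ofReal (x k ^ 2) ∂μ ≤ ENNReal.ofReal (b k)) (N : ℕ) {t δ : ℝ}
    (ht : 0 < t) (hδ : ∑' k, b (k + N) ≤ δ * t ^ 2) :
    μ {x | t < ‖x - P N x‖} ≤ ENNReal.ofReal δ := by
  have hm : ∀ k, Measurable fun x : E => ENNReal.ofReal ((x - P N x) k ^ 2) := fun k =>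
    (((ev_cont k).comp (continuous_id.sub (P_cont N))).pow 2).measurable.ennreal_ofReal
  have hs : Summable fun k => if k < N then 0 else b k :=
    hb.of_nonneg_of_le (fun k => by split_ifs <;> simp [h0]) fun k => by split_ifs <;> simp [h0]
  have h1 : ∫⁻ x, ENNReal.ofReal (‖x - P N x‖ ^ 2) ∂μ ≤ ENNReal.ofReal (δ * t ^ 2) := by
    simp only [norm_sq]
    rw [lintegral_tsum fun k => (hm k).aemeasurable]
    refine le_trans (ENNReal.tsum_le_tsum (g := fun k => ENNReal.ofReal
      (if k < N then 0 else b k)) fun k => ?_) ?_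
    · simp only [lp.coeFn_sub, Pi.sub_apply, P_apply]
      split_ifs
      · simp
      · simpa using h k
    · rw [← ENNReal.ofReal_tsum_of_nonneg (fun k => by split_ifs <;> simp [h0]) hs]
      refine ENNReal.ofReal_le_ofReal (le_trans (le_of_eq ?_) hδ)
      rw [← hs.sum_add_tsum_nat_add N, Finset.sum_eq_zero fun k hk =>
        if_pos (Finset.mem_range.1 hk), zero_add]
      exact tsum_congr fun k => if_neg (by omega)
  have h2 := mul_meas_ge_le_lintegral (μ := μ)
    (f := fun x : E => ENNReal.ofReal (‖x - P N x‖ ^ 2))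
    ((continuous_id.sub (P_cont N)).norm.pow 2).measurable.ennreal_ofReal (ENNReal.ofReal (t ^ 2))
  have h3 : μ {x | t < ‖x - P N x‖} ≤
      μ {x | ENNReal.ofReal (t ^ 2) ≤ ENNReal.ofReal (‖x - P N x‖ ^ 2)} :=
    measure_mono fun x hx => ENNReal.ofReal_le_ofReal (pow_le_pow_left₀ ht.le (le_of_lt hx) 2)
  refine h3.trans ?_
  have h4 := h2.trans h1
  rw [mul_comm δ, ENNReal.ofReal_mul (sq_nonneg t)] at h4
  exact (ENNReal.mul_le_mul_iff_right (ENNReal.ofReal_pos.2 (by positivity)).ne'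
    ENNReal.ofReal_ne_top).1 h4

theorem tight {ι : Type*} (μ : ι → Measure E) (b : ℕ → ℝ) (hb : Summable b) (h0 : ∀ k, 0 ≤ b k)
    (h : ∀ i k, ∫⁻ x, ENNReal.ofReal (x k ^ 2) ∂μ i ≤ ENNReal.ofReal (b k)) :
    IsTightMeasureSet (Set.range μ) := by
  refine isTightMeasureSet_iff_exists_isCompact_measure_compl_le.2 fun ε hε => ?_
  obtain ⟨d, hd, hs⟩ := ENNReal.exists_pos_sum_of_countable hε.ne' ℕ
  have hN : ∀ j : ℕ, ∃ N, ∑' k, b (k + N) ≤ (d (j + 1) : ℝ) * (1 / ((j : ℝ) + 1)) ^ 2 := fun j =>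
    ((tendsto_sum_nat_add b).eventually (ge_mem_nhds (by
      have : (0 : ℝ) < d (j + 1) := hd _
      positivity))).exists
  choose N hN using hN
  have d0 : (0 : ℝ) < d 0 := hd 0
  have hB : 0 ≤ ∑' k, b k := tsum_nonneg h0
  refine ⟨_, cpt ((∑' k, b k) / d 0 + 1) N, ?_⟩
  rintro _ ⟨i, rfl⟩
  have e0 : ∀ x : E, P 0 x = 0 := fun x => by simp [P, Q]
  have a0 := markov (μ i) b hb h0 (h i) 0 (t := (∑' k, b k) / d 0 + 1) (δ := d 0) (by positivity)
    (by
      simp only [add_zero]
      have h1 : (∑' k, b k) = d 0 * ((∑' k, b k) / d 0) := by field_simp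
      have h2 : 0 ≤ (∑' k, b k) / d 0 := by positivity
      generalize (∑' k, b k) / d 0 = u at *
      rw [h1]
      exact mul_le_mul_of_nonneg_left (by nlinarith) d0.le)
  simp only [e0, sub_zero] at a0
  have a1 := fun j : ℕ => markov (μ i) b hb h0 (h i) (N j) (by positivity) (hN j)
  simp only [ENNReal.ofReal_coe_nnreal] at a0 a1
  refine le_trans ?_ hs.le
  rw [tsum_eq_zero_add' ENNReal.summable]
  refine le_trans (measure_mono (t := {x : E | (∑' k, b k) / d 0 + 1 < ‖x‖} ∪
    ⋃ j : ℕ, {x : E | 1 / ((j : ℝ) + 1) < ‖x - P (N j) x‖}) fun x hx => ?_)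
    ((measure_union_le _ _).trans (add_le_add a0
      ((measure_iUnion_le _).trans (ENNReal.tsum_le_tsum a1))))
  by_contra hc
  simp only [Set.mem_union, Set.mem_iUnion, Set.mem_setOf_eq, not_or, not_exists, not_lt] at hc
  exact hx hc

end Vale.Agent.P144W.Lt
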