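import Vale.Agent.P144W.St
import Mathlib.Algebra.Order.Chebyshev
import Mathlib.MeasureTheory.Function.Floor

/-!
# P144W: row NEAR, spare proof (helper95)
-/

set_option autoImplicit false
set_option linter.all false

noncomputable section

namespace Vale.Agent.P144W.N2

open MeasureTheory Filter Topology Metric

variable {Ω : Type} [MeasurableSpace Ω]

/-- bounded measurable functions -/
def BM (F : Ω → ℝ) : Prop := Measurable F ∧ ∃ C, ∀ ω, |F ω| ≤ C

theorem BM.int {μ : Measure Ω} [IsProbabilityMeasure μ] {F : Ω → ℝ} (h : BM F) :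
    Integrable F μ := by
  obtain ⟨h1, C, h2⟩ := h
  exact Integrable.of_bound h1.aestronglyMeasurable C (ae_of_all _ h2)

theorem BM.const (c : ℝ) : BM (fun _ : Ω => c) := ⟨measurable_const, |c|, fun _ => le_rfl⟩

theorem BM.mul {F G : Ω → ℝ} (h : BM F) (h' : BM G) : BM fun ω => F ω * G ω := by
  obtain ⟨h1, C, h2⟩ := h
  obtain ⟨h3, D, h4⟩ := h'
  refine ⟨h1.mul h3, C * D, fun ω => ?_⟩
  rw [abs_mul]
  exact mul_le_mul (h2 ω) (h4 ω) (abs_nonneg _) ((abs_nonneg _).trans (h2 ω))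

theorem BM.prod {ι : Type} (s : Finset ι) {F : ι → Ω → ℝ} (h : ∀ i, BM (F i)) :
    BM fun ω => ∏ i ∈ s, F i ω := by
  classical
  induction s using Finset.induction_on with
  | empty => simpa using BM.const (Ω := Ω) 1
  | insert i s hi ih =>
    simp only [Finset.prod_insert hi]
    exact (h i).mul ih

theorem BM.pow {F : Ω → ℝ} (h : BM F) (k : ℕ) : BM fun ω => F ω ^ k := by
  simpa using BM.prod (Finset.range k) (F := fun _ => F) fun _ => h

theorem exists_t {ι : Type} [Fintype ι] (u : ι → ℝ) (hu : ∀ i, 0 ≤ u i) (n : ℕ) :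
    ∃ t, 0 ≤ t ∧ (∀ i, u i ≤ t) ∧ t ^ n ≤ 1 + ∑ i, u i ^ (2 * n) := by
  have h0 : 0 ≤ ∑ i, u i ^ (2 * n) := Finset.sum_nonneg fun i _ => pow_nonneg (hu i) _
  rcases isEmpty_or_nonempty ι with h | h
  · refine ⟨0, le_rfl, fun i => h.elim i, ?_⟩
    have : (0 : ℝ) ^ n ≤ 1 := pow_le_one₀ le_rfl zero_le_one
    linarith
  · obtain ⟨i, hi⟩ := Finite.exists_max u
    refine ⟨u i, hu i, hi, ?_⟩
    have h1 : u i ^ (2 * n) ≤ ∑ i, u i ^ (2 * n) :=
      Finset.single_le_sum (f := fun i => u i ^ (2 * n)) (fun i _ => pow_nonneg (hu i) _)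
        (Finset.mem_univ i)
    have h2 : u i ^ (2 * n) = (u i ^ n) ^ 2 := by ring
    nlinarith [sq_nonneg (u i ^ n - 1), pow_nonneg (hu i) n]

theorem pw {ι : Type} [Fintype ι] {n : ℕ} (hn : 0 < n) (f : ι → ℝ) (hf : ∀ i, 0 ≤ f i) :
    (∑ i, f i) ^ n ≤ (Fintype.card ι : ℝ) ^ (n - 1) * ∑ i, f i ^ n := by
  obtain ⟨k, rfl⟩ : ∃ k, n = k + 1 := ⟨n - 1, by omega⟩
  simpa using pow_sum_le_card_mul_sum_pow (s := Finset.univ) (f := f) (fun i _ => hf i) k

theorem qb {ι : Type} [Fintype ι] {n : ℕ} (hn : 0 < n) (y : ι → ℝ) {lam : ℝ} (hl : 0 < lam) :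
    (√(∑ w, y w ^ 2) / lam) ^ (2 * n) ≤
      (Fintype.card ι : ℝ) ^ (n - 1) / lam ^ (2 * n) * ∑ w, y w ^ (2 * n) := by
  have h3 : 0 ≤ ∑ w, y w ^ 2 := Finset.sum_nonneg fun w _ => sq_nonneg _
  rw [div_pow, pow_mul, Real.sq_sqrt h3, div_mul_eq_mul_div]
  refine div_le_div_of_nonneg_right ?_ (by positivity)
  simpa only [← pow_mul] using pw hn (fun w => y w ^ 2) fun w => sq_nonneg _

theorem bx_meas (δ : ℝ) : Measurable (bx δ) := by
  unfold bx
  exact (Complex.measurable_re.div_const δ).floor.prodMk (Complex.measurable_im.div_const δ).floor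

/-- the boxes -/
def Bs (R δ : ℝ) : Finset (ℤ × ℤ) :=
  Finset.Icc (-⌈R / δ⌉) ⌈R / δ⌉ ×ˢ Finset.Icc (-⌈R / δ⌉) ⌈R / δ⌉

theorem fl_mem {R δ u : ℝ} (hδ : 0 < δ) (hu : |u| ≤ R) :
    ⌊u / δ⌋ ∈ Finset.Icc (-⌈R / δ⌉) ⌈R / δ⌉ := by
  obtain ⟨h1, h2⟩ := abs_le.1 hu
  have h3 : u / δ ≤ R / δ := by gcongr
  have h4 : -(R / δ) ≤ u / δ := by rw [← neg_div]; gcongr
  rw [Finset.mem_Icc]
  constructor
  · rw [← Int.floor_neg]
    exact Int.floor_mono h4
  · exact (Int.floor_mono h3).trans (Int.floor_le_ceil _)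

theorem bx_mem {R δ : ℝ} (hδ : 0 < δ) {x : ℂ} (hx : x ∈ ball (0 : ℂ) R) : bx δ x ∈ Bs R δ := by
  have h : ‖x‖ ≤ R := (mem_ball_zero_iff.1 hx).le
  exact Finset.mem_product.2 ⟨fl_mem hδ ((Complex.abs_re_le_norm x).trans h),
    fl_mem hδ ((Complex.abs_im_le_norm x).trans h)⟩

theorem card_Bs {R δ : ℝ} (hR : 0 < R) (hδ : 0 < δ) (hδ1 : δ ≤ 1) :
    (Fintype.card (Bs R δ) : ℝ) * δ ^ 2 ≤ (2 * R + 3) ^ 2 := by
  have h0 : 0 ≤ ⌈R / δ⌉ := Int.ceil_nonneg (by positivity)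
  have h1 : (⌈R / δ⌉ : ℝ) ≤ R / δ + 1 := (Int.ceil_lt_add_one _).le
  have h2 : (((Finset.Icc (-⌈R / δ⌉) ⌈R / δ⌉).card : ℕ) : ℝ) = 2 * (⌈R / δ⌉ : ℝ) + 1 := by
    rw [Int.card_Icc]
    have : ((⌈R / δ⌉ + 1 - -⌈R / δ⌉).toNat : ℤ) = 2 * ⌈R / δ⌉ + 1 := by omega
    exact_mod_cast this
  have h3 : (2 * (⌈R / δ⌉ : ℝ) + 1) * δ ≤ 2 * R + 3 := by
    have : R / δ * δ = R := by field_simp
    nlinarith
  have h4 : (0 : ℝ) ≤ ⌈R / δ⌉ := by exact_mod_cast h0
  rw [Fintype.card_coe, Bs, Finset.card_product, Nat.cast_mul, h2]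
  calc _ = ((2 * (⌈R / δ⌉ : ℝ) + 1) * δ) ^ 2 := by ring
    _ ≤ _ := by gcongr

/-- the part of `g` in one box -/
def pc (δ : ℝ) (g : ℂ → ℝ) (w : ℤ × ℤ) (x : ℂ) : ℝ := if bx δ x = w then g x else 0

theorem pc_tf {δ R : ℝ} {z : ℂ} {g : ℂ → ℝ} (h : Tf z R g) (w : ℤ × ℤ) : Tf z R (pc δ g w) := by
  refine ⟨Measurable.ite (bx_meas δ (measurableSet_singleton w)) h.meas measurable_const,
    fun x => ?_, fun x hx => h.sup x fun h0 => hx ?_⟩
  · unfold pc
    split_ifs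
    · exact h.bd x
    · simp
  · simp [pc, h0]

theorem fl_near {δ u : ℝ} (hδ : 0 < δ) : |u - δ * ⌊u / δ⌋| < δ := by
  have h1 := Int.floor_le (u / δ)
  have h2 := Int.lt_floor_add_one (u / δ)
  rw [le_div_iff₀ hδ] at h1
  rw [div_lt_iff₀ hδ] at h2
  rw [abs_lt]
  constructor <;> nlinarith

theorem pc_tf' {δ R : ℝ} (hδ : 0 < δ) {z : ℂ} {g : ℂ → ℝ} (h : Tf z R g) (w : ℤ × ℤ) :
    Tf ⟨δ * w.1, δ * w.2⟩ (2 * δ) (pc δ g w) := by
  refine ⟨(pc_tf h w).meas, (pc_tf h w).bd, fun x hx => ?_⟩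
  have hw : bx δ x = w := by
    by_contra h0
    exact hx (by simp [pc, h0])
  subst hw
  rw [mem_ball, dist_eq_norm]
  refine (Complex.norm_le_abs_re_add_abs_im _).trans_lt ?_
  have h1 := fl_near (u := x.re) hδ
  have h2 := fl_near (u := x.im) hδ
  simp only [Complex.sub_re, Complex.sub_im, bx]
  linarith

theorem sum_pc {δ R : ℝ} (hδ : 0 < δ) {g : ℂ → ℝ} (h : Tf 0 R g) (x : ℂ) :
    ∑ w : Bs R δ, pc δ g w x = g x := by
  by_cases h0 : g x = 0
  · simp [pc, h0]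
  · rw [Finset.sum_eq_single (⟨bx δ x, bx_mem hδ (h.sup x h0)⟩ : Bs R δ)]
    · simp [pc]
    · intro w _ hw
      have : bx δ x ≠ w := fun e => hw (Subtype.ext e.symm)
      simp [pc, this]
    · simp

theorem sum_inj {δ R : ℝ} (hδ : 0 < δ) {n : ℕ} {f : Fin n → ℂ → ℝ} (h : ∀ i, Tf 0 R (f i))
    (x : Fin n → ℂ) (c : ℝ) :
    (∑ w : Fin n → Bs R δ, if Function.Injective w then (∏ i, pc δ (f i) (w i) (x i)) * c else 0) =
      Set.indicator {x : Fin n → ℂ | Function.Injective fun i => bx δ (x i)}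
        (fun x' => (∏ i, f i (x' i)) * c) x := by
  classical
  by_cases h0 : ∃ i, f i (x i) = 0
  · obtain ⟨i, hi⟩ := h0
    have e1 : ∀ w : Fin n → Bs R δ, ∏ i, pc δ (f i) (w i) (x i) = 0 := fun w =>
      Finset.prod_eq_zero (Finset.mem_univ i) (by simp [pc, hi])
    have e2 : ∏ i, f i (x i) = 0 := Finset.prod_eq_zero (Finset.mem_univ i) hi
    simp [e1, e2, Set.indicator]
  · push Not at h0
    let w0 : Fin n → Bs R δ := fun i => ⟨bx δ (x i), bx_mem hδ ((h i).sup _ (h0 i))⟩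
    rw [Finset.sum_eq_single w0]
    · have e1 : Function.Injective w0 ↔ Function.Injective fun i => bx δ (x i) :=
        (Function.Injective.of_comp_iff Subtype.val_injective w0).symm
      have e2 : ∏ i, pc δ (f i) (w0 i) (x i) = ∏ i, f i (x i) :=
        Finset.prod_congr rfl fun i _ => by simp [pc, w0]
      by_cases h1 : Function.Injective fun i => bx δ (x i)
      · rw [if_pos (e1.2 h1), e2, Set.indicator_of_mem (by exact h1)]
      · rw [if_neg (fun h2 => h1 (e1.1 h2)), Set.indicator_of_notMem (by exact h1)]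
    · intro w _ hw
      obtain ⟨i, hi⟩ := Function.ne_iff.1 hw
      have : bx δ (x i) ≠ w i := fun e => hi (Subtype.ext e.symm)
      have e1 : ∏ i, pc δ (f i) (w i) (x i) = 0 :=
        Finset.prod_eq_zero (Finset.mem_univ i) (by simp [pc, this])
      simp [e1]
    · simp

theorem inj_meas (δ : ℝ) (n : ℕ) :
    MeasurableSet {x : Fin n → ℂ | Function.Injective fun i => bx δ (x i)} := by
  have h : Measurable fun (x : Fin n → ℂ) (i : Fin n) => bx δ (x i) :=
    measurable_pi_lambda _ fun i => (bx_meas δ).comp (measurable_pi_apply i)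
  exact h (Set.to_countable {v : Fin n → ℤ × ℤ | Function.Injective v}).measurableSet

theorem near2 (dl : DL) (fub : FUB) (mo : MOM) : NEAR := by
  classical
  intro Ω _ μ φ hF n R hR
  have := hF.prob
  have hB : ∀ a > (0 : ℝ), ∀ z ε g, Tf z ε g → BM (sm φ a g) := fun a ha z ε g hg =>
    ⟨((fub Ω μ φ hF a ha).1 z ε g hg).1, _, ((fub Ω μ φ hF a ha).1 z ε g hg).2.2.2.1⟩
  obtain ⟨A, hA0, hA⟩ := mo Ω μ φ hF (2 * n) (even_two_mul n)
  set A1 : ℝ := A * (R ^ (15 / 8 : ℝ)) ^ (2 * n) with hA1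
  have hA10 : 0 ≤ A1 := by positivity
  have hS : ∀ a > (0 : ℝ), ∀ f : Fin n → ℂ → ℝ, (∀ i, Tf 0 R (f i)) →
      Integrable (fun ω => ∑ i, sm φ a (f i) ω ^ (2 * n)) μ ∧
      ∫ ω, ∑ i, sm φ a (f i) ω ^ (2 * n) ∂μ ≤ n * A1 := by
    intro a ha f hf
    have hi : ∀ i ∈ Finset.univ, Integrable (fun ω => sm φ a (f i) ω ^ (2 * n)) μ :=
      fun i _ => ((hB a ha _ _ _ (hf i)).pow _).int
    refine ⟨integrable_finset_sum _ hi, ?_⟩
    rw [integral_finset_sum _ hi]
    refine (Finset.sum_le_sum fun i _ => hA a ha R hR 0 _ (hf i)).trans ?_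
    simp [hA1]
  constructor
  · refine ⟨1 + n * A1, fun a ha f hf => ?_⟩
    obtain ⟨h1, h2⟩ := hS a ha f hf
    refine abs_integral_le_integral_abs.trans ?_
    refine (integral_mono (BM.prod _ fun i => hB a ha _ _ _ (hf i)).int.abs
      ((integrable_const 1).add h1) fun ω => ?_).trans ?_
    · obtain ⟨t, ht0, ht1, ht2⟩ := exists_t (fun i => |sm φ a (f i) ω|) (fun i => abs_nonneg _) n
      have e : ∀ i, |sm φ a (f i) ω| ^ (2 * n) = sm φ a (f i) ω ^ (2 * n) := fun i =>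
        (even_two_mul n).pow_abs _
      simp only [e] at ht2
      refine le_trans ?_ ht2
      show |∏ i, sm φ a (f i) ω| ≤ _
      rw [Finset.abs_prod]
      refine (Finset.prod_le_prod (fun i _ => abs_nonneg _) fun i _ => ht1 i).trans ?_
      simp
    · simp only [Pi.add_apply]
      rw [integral_add (integrable_const 1) h1]
      simpa using h2
  intro η hη
  obtain ⟨c, hc0, hc⟩ := dl n
  set T : ℝ := 1 + n * A1 + n * A with hT
  have hT0 : 0 < T := by positivity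
  set lam : ℝ := min 1 (η / (c * T + 1)) with hlam
  have hl0 : 0 < lam := lt_min one_pos (by positivity)
  have hl1 : lam ≤ 1 := min_le_left _ _
  have hl2 : c * lam ^ 2 * T ≤ η := by
    have h1 : lam * (c * T + 1) ≤ η := (le_div_iff₀ (by positivity)).1 (min_le_right _ _)
    have h2 : lam ^ 2 ≤ lam := by nlinarith
    have h3 : c * lam ^ 2 * T ≤ c * lam * T := by gcongr
    nlinarith
  have hev : ∀ᶠ δ in 𝓝[>] (0 : ℝ), δ ∈ Set.Ioo (0 : ℝ)
      (min (1 / 2) (lam ^ 2 / (8 * (2 * R + 3) ^ 2))) :=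
    Ioo_mem_nhdsGT (lt_min (by norm_num) (by positivity))
  filter_upwards [hev] with δ hδ a ha f hf
  obtain ⟨hδ0, hδ1⟩ := hδ
  have hδ2 : δ ≤ 1 / 2 := (hδ1.trans_le (min_le_left _ _)).le
  have hδ3 : δ * (8 * (2 * R + 3) ^ 2) ≤ lam ^ 2 :=
    (le_div_iff₀ (by positivity)).1 (hδ1.trans_le (min_le_right _ _)).le
  obtain ⟨hS1, hS2⟩ := hS a ha f hf
  obtain ⟨hf1, hf2⟩ := fub Ω μ φ hF a ha
  set y : Fin n → Bs R δ → Ω → ℝ := fun i w => sm φ a (pc δ (f i) w) with hy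
  have hyB : ∀ i w, BM (y i w) := fun i w => hB a ha _ _ _ (pc_tf (hf i) w)
  have hsum : ∀ i ω, ∑ w, y i w ω = sm φ a (f i) ω := by
    intro i ω
    simp only [hy, sm]
    rw [← integral_finset_sum _ fun w _ => (hf1 _ _ _ (pc_tf (hf i) (w : Bs R δ))).2.2.1 ω]
    simp only [← Finset.sum_mul, sum_pc hδ0 (hf i)]
  have hI : ∀ w : Fin n → Bs R δ, Integrable
      (fun ω => if Function.Injective w then ∏ i, y i (w i) ω else 0) μ := by
    intro w
    by_cases h : Function.Injective w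
    · simp only [if_pos h]
      exact (BM.prod _ fun i => hyB i (w i)).int
    · simp only [if_neg h]
      exact integrable_const _
  have hE : ∫ x in {x : Fin n → ℂ | Function.Injective fun i => bx δ (x i)},
      (∏ i, f i (x i)) * cr μ φ a x =
      ∫ ω, (∑ w : Fin n → Bs R δ, if Function.Injective w then ∏ i, y i (w i) ω else 0) ∂μ := by
    rw [integral_finset_sum _ fun w _ => hI w, ← integral_indicator (inj_meas δ n)]
    have e1 : ∀ x : Fin n → ℂ, Set.indicator {x : Fin n → ℂ | Function.Injective fun i => bx δ (x i)}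
        (fun x => (∏ i, f i (x i)) * cr μ φ a x) x = ∑ w : Fin n → Bs R δ,
        if Function.Injective w then (∏ i, pc δ (f i) (w i) (x i)) * cr μ φ a x else 0 := by
      intro x
      rw [sum_inj hδ0 hf x (cr μ φ a x)]
      simp only [Set.indicator]
    simp only [e1]
    rw [integral_finset_sum]
    · refine Finset.sum_congr rfl fun w _ => ?_
      by_cases h : Function.Injective w
      · simp only [if_pos h]
        exact ((hf2 n).2 0 R (fun i => pc δ (f i) (w i)) fun i => pc_tf (hf i) _).2.symm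
      · simp [if_neg h]
    · intro w _
      by_cases h : Function.Injective w
      · simp only [if_pos h]
        exact ((hf2 n).2 0 R (fun i => pc δ (f i) (w i)) fun i => pc_tf (hf i) _).1
      · simp only [if_neg h]
        exact integrable_zero _ _ _
  set m : ℝ := ((Fintype.card (Bs R δ) : ℕ) : ℝ) with hm
  have hm0 : 0 ≤ m := Nat.cast_nonneg _
  set κ : ℝ := m ^ (n - 1) / lam ^ (2 * n) with hκ
  have hκ0 : 0 ≤ κ := by positivity
  have hyI : ∀ i, ∀ w ∈ Finset.univ, Integrable (fun ω => y i w ω ^ (2 * n)) μ :=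
    fun i w _ => ((hyB i w).pow _).int
  have hyI2 : ∀ i ∈ Finset.univ, Integrable (fun ω => κ * ∑ w, y i w ω ^ (2 * n)) μ :=
    fun i _ => (integrable_finset_sum _ (hyI i)).const_mul κ
  have hQ : ∀ i, ∫ ω, κ * ∑ w, y i w ω ^ (2 * n) ∂μ ≤ A := by
    intro i
    rw [integral_const_mul, integral_finset_sum _ (hyI i)]
    have h1 : ∑ w, ∫ ω, y i w ω ^ (2 * n) ∂μ ≤ m * (A * ((2 * δ) ^ (15 / 8 : ℝ)) ^ (2 * n)) := by
      refine (Finset.sum_le_sum fun w _ => hA a ha (2 * δ) (by positivity) _ _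
        (pc_tf' hδ0 (hf i) (w : Bs R δ))).trans ?_
      simp [hm]
    have h2 : ((2 * δ) ^ (15 / 8 : ℝ)) ^ 2 ≤ (2 * δ) ^ 3 := by
      rw [← Real.rpow_natCast, ← Real.rpow_mul (by positivity), ← Real.rpow_natCast]
      exact Real.rpow_le_rpow_of_exponent_ge (by positivity) (by linarith) (by norm_num)
    have h3 : m * ((2 * δ) ^ (15 / 8 : ℝ)) ^ 2 ≤ lam ^ 2 := by
      have h4 := card_Bs hR hδ0 (by linarith)
      calc _ ≤ m * (2 * δ) ^ 3 := by gcongr
        _ = 8 * δ * (m * δ ^ 2) := by ring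
        _ ≤ 8 * δ * (2 * R + 3) ^ 2 := by gcongr
        _ ≤ _ := by linarith
    have h5 : m ^ (n - 1) * m = m ^ n := pow_sub_one_mul i.pos.ne' m
    have h6 : (m * ((2 * δ) ^ (15 / 8 : ℝ)) ^ 2) ^ n ≤ (lam ^ 2) ^ n := by gcongr
    calc _ ≤ κ * (m * (A * ((2 * δ) ^ (15 / 8 : ℝ)) ^ (2 * n))) := by gcongr
      _ = A * ((m * ((2 * δ) ^ (15 / 8 : ℝ)) ^ 2) ^ n / (lam ^ 2) ^ n) := by
          rw [hκ, mul_pow, ← h5, ← pow_mul, ← pow_mul]; ring
      _ ≤ A := mul_le_of_le_one_right hA0 (by rw [div_le_one (by positivity)]; exact h6)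
  have hP : Integrable (fun ω => ∏ i, sm φ a (f i) ω) μ :=
    (BM.prod _ fun i => hB a ha _ _ _ (hf i)).int
  have hI' := integrable_finset_sum Finset.univ fun w _ => hI w
  have hG := integrable_finset_sum _ hyI2
  rw [hE, ← integral_sub hP hI']
  refine abs_integral_le_integral_abs.trans ?_
  refine (integral_mono (hP.sub hI').abs
    ((((integrable_const 1).add hS1).add hG).const_mul (c * lam ^ 2)) fun ω => ?_).trans ?_
  · obtain ⟨t, ht0, ht1, ht2⟩ := exists_t (ι := Fin n ⊕ Fin n)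
      (Sum.elim (fun i => |sm φ a (f i) ω|) fun i => √(∑ w, y i w ω ^ 2) / lam)
      (by rintro (i | i) <;> simp only [Sum.elim_inl, Sum.elim_inr] <;> positivity) n
    have h1 := hc (Bs R δ) (fun i w => y i w ω) t lam ht0 hl0.le hl1
      (fun i => by rw [hsum]; exact ht1 (Sum.inl i)) fun i => by
        have h2 : √(∑ w, y i w ω ^ 2) ≤ t * lam := (div_le_iff₀ hl0).1 (ht1 (Sum.inr i))
        rw [mul_comm]
        exact Real.sqrt_le_iff.1 h2 |>.2
    simp only [hsum] at h1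
    refine h1.trans (mul_le_mul_of_nonneg_left (ht2.trans ?_) (by positivity))
    rw [Fintype.sum_sum_type]
    simp only [Sum.elim_inl, Sum.elim_inr, Pi.add_apply, (even_two_mul n).pow_abs, add_assoc]
    refine add_le_add le_rfl (add_le_add le_rfl (Finset.sum_le_sum fun i _ => ?_))
    exact qb i.pos (fun w => y i w ω) hl0
  · rw [integral_const_mul]
    refine le_trans (mul_le_mul_of_nonneg_left ?_ (by positivity)) hl2
    simp only [Pi.add_apply]
    have h8 : Integrable (fun ω => 1 + ∑ i, sm φ a (f i) ω ^ (2 * n)) μ :=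
      (integrable_const 1).add hS1
    rw [integral_add h8 hG, integral_add (integrable_const 1) hS1,
      integral_finset_sum _ hyI2]
    have h7 : ∑ i, ∫ ω, κ * ∑ w, y i w ω ^ (2 * n) ∂μ ≤ n * A :=
      (Finset.sum_le_sum fun i _ => hQ i).trans (by simp)
    simp only [integral_const, probReal_univ, smul_eq_mul, mul_one]
    linarith

end Vale.Agent.P144W.N2
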