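import Vale.Agent.P144A.An
import Vale.Agent.P144A.Unif
import Vale.Agent.P144D.PS.Box
import Vale.Agent.P144D.B.Bd
import Vale.Agent.P144D.B.Shr
import Vale.Agent.P144D.B.Gap
import Vale.Agent.P144D.FD.Plane
import Vale.Agent.P144D.MN.Main

/-!
Universality in the plane along the analytic critical branch, without the domain files.
-/

namespace Vale.Agent.P144Z.AN.Pl

open Finset Filter Topology

theorem lim_two (a : ℝ) : Tendsto (fun j : ℕ => a / (2 : ℝ) ^ j) atTop (𝓝 0) :=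
  (tendsto_pow_atTop_atTop_of_one_lt one_lt_two).const_div_atTop a

open Mn in
theorem ch_of {L : ℕ} {q : Par} {Z a b s : ℝ} (hL : 64 ≤ L) (hq : q.Ok)
    (hz : ∀ j, |FM.zr L q j - Z * (-2 * tc)| ≤ 1 / 2 ^ j) (hP : MN.Pl L q Z a b)
    (hs : MN.Sg L q Z a b s) : Ch L q ∧ sg L q = s ∧ ze L q = Z := by
  have h1 : Tendsto (FM.zr L q) atTop (𝓝 (Z * (-2 * tc))) :=
    tendsto_iff_norm_sub_tendsto_zero.2 (squeeze_zero (fun _ => norm_nonneg _) hz (lim_two 1))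
  have h2 : Tendsto (sr L q) itl (𝓝 s) := by
    obtain ⟨w, hw, J₀, h⟩ := hP 2 3 (by norm_num)
    refine tendsto_iff_norm_sub_tendsto_zero.2 (squeeze_zero' (Eventually.of_forall fun _ =>
      norm_nonneg _) (g := fun p => 9600 * (a / 2 ^ p.1)) (eventually_curry_iff.2 ?_) ?_)
    · filter_upwards [eventually_ge_atTop J₀] with J hJ
      obtain ⟨M₀, h⟩ := h J hJ _ le_rfl (Nat.mul_le_mul_left _ (sc_mono (by omega) J.le_succ))
      filter_upwards [eventually_ge_atTop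
        (M₀ + 16 * (q.R + 1) + 8 * (2 * (8 * sc L J) + 1) + 8 * (8 * sc L J))] with M hM
      have h8 := eight_le_sc (L := L) (by omega) J
      have hp := pos_gs (8 * sc L J) (by omega)
      obtain ⟨N, D⟩ := exists_dat hL hq hw le_rfl h (n := 2) (m := 0) (by norm_num) le_rfl ![] hp
        (M + 1) (by omega)
      exact hs _ _ _ _ _ _ _ D _
        (((geoM_spec (by norm_num) ![] J hp (by omega)).2.2.2.2 _).2 ⟨0, rfl⟩)
    · have := (((lim_two a).const_mul 9600).comp tendsto_fst).mono_left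
        (curry_le_prod (m := (atTop : Filter ℕ)))
      rwa [mul_zero] at this
  have e1 : sg L q = s := h2.limUnder_eq
  have e2 : ze L q = Z := by
    rw [ze, h1.limUnder_eq, mul_div_cancel_right₀ _ (by have := FM.tc_lo; linarith)]
  exact ⟨⟨e2 ▸ h1, e1 ▸ h2⟩, e1, e2⟩

open Mn in
theorem genP : ∃ L₀ : ℕ, ∀ L ≥ L₀, ∀ ε > 0, ∃ η > 0, ∀ R : ℕ, ∃ δ > 0, ∀ q : Par, q.R = R →
    Crit L q η δ → Ch L q ∧ |Real.exp (sg L q) - 1| < ε ∧ |ze L q - 1| < ε ∧
      MainOK q (Real.exp (sg L q)) (ze L q) := by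
  obtain ⟨L₁, hL₁, hP⟩ := flowU
  refine ⟨max L₁ 64, fun L hL ε hε => ?_⟩
  simp only [ge_iff_le, max_le_iff] at hL
  obtain ⟨l1, l3⟩ := hL
  obtain ⟨E, hC, ηa, hηa, hP⟩ := hP L l1
  have hE0 : 0 < E := by linarith
  set η := min ηa (min ε 1 / (20000 * E)) with hη
  have hm0 : 0 < min ε 1 := lt_min hε one_pos
  have hη0 : 0 < η := by positivity
  have hCη : E * η ≤ min ε 1 / 20000 := by
    calc E * η ≤ E * (min ε 1 / (20000 * E)) :=
          mul_le_mul_of_nonneg_left (min_le_right _ _) hE0.le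
      _ = _ := by field_simp
  have hm1 := min_le_left ε 1
  have hm2 := min_le_right ε 1
  refine ⟨η, hη0, fun R => ?_⟩
  obtain ⟨δa, hδa, hP⟩ := hP η hη0 (min_le_left _ _) R
  refine ⟨δa, hδa, fun q hR hq => ?_⟩
  obtain ⟨Z, z1, z2, z3, hP⟩ := hP q hR hq
  have hP' : MN.Pl L q Z (E * η) E := hP
  obtain ⟨w, J₀, h⟩ := MN.exists_ref l3 hq.ok hP'
  obtain ⟨s, hs, hs'⟩ := exists_sigma l3 (w := w) (J₀ := J₀) fun i => h (J₀ + i) (by omega) _
    le_rfl (Nat.mul_le_mul_left _ (sc_mono (by omega) (by omega)))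
  obtain ⟨ch, e3, e4⟩ := ch_of l3 hq.ok z3 hP' hs'
  rw [e3, e4]
  refine ⟨ch, ?_, by linarith, MN.main_plane l3 hq.ok hP' hs'⟩
  have := Real.abs_exp_sub_one_le (x := s) (by linarith)
  linarith

end Vale.Agent.P144Z.AN.Pl

namespace Vale.Agent.P144Z.AN

open Filter Topology Vale.Agent.P144 U2D Set

/-- The plane half of `DomA`. -/
theorem planeA : ∀ J > 0, ∀ V, IsPotential V → ∃ lam₀ > 0, ∃ β Zσ Zε : ℝ → ℝ,
    AnalyticOnNhd ℝ β (Ioo (-lam₀) lam₀) ∧ AnalyticOnNhd ℝ Zσ (Ioo (-lam₀) lam₀) ∧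
    AnalyticOnNhd ℝ Zε (Ioo (-lam₀) lam₀) ∧ β 0 = Kc / J ∧ Zσ 0 = 1 ∧ Zε 0 = 1 ∧
    ∀ lam : ℝ, |lam| < lam₀ → 0 < β lam ∧ 0 < Zσ lam ∧ 0 < Zε lam ∧
      ∃ μ, IsPlaneState J lam V (β lam) μ ∧ IsTorusState J lam V (β lam) μ ∧
        ∀ E₀, PlaneFam J 0 (fun _ => 0) (Kc / J) E₀ →
          LocDiff univ E₀ (famOf μ) (Zσ lam) (Zε lam) ∧
            Identity univ E₀ (famOf μ) (Zσ lam) (Zε lam) := by
  obtain ⟨LX, hX⟩ := boxStmt (bdStmt_of shrStmt) gapStmt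
  obtain ⟨LB, hB⟩ := ana
  obtain ⟨LS, hS⟩ := stateStmt
  obtain ⟨LG, hG⟩ := Pl.genP
  obtain ⟨L, hL⟩ : ∃ L, LB + LS + LX + LG + 2 ≤ L := ⟨_, le_rfl⟩
  obtain ⟨ηB, hηB, hB⟩ := hB L (by omega)
  obtain ⟨ηS, hηS, hS⟩ := hS L (by omega)
  obtain ⟨ηX, hηX, hX⟩ := hX L (by omega)
  replace hG := hG L (by omega)
  intro J hJ V hV
  obtain ⟨R, hR⟩ := U4.exists_R hV
  have z0 : ∀ ε > 0, |(qc L V R 0).x - tc| ≤ ε ∧ |Real.exp (sg L (qc L V R 0)) - 1| ≤ ε ∧
      |ze L (qc L V R 0) - 1| ≤ ε := fun ε hε => by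
    obtain ⟨η, hη, h⟩ := hG ε hε
    obtain ⟨δ, hδ, h⟩ := h R
    obtain ⟨κ₀, k0, h', -⟩ := hB (min ηB (min η ε)) (by positivity) (min_le_left _ _) V R hV hR δ hδ
    have hq := h' 0 (by simpa using k0)
    obtain ⟨-, h1, h2, -⟩ := h _ rfl (hq.mono ((min_le_right _ _).trans (min_le_left _ _)) le_rfl)
    exact ⟨hq.x.trans ((min_le_right _ _).trans (min_le_right _ _)), h1.le, h2.le⟩
  have z1 : ∀ {a b : ℝ}, (∀ ε > 0, |a - b| ≤ ε) → a = b := fun h =>
    sub_eq_zero.1 (abs_nonpos_iff.1 (le_of_forall_pos_le_add fun ε hε => by simpa using h ε hε))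
  obtain ⟨ηM, hηM, hG⟩ := hG (1 / 2) (by positivity)
  obtain ⟨δS, hδS, hS1⟩ := hS R
  obtain ⟨δ0, hδ0, hS0⟩ := hS 0
  obtain ⟨δM, hδM, hG⟩ := hG R
  obtain ⟨δX, hδX, hX⟩ := hX R
  obtain ⟨κ₀, hκ₀, hB, a1, a2⟩ := hB (min (min ηB ηS) (min ηM ηX)) (by positivity)
    ((min_le_left _ _).trans (min_le_left _ _)) V _ hV hR (min (min δS 1) (min δM δX))
    (by positivity)
  replace hG := fun k hk => hG _ rfl ((hB k hk).mono ((min_le_right _ _).trans (min_le_left _ _))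
    ((min_le_right _ _).trans (min_le_left _ _)))
  obtain ⟨a2, a3⟩ := a2 fun k hk => (hG k hk).1
  have hk : ∀ lam : ℝ, |lam| < 2 * J * κ₀ → |lam / (2 * J)| < κ₀ := fun lam hlam => by
    rw [abs_div, abs_of_pos (by positivity : 0 < 2 * J), div_lt_iff₀ (by positivity)]
    linarith
  have cp : ∀ {f : ℝ → ℝ}, AnalyticOnNhd ℝ f (Ioo (-κ₀) κ₀) →
      AnalyticOnNhd ℝ (fun lam => f (lam / (2 * J))) (Ioo (-(2 * J * κ₀)) (2 * J * κ₀)) :=
    fun hf => hf.comp (analyticOnNhd_id.div_const (c := 2 * J))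
      fun lam h => abs_lt.1 (hk lam (abs_lt.2 h))
  refine ⟨2 * J * κ₀, by positivity, fun lam => -Real.log (qc L V R (lam / (2 * J))).x / (2 * J),
    fun lam => Real.exp (sg L (qc L V R (lam / (2 * J)))), fun lam => ze L (qc L V R (lam / (2 * J))),
    cp (f := fun k => -Real.log (qc L V R k).x / (2 * J)) ((a1.log fun k h =>
      lt_of_lt_of_le (by norm_num) (hB k (abs_lt.2 h)).ok.x_lo).neg.div_const),
    cp a3.rexp, cp a2, ?_, ?_, ?_, fun lam hlam => ?_⟩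
  · simp only [zero_div]
    rw [z1 fun ε hε => (z0 ε hε).1, U4.tc_eq, Real.log_exp]
    field_simp
  · simpa only [zero_div] using z1 fun ε hε => (z0 ε hε).2.1
  · simpa only [zero_div] using z1 fun ε hε => (z0 ε hε).2.2
  have hq := hB _ (hk lam hlam)
  obtain ⟨-, -, z2, hmain⟩ := hG _ (hk lam hlam)
  beta_reduce
  have zp := Real.exp_pos (sg L (qc L V R (lam / (2 * J))))
  generalize Real.exp (sg L (qc L V R (lam / (2 * J)))) = Zσ at *
  generalize ze L (qc L V R (lam / (2 * J))) = Zε at *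
  have hμ : (qc L V R (lam / (2 * J))).μ =
      lam / (2 * J) * -Real.log (qc L V R (lam / (2 * J))).x := rfl
  have hV' : (qc L V R (lam / (2 * J))).V = V := rfl
  have hR' : (qc L V R (lam / (2 * J))).R = R := rfl
  generalize qc L V R (lam / (2 * J)) = q at *
  subst hV' hR'
  have hx0 : 0 < q.x := lt_of_lt_of_le (by norm_num) hq.ok.x_lo
  have hx1 : q.x < 1 := lt_of_le_of_lt hq.ok.x_hi (by norm_num)
  have hrel : U4.Rel J lam (-Real.log q.x / (2 * J)) q :=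
    { pot := hV
      range := hR
      mu := by rw [hμ]; ring
      x := by
        rw [show -(2 * (-Real.log q.x / (2 * J)) * J) = Real.log q.x by field_simp,
          Real.exp_log hx0]
      st := hS1 q rfl (hq.mono ((min_le_left _ _).trans (min_le_right _ _))
        ((min_le_left _ _).trans (min_le_left _ _))) }
  have hrel0 := U4.rel_zero hJ (hS0 par0 rfl (crit_par0 L ηS δ0 hηS.le hδ0.le))
  have hbox := hX q rfl
    (hq.mono ((min_le_right _ _).trans (min_le_right _ _))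
      ((min_le_right _ _).trans (min_le_right _ _))) J lam _ hrel
  obtain ⟨μ, hμ⟩ := U1.exists_state hV J lam _ hrel.spin
  refine ⟨div_pos (neg_pos.2 (Real.log_neg hx0 hx1)) (by positivity), zp,
    by linarith [abs_lt.1 z2], μ, hbox μ hμ, hμ, fun E₀ hE => ?_⟩
  have h := (udiff_plane hJ hrel hrel0 hmain hμ hE).loc isOpen_univ
  exact ⟨h, ident h.diff⟩

end Vale.Agent.P144Z.AN
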