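import Vale.Agent.P144W.Fub

/-!
# P144W: moments of smeared fields for bounded test functions with bounded support
-/

set_option autoImplicit false
set_option linter.all false

noncomputable section

namespace Vale.Agent.P144W

open MeasureTheory Filter Topology Metric

theorem exists_tf {n : ℕ} (f : Fin n → ℂ → ℝ)
    (hf : ∀ i, Measurable (f i) ∧ (∃ B, ∀ x, |f i x| ≤ B) ∧
      Bornology.IsBounded (Function.support (f i))) :
    ∃ B > (0 : ℝ), ∃ R > (0 : ℝ), ∃ g : Fin n → ℂ → ℝ, (∀ i, Tf 0 R (g i)) ∧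
      ∀ i x, f i x = B * g i x := by
  choose B hB using fun i => (hf i).2.1
  have hb : Bornology.IsBounded (⋃ i, Function.support (f i)) :=
    Bornology.isBounded_iUnion.2 fun i => (hf i).2.2
  obtain ⟨R, hR, hs⟩ := hb.subset_ball_lt 0 (0 : ℂ)
  have h1 : (0 : ℝ) < 1 + ∑ i, |B i| := by positivity
  refine ⟨1 + ∑ i, |B i|, h1, R, hR, fun i x => f i x / (1 + ∑ i, |B i|),
    fun i => ⟨(hf i).1.div_const _, fun x => ?_, fun x hx => ?_⟩, fun i x => ?_⟩
  · rw [abs_div, abs_of_pos h1, div_le_one h1]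
    have h2 : |B i| ≤ ∑ j, |B j| :=
      Finset.single_le_sum (f := fun j => |B j|) (fun j _ => abs_nonneg _) (Finset.mem_univ i)
    linarith [hB i x, le_abs_self (B i)]
  · refine hs (Set.mem_iUnion.2 ⟨i, fun h0 => hx ?_⟩)
    simp only [h0, zero_div]
  · field_simp

theorem mom_test (cv : CONV) {Ω : Type} [MeasurableSpace Ω] {μ : Measure Ω}
    {φ : ℝ → ℂ → Ω → ℝ} (hF : Fd μ φ) (n : ℕ) (L : (Fin n → ℂ) → ℝ)
    (hL : ∀ x, Function.Injective x → 0 ≤ L x ∧
      Tendsto (fun a => cr μ φ a x) (𝓝[>] 0) (𝓝 (L x))) (f : Fin n → ℂ → ℝ)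
    (hf : ∀ i, Measurable (f i) ∧ (∃ B, ∀ x, |f i x| ≤ B) ∧
      Bornology.IsBounded (Function.support (f i))) :
    Integrable (fun x : Fin n → ℂ => (∏ i, f i (x i)) * L x) ∧
      Tendsto (fun a => ∫ ω, ∏ i, sm φ a (f i) ω ∂μ) (𝓝[>] 0)
        (𝓝 (∫ x : Fin n → ℂ, (∏ i, f i (x i)) * L x)) := by
  obtain ⟨B, -, R, hR, g, hg, e⟩ := exists_tf f hf
  obtain ⟨h1, h2⟩ := cv Ω μ φ hF n L hL R hR g hg
  have e1 : ∀ x : Fin n → ℂ, (∏ i, f i (x i)) * L x = B ^ n * ((∏ i, g i (x i)) * L x) := by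
    intro x
    simp only [e, Finset.prod_mul_distrib, Finset.prod_const, Finset.card_univ, Fintype.card_fin,
      mul_assoc]
  have e2 : ∀ a ω, ∏ i, sm φ a (f i) ω = B ^ n * ∏ i, sm φ a (g i) ω := by
    intro a ω
    have e3 : ∀ i, sm φ a (f i) ω = B * sm φ a (g i) ω := by
      intro i
      simp only [sm, e, mul_assoc, integral_const_mul]
    simp only [e3, Finset.prod_mul_distrib, Finset.prod_const, Finset.card_univ, Fintype.card_fin]
  simp only [e1, e2, integral_const_mul]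
  refine ⟨h1.const_mul _, Tendsto.const_mul _ (h2.congr' ?_)⟩
  filter_upwards [self_mem_nhdsWithin] with a ha
  exact (((fub Ω μ φ hF a ha).2 n).2 0 R g hg).2.symm

end Vale.Agent.P144W
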