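import Vale.Agent.P144W.Sep
import Vale.Agent.P144W.Tst
import Vale.Agent.P144W.Conv
import Vale.Agent.P144W.Near
import Vale.Agent.P144W.Step
import Vale.Agent.P144W.Dl
import Vale.Agent.P144W.Mom
import Vale.Agent.P144W.Sml
import Vale.Agent.P144F58.Defs

/-!
# P144W: the moments of the smeared spin field (helper16)
-/

set_option autoImplicit false
set_option linter.all false

noncomputable section

namespace Vale.Agent.P144W.S16

open MeasureTheory Filter Topology Metric Vale.Agent.P144 Vale.Agent.P144Z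

theorem cv : CONV :=
  conv fub (sml fub (step dl fub) (mom fub (step dl fub))) (near dl fub (mom fub (step dl fub)))

theorem fam0 {J : ℝ} {μ : Measure Config} (hμ : IsPlaneState J 0 (fun _ => 0) (Kc / J) μ) :
    PlaneFam J 0 (fun _ => 0) (Kc / J) (famOf μ) :=
  ⟨fun _ => μ, fun _ _ => hμ, fun _ _ => rfl⟩

theorem loc0 (E : Fam) : LocDiff Set.univ E E 1 1 := by
  intro n m j
  simp only [one_pow, one_mul, sub_self]
  intro u hu z _
  exact ⟨Set.univ, univ_mem, Eventually.of_forall fun _ _ _ => refl_mem_uniformity hu⟩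

theorem sep0 {J : ℝ} (hJ : 0 < J) {μ : Measure Config}
    (hμ : IsPlaneState J 0 (fun _ => 0) (Kc / J) μ) : Fd μ ph :=
  sepm hJ (U1.zero_state hJ hμ) (fam0 hμ) (loc0 _)

/-- the moments of the smeared field in a torus state -/
theorem mom_of {J lam β Zσ Zε : ℝ} {V : Finset Site → ℝ} (hJ : 0 < J) (hV : IsPotential V)
    {μ : Measure Config} (hμ : IsTorusState J lam V β μ) {E₀ : Fam}
    (hE : PlaneFam J 0 (fun _ => 0) (Kc / J) E₀) (hD : LocDiff Set.univ E₀ (famOf μ) Zσ Zε)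
    {C : Pts → ℝ} (hZ : 0 < Zσ) (hC : ∀ p, Good Set.univ p → p.m = 0 → Even p.n → 0 < C p)
    (hl : ∀ p, Good Set.univ p → Lim (famOf μ) p (Zσ ^ p.n * Zε ^ p.m * C p)) :
    P144F58.Mom μ Zσ C := by
  intro n hn f hf
  obtain ⟨h1, h2⟩ := mom_test cv (sepm hJ hμ hE hD) n (fun x => Zσ ^ n * C ⟨n, 0, x, ![], ![]⟩)
    (lim_cr hV hμ hZ.le hC hl hn ![] ![]) f hf
  simp only [mul_left_comm _ (Zσ ^ n), integral_const_mul] at h1 h2
  refine ⟨?_, h2⟩
  have h3 := h1.const_mul (Zσ ^ n)⁻¹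
  simpa only [inv_mul_cancel_left₀ (pow_pos hZ n).ne'] using h3

/-- the moments of the smeared field in the critical nearest neighbour state -/
theorem mom_zero {J : ℝ} (hJ : 0 < J) {C : Pts → ℝ}
    (hC : ∀ p, Good Set.univ p → p.m = 0 → Even p.n → 0 < C p)
    (hl : ∀ p, Good Set.univ p → ∀ E₀, PlaneFam J 0 (fun _ => 0) (Kc / J) E₀ → Lim E₀ p (C p))
    (μ : Measure Config) (hμ : IsPlaneState J 0 (fun _ => 0) (Kc / J) μ) :
    P144F58.Mom μ 1 C :=
  mom_of (Zε := 1) hJ U1.pot_zero (U1.zero_state hJ hμ) (fam0 hμ) (loc0 _) one_pos hC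
    fun p hp => by simpa only [one_pow, one_mul] using hl p hp _ (fam0 hμ)

end Vale.Agent.P144W.S16
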