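import Vale.Agent.P144W.SobD
import Vale.Agent.P144W.L2
import Vale.Agent.P144W.All

/-!
# P144W: the spin field converges in law in a Hilbert space
-/

set_option autoImplicit false
set_option linter.all false

noncomputable section

namespace Vale.Agent.P144W

open MeasureTheory Filter Topology Metric Vale.Agent.P144 Vale.Agent.P144F58

theorem lawS {μ : Measure Config} {Z : ℝ} {C : Pts → ℝ} (hF : Fd μ ph) (hL : Law μ Z C) :
    LawS μ := by
  rintro e w ⟨R, he⟩ hw
  haveI := hF.prob
  letI : MeasurableSpace L2.H := borel _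
  haveI : BorelSpace L2.H := ⟨rfl⟩
  have R0 : (0 : ℝ) < |R| + 1 := by positivity
  have tf : ∀ k, Tf 0 (|R| + 1) (e k) := fun k => ⟨(he k).1, fun x => ((he k).2 x).1, fun x hx => by
    rw [mem_ball_zero_iff]
    have h1 : ‖x‖ < R := not_le.1 fun h => hx (((he k).2 x).2 h)
    linarith [le_abs_self R]⟩
  have te : ∀ k, Test (e k) := fun k => ⟨(he k).1, ⟨1, (tf k).bd⟩,
    isBounded_ball.subset fun x hx => (tf k).sup x hx⟩
  obtain ⟨A, hA, hM⟩ := mom_all _ μ ph hF 2 even_two
  obtain ⟨X, hX, ν, hν, h⟩ := L2.l2law μ (𝓝[>] (0 : ℝ))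
    (fun a k σ => if 0 < a then smear a (e k) σ else 0) (fun a k => by
      split_ifs with ha
      · exact ((fub _ μ ph hF a ha).1 _ _ _ (tf k)).1
      · exact measurable_const) (fun a => by
      split_ifs with ha
      · refine ⟨a ^ (-(1 / 8) : ℝ) * (4 * (|R| + 1) ^ 2), fun k σ => ?_⟩
        obtain ⟨-, -, -, h1, h2⟩ := (fub _ μ ph hF a ha).1 _ _ _ (tf k)
        exact (h1 σ).trans (mul_le_mul_of_nonneg_left (h2 R0.le) (Real.rpow_nonneg ha.le _))
      · exact ⟨0, fun _ _ => by simp⟩) (A := A * ((|R| + 1) ^ (15 / 8 : ℝ)) ^ 2) (by positivity)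
    (fun a k => by
      split_ifs with ha
      · exact hM a ha _ R0 _ _ (tf k)
      · simp only [ne_eq, OfNat.ofNat_ne_zero, not_false_eq_true, zero_pow, integral_zero]
        positivity) hw (fun N F => by
      obtain ⟨τ, -, -, hτ⟩ := hL N (fun i => e i) fun i => te i
      refine ⟨_, (hτ F).congr' ?_⟩
      filter_upwards [self_mem_nhdsWithin] with a ha
      simp only [if_pos (show 0 < a from ha)])
  exact ⟨X, fun a ha σ k => by rw [(hX a).2, if_pos ha], fun a _ => (hX a).1, ν, hν, h⟩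

end Vale.Agent.P144W
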