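import Vale.Agent.P144F58.Defs
import Mathlib.Analysis.Normed.Lp.lpSpace

/-!
Convergence in law of the spin field as a random element of a Hilbert space.
-/

namespace Vale.Agent.P144F58

open Filter Topology MeasureTheory Vale.Agent.P144

/-- The maps `X a`, `a > 0`, are Borel random elements of `H` whose laws converge weakly to a
Borel probability measure as `a` decreases to zero. -/
def InLaw {H : Type} [TopologicalSpace H] (μ : Measure Config) (X : ℝ → Config → H) : Prop :=
  (∀ a > 0, @Measurable _ _ _ (borel H) (X a)) ∧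
    ∃ ν : @Measure H (borel H), IsProbabilityMeasure ν ∧ ∀ F : BoundedContinuousFunction H ℝ,
      Tendsto (fun a => ∫ σ, F (X a σ) ∂μ) (𝓝[>] 0) (𝓝 (∫ y, F y ∂ν))

/-- Measurable functions bounded by one that vanish outside a fixed ball. -/
def Modes (e : ℕ → ℂ → ℝ) : Prop :=
  ∃ R : ℝ, ∀ k, Measurable (e k) ∧ ∀ x, |e k x| ≤ 1 ∧ (R ≤ ‖x‖ → e k x = 0)

/-- For such functions `e k` and square summable weights `w k`, the sequence `w k * S_a (e k)` is
a random element of `ℓ²` that converges in law for the norm topology. -/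
def LawS (μ : Measure Config) : Prop :=
  ∀ (e : ℕ → ℂ → ℝ) (w : ℕ → ℝ), Modes e → (Summable fun k => w k ^ 2) →
    ∃ X : ℝ → Config → lp (fun _ : ℕ => ℝ) 2,
      (∀ a > 0, ∀ σ k, X a σ k = w k * smear a (e k) σ) ∧ InLaw μ X

end Vale.Agent.P144F58
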